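import Crest.Agent.R2.Num

/-!
# Row 2: numerical consequences of `Prm.OK`, part 2 (peak lemma, range, existence)

Hints. `n₁ ≤ 2 Γ exp (c (m+1)) + 1 ≤ 3 Γ exp (c m)² ≤ 3 Γ² (e m) (n m) ≤ n (m + 1)` (`exp_c_le`, `exp_c_le_e`);
`Sp i ≤ i * 2 ^ (n i)` because `g l ≤ n (l + 1) ≤ n i` for `l < i`; also `Sp (m + 1) ≤ (m + 1) 2 ^ (g m)`
(`g l ≤ n m ≤ g m` for `l < m`).
* `peak_diag`: take logs: `2 L + 44 n₁ L + log (Sp m + 1) ≤ g m * log 2`, each term on the left is `≤ g m / 5`.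
* `peak_K`: `2 c m + log L ≤ L`, `J + 1 ≤ 2 n (m + 2)`, `M ≥ exp (0.44 L) / L`, `Γ³ ≤ exp (0.03 L)`, and
  `16384 L⁶ ≤ exp (0.05 L)`.
* `exists_prm`: `Γ = ⌈L⌉₊ ^ 6`; `m` with `2 ^ (m + 1) ∈ [275000 L, 550000 L]` (`Nat.log 2`/`Nat.clog 2`), so
  `m + 1 ≤ log₂ L + 20`; `e i ≤ 2 exp (c i)`, by induction `n i ≤ NU (2 Γ⁴) ^ i exp (c (min i (m + 1)))`
  (`c i + c i = c (i + 1)`; `n 0 = NU ≤ NU exp (c 0)`), and `NU (2 Γ⁴) ^ (m + 2) ≤ exp (0.01 L)` eventually because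
  `(log L)² = o(L)` (`Real.isLittleO_pow_log_id_atTop`, composed with `log y → ∞`).
-/

set_option autoImplicit false
open Finset Filter

noncomputable section
namespace Crest.Agent.R2
namespace Prm.OK
variable {P : Prm} (hP : P.OK)
include hP

omit hP in
theorem n2_two_pow_le (k : ℕ) : (2 : ℝ) ^ k ≤ Real.exp k := by
  rw [← mul_one (k : ℝ), Real.exp_nat_mul]
  exact pow_le_pow_left₀ (by norm_num) (by linarith [Real.add_one_le_exp 1]) k
omit hP in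
theorem n2_exp_le_two_pow (k : ℕ) : Real.exp (k / 2) ≤ (2 : ℝ) ^ k := by
  rw [div_eq_mul_inv, Real.exp_nat_mul]
  refine pow_le_pow_left₀ (Real.exp_pos _).le ?_ k
  rw [← Real.le_log_iff_exp_le (by norm_num)]
  linarith [Real.log_two_gt_d9]
omit hP in
theorem n2_log_le {x u : ℝ} (hx : 0 ≤ x) (hu : 0 ≤ u) (h : x ≤ Real.exp u) : Real.log x ≤ u := by
  rcases hx.eq_or_lt with h0 | h0
  · rw [← h0, Real.log_zero]; exact hu
  · exact (Real.log_le_iff_le_exp h0).2 h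
omit hP in
theorem n2_log_y : Real.log P.y = P.L := rfl

theorem n2_sq_le_Γ : 10 ^ 12 * P.L ^ 2 ≤ P.Γ := by
  have h1 : (1 : ℝ) ≤ P.L := le_trans (by norm_num) hP.hL
  calc 10 ^ 12 * P.L ^ 2 ≤ P.L * P.L ^ 2 := mul_le_mul_of_nonneg_right hP.hL (by positivity)
    _ = P.L ^ 3 := by ring
    _ ≤ P.L ^ 6 := pow_le_pow_right₀ h1 (by norm_num)
    _ ≤ _ := hP.hΓ
theorem n2_L_le_Γ : 10 ^ 12 * P.L ≤ P.Γ := by
  have h1 : (1 : ℝ) ≤ P.L := le_trans (by norm_num) hP.hL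
  have h2 := hP.n2_sq_le_Γ
  nlinarith
theorem n2_Γ_le_y : (P.Γ : ℝ) ≤ P.y := by
  rw [← hP.exp_L]
  exact hP.hΓ'.trans (Real.exp_le_exp.2 (by linarith [hP.L_pos]))
theorem n2_m_le : (P.m : ℝ) ≤ P.L / 10 := by
  have h := hP.hm
  have h0 : (0 : ℝ) ≤ P.m := Nat.cast_nonneg _
  nlinarith
theorem n2_D_le : 10 * (P.D : ℝ) ≤ Real.exp (P.L / 100) := by
  have h : (1 : ℝ) ≤ P.D := by exact_mod_cast hP.hD
  exact (Real.log_le_iff_le_exp (by linarith)).1 hP.hLD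
theorem n2_g_le (l : ℕ) : P.g l ≤ P.n (l + 1) := by
  rw [← Γ_mul_g]
  exact Nat.le_mul_of_pos_left _ hP.Γ_pos
theorem n2_n_le_g (l : ℕ) : P.n l ≤ P.g l :=
  Nat.le_mul_of_pos_left _ (Nat.mul_pos (Nat.pow_pos hP.Γ_pos) (e_pos l))
omit hP in
theorem n2_Sp_le {i b : ℕ} (h : ∀ l < i, P.g l ≤ b) : (P.Sp i : ℝ) + 1 ≤ Real.exp (i + b) := by
  have h1 : P.Sp i ≤ i * 2 ^ b := by
    have := Finset.sum_le_card_nsmul (range i) (fun l => 2 ^ P.g l) (2 ^ b) fun l hl =>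
      Nat.pow_le_pow_right (by norm_num) (h l (mem_range.1 hl))
    rwa [card_range, smul_eq_mul] at this
  have h2 : (P.Sp i : ℝ) ≤ i * 2 ^ b := by exact_mod_cast h1
  have h3 : (1 : ℝ) ≤ 2 ^ b := one_le_pow₀ (by norm_num)
  rw [Real.exp_add]
  calc (P.Sp i : ℝ) + 1 ≤ (i + 1) * 2 ^ b := by linarith
    _ ≤ _ := mul_le_mul (Real.add_one_le_exp _) (n2_two_pow_le b) (by positivity) (Real.exp_pos _).le
theorem n2_Sp_le_n (i : ℕ) : (P.Sp i : ℝ) + 1 ≤ Real.exp (i + P.n i) :=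
  n2_Sp_le fun l hl => (hP.n2_g_le l).trans (hP.n_mono hl)
omit hP in
theorem n2_top : P.n (P.m + 2) = P.Γ ^ 4 * P.n (P.m + 1) := by
  rw [n_succ, Prm.k, e_top, mul_one]
theorem n2_n₁_le : (P.n₁ : ℝ) ≤ 3 * (P.Γ : ℝ) ^ 2 * (P.e P.m * P.n P.m) := by
  have hΓ : (1 : ℝ) ≤ P.Γ := by exact_mod_cast hP.Γ_pos
  have h0 : 1 ≤ Real.exp (P.c (P.m + 1)) := Real.one_le_exp (hP.c_pos _).le
  have h1 : (P.n₁ : ℝ) ≤ 2 * (P.Γ * Real.exp (P.c (P.m + 1))) + 1 := by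
    have e : 2 / P.δ = 2 * (P.Γ * Real.exp (P.c (P.m + 1))) := by
      rw [Prm.δ, div_div_eq_mul_div, div_one]
    rw [Prm.n₁, e]
    exact (Nat.ceil_lt_add_one (by positivity)).le
  have h2 : Real.exp (P.c (P.m + 1)) ≤ P.e P.m * (P.Γ * P.n P.m) := by
    rw [c_succ, two_mul, Real.exp_add]
    exact mul_le_mul (exp_c_le_e le_rfl) (hP.exp_c_le (Nat.le_succ _)) (Real.exp_pos _).le
      (Nat.cast_nonneg _)
  have h3 : 1 ≤ P.Γ * Real.exp (P.c (P.m + 1)) := one_le_mul_of_one_le_of_one_le hΓ h0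
  calc (P.n₁ : ℝ) ≤ 3 * (P.Γ * Real.exp (P.c (P.m + 1))) := by linarith
    _ ≤ 3 * (P.Γ * (P.e P.m * (P.Γ * P.n P.m))) := by gcongr
    _ = _ := by ring
theorem n2_nS_le : (nS P.y : ℝ) ≤ P.L / 250 :=
  Nat.floor_le (by have := hP.L_pos; unfold Prm.L at this; positivity)

theorem δ_pos : 0 < P.δ := by
  have hΓ : (0 : ℝ) < P.Γ := by exact_mod_cast hP.Γ_pos
  unfold Prm.δ
  positivity
theorem M_pos : 0 < P.M := by
  have h1 : (0 : ℝ) < P.n (P.m + 2) := by exact_mod_cast hP.n_pos _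
  have h2 : (0 : ℝ) < P.y := by rw [← hP.exp_L]; exact Real.exp_pos _
  have h3 := hP.η_pos
  unfold Prm.M
  positivity
theorem peak_n : 2 ≤ P.n₁ * P.δ := by
  rw [← div_le_iff₀ hP.δ_pos]
  exact Nat.le_ceil _
theorem peak_M : P.M ≤ P.δ * P.y := by
  have hΓ : (1 : ℝ) ≤ P.Γ := by exact_mod_cast hP.Γ_pos
  have h1 : (0 : ℝ) < P.n (P.m + 1) := by exact_mod_cast hP.n_pos _
  have h2 : (0 : ℝ) < P.y := by rw [← hP.exp_L]; exact Real.exp_pos _
  have h3 : P.Γ * Real.exp (P.c (P.m + 1)) ≤ P.n (P.m + 2) := by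
    rw [n2_top]
    push_cast
    calc P.Γ * Real.exp (P.c (P.m + 1)) ≤ P.Γ * (P.Γ * P.n (P.m + 1)) := by
          have := hP.exp_c_le le_rfl
          gcongr
      _ = (P.Γ : ℝ) ^ 2 * P.n (P.m + 1) := by ring
      _ ≤ _ := mul_le_mul_of_nonneg_right (pow_le_pow_right₀ hΓ (by norm_num)) h1.le
  unfold Prm.M Prm.δ
  rw [one_div_mul_eq_div]
  refine div_le_div₀ h2.le ?_ (by positivity) h3
  exact mul_le_of_le_one_left h2.le (by linarith [hP.η_le])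
theorem peak_diag : (P.y : ℝ) ^ 2 * Real.exp (2 * P.n₁ * (22 * Real.log P.y)) *
    (((P.Sp P.m : ℝ) + 1) / (2 ^ P.g P.m : ℕ)) ≤ 1 := by
  have hΓ := hP.n2_L_le_Γ
  have hL := hP.hL
  have he : (1 : ℝ) ≤ P.e P.m := by exact_mod_cast e_pos P.m
  have hn : (1 : ℝ) ≤ P.n P.m := by exact_mod_cast hP.n_pos P.m
  have hx : (P.n P.m : ℝ) ≤ P.e P.m * P.n P.m := le_mul_of_one_le_left (by linarith) he
  have hg : (P.g P.m : ℝ) = (P.Γ : ℝ) ^ 3 * (P.e P.m * P.n P.m) := by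
    unfold Prm.g; push_cast; ring
  have h1 := hP.n2_n₁_le
  have hm := hP.n2_m_le
  set x : ℝ := P.e P.m * P.n P.m with hxd
  have hΓ1 : (1 : ℝ) ≤ (P.Γ : ℝ) ^ 2 := one_le_pow₀ (by exact_mod_cast hP.Γ_pos)
  have hw : x ≤ (P.Γ : ℝ) ^ 2 * x := le_mul_of_one_le_left (by linarith) hΓ1
  set w : ℝ := (P.Γ : ℝ) ^ 2 * x with hwd
  have hw1 : 1 ≤ w := by linarith
  have hg' : 10 ^ 12 * P.L * w ≤ P.g P.m := by
    rw [hg, hwd]
    calc 10 ^ 12 * P.L * ((P.Γ : ℝ) ^ 2 * x) ≤ P.Γ * ((P.Γ : ℝ) ^ 2 * x) :=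
          mul_le_mul_of_nonneg_right hΓ (by linarith)
      _ = _ := by ring
  have a1 : P.L ≤ P.L * w := le_mul_of_one_le_right (by linarith) hw1
  have a2 : w ≤ P.L * w := le_mul_of_one_le_left (by linarith) (by linarith)
  have a3 : P.n₁ * P.L ≤ 3 * (P.L * w) := by
    calc P.n₁ * P.L ≤ 3 * w * P.L := mul_le_mul_of_nonneg_right (by rw [hwd]; linarith) (by linarith)
      _ = _ := by ring
  rw [← mul_div_assoc, div_le_one (by positivity), n2_log_y, ← hP.exp_L]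
  push_cast
  refine le_trans ?_ (n2_exp_le_two_pow _)
  refine (mul_le_mul_of_nonneg_left (hP.n2_Sp_le_n P.m) (by positivity)).trans ?_
  rw [← Real.exp_nat_mul, ← Real.exp_add, ← Real.exp_add]
  refine Real.exp_le_exp.2 ?_
  push_cast
  nlinarith
theorem peak_K : (2 * P.c P.m + Real.log (1 / P.η)) *
    (5000 / P.Γ + 4096 * P.n₁ ^ 2 * (P.Γ : ℝ) ^ 3 * (P.J + 1) / P.M ^ 4) ≤ P.η := by
  have hL := hP.hL
  have hL0 := hP.L_pos
  have hΓ1 : (1 : ℝ) ≤ P.Γ := by exact_mod_cast hP.Γ_pos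
  have hN1 : (1 : ℝ) ≤ P.n (P.m + 2) := by exact_mod_cast hP.n_pos _
  have hA0 : 0 ≤ 2 * P.c P.m + Real.log (1 / P.η) := by
    rw [Prm.η, one_div_one_div]
    exact add_nonneg (by linarith [hP.c_pos P.m]) (Real.log_nonneg (by linarith))
  have hA : 2 * P.c P.m + Real.log (1 / P.η) ≤ P.L := by
    rw [Prm.η, one_div_one_div, ← c_succ, c_top]
    have h1 : Real.log P.L = Real.log (P.L / 10) + Real.log 10 := by
      rw [Real.log_div hL0.ne' (by norm_num)]; ring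
    have h2 := Real.log_le_sub_one_of_pos (show 0 < P.L / 10 by positivity)
    have h3 := Real.log_le_sub_one_of_pos (show (0 : ℝ) < 10 by norm_num)
    linarith
  have hgN : (P.g P.m : ℝ) ≤ P.n (P.m + 2) := by
    exact_mod_cast (hP.n2_g_le P.m).trans (hP.n_mono (Nat.le_succ _))
  have hΓN : (P.Γ : ℝ) ≤ P.n (P.m + 2) := by
    have : P.Γ ≤ P.n (P.m + 2) := by
      rw [← Γ_mul_g]
      exact Nat.le_mul_of_pos_right _ ((hP.n_pos _).trans (hP.n2_n_le_g _))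
    exact_mod_cast this
  have hJ : P.J + 1 ≤ 2 * P.n (P.m + 2) := by
    have h1 : (P.Sp (P.m + 1) : ℝ) + 1 ≤ Real.exp ((P.m + 1 : ℕ) + P.g P.m) :=
      n2_Sp_le fun l hl => by
        rcases Nat.lt_succ_iff_lt_or_eq.1 hl with h | h
        · exact ((hP.n2_g_le l).trans (hP.n_mono h)).trans (hP.n2_n_le_g _)
        · rw [h]
    have h2 := hP.n2_D_le
    have hD0 : (0 : ℝ) ≤ P.D := Nat.cast_nonneg _
    have h3 : 2 * ((P.D : ℝ) * P.Sp (P.m + 1)) ^ 2 ≤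
        Real.exp (2 * (P.L / 100 + ((P.m + 1 : ℕ) + P.g P.m))) := by
      have h4 : 10 * ((P.D : ℝ) * P.Sp (P.m + 1)) ≤
          Real.exp (P.L / 100 + ((P.m + 1 : ℕ) + P.g P.m)) := by
        rw [Real.exp_add, ← mul_assoc]
        exact mul_le_mul h2 (by linarith) (Nat.cast_nonneg _) (Real.exp_pos _).le
      have h5 := pow_le_pow_left₀ (by positivity) h4 2
      rw [← Real.exp_nat_mul] at h5
      push_cast at h5 ⊢
      nlinarith [sq_nonneg ((P.D : ℝ) * P.Sp (P.m + 1))]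
    have h6 := n2_log_le (by positivity) (by positivity) h3
    have hm := hP.n2_m_le
    have hg0 : (0 : ℝ) ≤ P.g P.m := Nat.cast_nonneg _
    have h7 : P.J ≤ 50 + P.g P.m := by
      unfold Prm.J
      rw [div_le_iff₀ hL0]
      push_cast at h6
      nlinarith
    linarith [hP.n2_L_le_Γ]
  have hn₁ : (P.n₁ : ℝ) ≤ Real.exp (0.56 * P.L) := by
    refine le_trans (hP.n2_n₁_le.trans ?_) (hgN.trans hP.htop)
    unfold Prm.g
    push_cast
    have : 3 * (P.Γ : ℝ) ^ 2 ≤ (P.Γ : ℝ) ^ 3 := by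
      rw [pow_succ' _ 2]
      exact mul_le_mul_of_nonneg_right (by linarith [hP.n2_L_le_Γ]) (by positivity)
    rw [mul_assoc ((P.Γ : ℝ) ^ 3)]
    exact mul_le_mul_of_nonneg_right this (by positivity)
  have hM : Real.exp (0.44 * P.L) / P.L ≤ P.M := by
    unfold Prm.M Prm.η
    rw [← hP.exp_L, one_div_mul_eq_div, div_div, div_le_div_iff₀ hL0 (by positivity)]
    have : Real.exp (0.44 * P.L) * P.n (P.m + 2) ≤ Real.exp P.L := by
      refine (mul_le_mul_of_nonneg_left hP.htop (Real.exp_pos _).le).trans (le_of_eq ?_)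
      rw [← Real.exp_add]; congr 1; ring
    nlinarith
  set E := Real.exp (P.L / 100) with hE
  have hE0 : 0 < E := Real.exp_pos _
  have e44 : Real.exp (0.44 * P.L) = E ^ 44 := by
    rw [hE, ← Real.exp_nat_mul]; congr 1; push_cast; ring
  have e56 : Real.exp (0.56 * P.L) = E ^ 56 := by
    rw [hE, ← Real.exp_nat_mul]; congr 1; push_cast; ring
  have hN := hP.htop
  rw [e56] at hn₁ hN
  rw [e44] at hM
  have hΓE : (P.Γ : ℝ) ≤ E := hP.hΓ'
  have hB : 4096 * P.n₁ ^ 2 * (P.Γ : ℝ) ^ 3 * (P.J + 1) / P.M ^ 4 ≤ 1 / (2 * P.L ^ 2) := by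
    calc 4096 * P.n₁ ^ 2 * (P.Γ : ℝ) ^ 3 * (P.J + 1) / P.M ^ 4
        ≤ 4096 * P.n₁ ^ 2 * (P.Γ : ℝ) ^ 3 * (2 * E ^ 56) / P.M ^ 4 :=
          div_le_div_of_nonneg_right
            (mul_le_mul_of_nonneg_left (by linarith) (by positivity)) (by positivity)
      _ ≤ 4096 * (E ^ 56) ^ 2 * E ^ 3 * (2 * E ^ 56) / (E ^ 44 / P.L) ^ 4 := by gcongr
      _ = 8192 * P.L ^ 4 / E ^ 5 := by field_simp; norm_num
      _ ≤ 1 / (2 * P.L ^ 2) := by
          rw [div_le_div_iff₀ (by positivity) (by positivity)]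
          have a1 : P.L ^ 6 ≤ E := hP.hΓ.trans hΓE
          have a2 : 16384 ≤ E := by linarith [hP.n2_L_le_Γ]
          have a3 : E ^ 2 ≤ E ^ 5 := pow_le_pow_right₀ (by linarith) (by norm_num)
          have a4 : 16384 * P.L ^ 6 ≤ E * E := mul_le_mul a2 a1 (by positivity) hE0.le
          nlinarith
  have hC : 5000 / (P.Γ : ℝ) ≤ 1 / (2 * P.L ^ 2) := by
    rw [div_le_div_iff₀ (by positivity) (by positivity)]
    nlinarith [hP.n2_sq_le_Γ, sq_nonneg P.L]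
  calc _ ≤ (2 * P.c P.m + Real.log (1 / P.η)) * (1 / (2 * P.L ^ 2) + 1 / (2 * P.L ^ 2)) :=
        mul_le_mul_of_nonneg_left (add_le_add hC hB) hA0
    _ ≤ P.L * (1 / (2 * P.L ^ 2) + 1 / (2 * P.L ^ 2)) :=
        mul_le_mul_of_nonneg_right hA (by positivity)
    _ = P.η := by unfold Prm.η; field_simp; norm_num
theorem peak_K_nonneg : 0 ≤ 2 * P.c P.m + Real.log (1 / P.η) := by
  rw [Prm.η, one_div_one_div]
  exact add_nonneg (by linarith [hP.c_pos P.m]) (Real.log_nonneg (by linarith [hP.hL]))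
theorem peak_δ : P.β (P.m + 1) * Real.exp (2 * P.c P.m) * P.δ ≤ P.η := by
  have hΓ : (0 : ℝ) < P.Γ := by exact_mod_cast hP.Γ_pos
  have hL0 := hP.L_pos
  have e : P.β (P.m + 1) * Real.exp (2 * P.c P.m) * P.δ = P.β (P.m + 1) / P.Γ := by
    unfold Prm.δ
    rw [c_succ]
    field_simp
  rw [e, Prm.η, div_le_div_iff₀ hΓ hL0]
  nlinarith [hP.β_le le_rfl, hP.n2_sq_le_Γ]

theorem K₀_lo : P.β (P.m + 1) * 100 * P.y ≤ (P.K₀ * P.n (P.m + 2) : ℕ) := by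
  have h1 : (0 : ℝ) < P.n (P.m + 2) := by exact_mod_cast hP.n_pos _
  push_cast
  rw [← div_le_iff₀ h1]
  exact Nat.le_ceil _
theorem K₀_ge : P.y ≤ P.K₀ * P.n (P.m + 2) := by
  have h1 := hP.K₀_lo
  have h2 := hP.c_le_β (P.m + 1)
  rw [c_top] at h2
  have h3 : (0 : ℝ) ≤ P.y := Nat.cast_nonneg _
  have h4 : (P.y : ℝ) ≤ P.β (P.m + 1) * 100 * P.y :=
    le_mul_of_one_le_left h3 (by linarith [hP.hL])
  exact_mod_cast h4.trans h1
theorem K₀_hi : ((P.K₀ * P.n (P.m + 2) : ℕ) : ℝ) ≤ 220 * Real.log P.y * P.y := by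
  have h1 : (0 : ℝ) < P.n (P.m + 2) := by exact_mod_cast hP.n_pos _
  have h3 : (0 : ℝ) ≤ P.y := Nat.cast_nonneg _
  have hβ := hP.β_pos (P.m + 1)
  have h2 : (P.K₀ : ℝ) ≤ P.β (P.m + 1) * 100 * P.y / P.n (P.m + 2) + 1 :=
    (Nat.ceil_lt_add_one (by positivity)).le
  have h4 : (P.n (P.m + 2) : ℝ) ≤ P.y := by
    rw [← hP.exp_L]
    exact hP.htop.trans (Real.exp_le_exp.2 (by linarith [hP.L_pos]))
  have h5 := mul_le_mul_of_nonneg_right h2 h1.le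
  rw [add_mul, div_mul_cancel₀ _ h1.ne', one_mul] at h5
  have h6 := mul_le_mul_of_nonneg_right (hP.β_le le_rfl) h3
  have h7 : (P.y : ℝ) ≤ P.L * P.y := le_mul_of_one_le_left h3 (by linarith [hP.hL])
  rw [n2_log_y]
  push_cast
  nlinarith
theorem size_hi : 100 ^ nS P.y * (P.K₀ * P.n (P.m + 2)) ≤ P.y ^ 2 := by
  have h3 : (0 : ℝ) ≤ P.y := Nat.cast_nonneg _
  have hL0 := hP.L_pos
  have h1 : (100 : ℝ) ^ nS P.y ≤ Real.exp (0.5 * P.L) := by
    refine (pow_le_pow_left₀ (by norm_num) (show (100 : ℝ) ≤ Real.exp 99 by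
      linarith [Real.add_one_le_exp 99]) _).trans ?_
    rw [← Real.exp_nat_mul]
    exact Real.exp_le_exp.2 (by linarith [hP.n2_nS_le])
  have h2 : 220 * P.L ≤ Real.exp (0.5 * P.L) :=
    le_trans (by linarith [hP.n2_L_le_Γ]) (hP.hΓ'.trans (Real.exp_le_exp.2 (by linarith)))
  have h4 : Real.exp (0.5 * P.L) * Real.exp (0.5 * P.L) = P.y := by
    rw [← Real.exp_add, ← hP.exp_L]; congr 1; ring
  have h5 := hP.K₀_hi
  rw [n2_log_y] at h5
  have h6 : (100 : ℝ) ^ nS P.y * (P.K₀ * P.n (P.m + 2) : ℕ) ≤ (P.y : ℝ) ^ 2 :=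
    calc (100 : ℝ) ^ nS P.y * (P.K₀ * P.n (P.m + 2) : ℕ)
        ≤ Real.exp (0.5 * P.L) * (Real.exp (0.5 * P.L) * P.y) :=
          mul_le_mul h1 (h5.trans (mul_le_mul_of_nonneg_right h2 h3)) (Nat.cast_nonneg _)
            (Real.exp_pos _).le
      _ = _ := by rw [← mul_assoc, h4, sq]
  exact_mod_cast h6
theorem span_hi : P.y + P.y ^ 10 + P.Sp (P.m + 2) ≤ 2 ^ P.y := by
  have hL := hP.hL
  have hN := hP.htop
  have hN0 : (0 : ℝ) ≤ P.n (P.m + 2) := Nat.cast_nonneg _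
  have hm := hP.n2_m_le
  have h1 := hP.n2_Sp_le_n (P.m + 2)
  set u : ℝ := 10 * P.L + P.n (P.m + 2) with hu
  have a1 : (P.y : ℝ) ≤ Real.exp u := by
    rw [← hP.exp_L]; exact Real.exp_le_exp.2 (by linarith)
  have a2 : (P.y : ℝ) ^ 10 ≤ Real.exp u := by
    rw [← hP.exp_L, ← Real.exp_nat_mul]; exact Real.exp_le_exp.2 (by push_cast; linarith)
  have a3 : (P.Sp (P.m + 2) : ℝ) ≤ Real.exp u := by
    refine le_trans (by linarith) (h1.trans (Real.exp_le_exp.2 ?_))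
    push_cast; linarith
  have a4 : 11 * P.L ≤ Real.exp (0.56 * P.L) :=
    le_trans (by linarith [hP.n2_L_le_Γ]) (hP.hΓ'.trans (Real.exp_le_exp.2 (by linarith)))
  have a5 : 4 * Real.exp (0.56 * P.L) ≤ P.y := by
    have e : (P.y : ℝ) = Real.exp (0.44 * P.L) * Real.exp (0.56 * P.L) := by
      rw [← Real.exp_add, ← hP.exp_L]; congr 1; ring
    rw [e]
    exact mul_le_mul_of_nonneg_right (by linarith [Real.add_one_le_exp (0.44 * P.L)])
      (Real.exp_pos _).le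
  have a6 : 3 * Real.exp u ≤ Real.exp ((P.y : ℝ) / 2) := by
    refine le_trans ?_ (Real.exp_le_exp.2 (show 2 + u ≤ (P.y : ℝ) / 2 by linarith))
    rw [Real.exp_add 2]
    exact mul_le_mul_of_nonneg_right (by linarith [Real.add_one_le_exp 2]) (Real.exp_pos _).le
  have a7 : (P.y : ℝ) + (P.y : ℝ) ^ 10 + P.Sp (P.m + 2) ≤ 2 ^ P.y := by
    linarith [n2_exp_le_two_pow P.y]
  exact_mod_cast a7
theorem nS_small : nS P.y * Real.log (3 * P.D) / P.y ≤ 1 / 10 ^ 8 := by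
  have hL0 := hP.L_pos
  have h2 : (0 : ℝ) < P.y := by rw [← hP.exp_L]; exact Real.exp_pos _
  have hD : (1 : ℝ) ≤ P.D := by exact_mod_cast hP.hD
  have h1 : Real.log (3 * P.D) ≤ P.L / 100 :=
    (Real.log_le_log (by linarith) (by linarith)).trans hP.hLD
  have h0 : 0 ≤ Real.log (3 * P.D) := Real.log_nonneg (by linarith)
  have h3 := mul_le_mul hP.n2_nS_le h1 h0 (by positivity)
  rw [div_le_iff₀ h2]
  nlinarith [hP.n2_sq_le_Γ, hP.n2_Γ_le_y, sq_nonneg P.L]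
theorem levels_le : P.m + 2 + 1 + nS P.y + 1 ≤ P.y := by
  have h : (P.m : ℝ) + 2 + 1 + nS P.y + 1 ≤ P.y := by
    linarith [hP.n2_m_le, hP.n2_nS_le, hP.n2_L_le_Γ, hP.n2_Γ_le_y, hP.hL]
  exact_mod_cast h
theorem log_leaf : Real.log ((2 * ((P.D : ℝ) * (P.y ^ 10 : ℕ)) + 1) ^ 2) ≤ 30 * Real.log P.y := by
  have hL0 := hP.L_pos
  have hD : (1 : ℝ) ≤ P.D := by exact_mod_cast hP.hD
  have hy : (1 : ℝ) ≤ (P.y : ℝ) ^ 10 := one_le_pow₀ (by exact_mod_cast hP.two_le_y.trans' one_le_two)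
  have h1 : 1 ≤ (P.D : ℝ) * (P.y : ℝ) ^ 10 := one_le_mul_of_one_le_of_one_le hD hy
  have h2 : 10 * (P.D : ℝ) * (P.y : ℝ) ^ 10 ≤ Real.exp (15 * P.L) := by
    refine (mul_le_mul_of_nonneg_right hP.n2_D_le (by linarith)).trans ?_
    rw [← hP.exp_L, ← Real.exp_nat_mul, ← Real.exp_add]
    exact Real.exp_le_exp.2 (by push_cast; linarith)
  rw [Real.log_pow, n2_log_y]
  push_cast
  have h3 := n2_log_le (x := 2 * ((P.D : ℝ) * (P.y : ℝ) ^ 10) + 1) (u := 15 * P.L) (by linarith)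
    (by linarith) (by linarith)
  linarith
theorem span_small {Sp : ℕ} (h : Sp ^ 4 ≤ P.y) : Sp ≤ P.y ∧ 2 * (P.D * Sp) ^ 2 < P.y := by
  refine ⟨(Nat.le_self_pow (by norm_num) Sp).trans h, ?_⟩
  have hL0 := hP.L_pos
  have h1 : ((Sp : ℝ) ^ 2) ^ 2 ≤ Real.exp (P.L / 2) ^ 2 := by
    rw [← Real.exp_nat_mul, ← pow_mul, show ((2 : ℕ) : ℝ) * (P.L / 2) = P.L by push_cast; ring,
      hP.exp_L]
    exact_mod_cast h
  have h2 : (Sp : ℝ) ^ 2 ≤ Real.exp (P.L / 2) :=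
    (pow_le_pow_iff_left₀ (by positivity) (Real.exp_pos _).le two_ne_zero).1 h1
  have h3 : 2 * (P.D : ℝ) ^ 2 ≤ Real.exp (P.L / 50) := by
    have := pow_le_pow_left₀ (by positivity) hP.n2_D_le 2
    rw [← Real.exp_nat_mul, show ((2 : ℕ) : ℝ) * (P.L / 100) = P.L / 50 by push_cast; ring] at this
    nlinarith [sq_nonneg (P.D : ℝ)]
  have h4 : 2 * ((P.D : ℝ) * Sp) ^ 2 < P.y :=
    calc 2 * ((P.D : ℝ) * Sp) ^ 2 = 2 * (P.D : ℝ) ^ 2 * (Sp : ℝ) ^ 2 := by ring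
      _ ≤ Real.exp (P.L / 50) * Real.exp (P.L / 2) :=
          mul_le_mul h3 h2 (by positivity) (Real.exp_pos _).le
      _ < P.y := by
          rw [← Real.exp_add, ← hP.exp_L]
          exact Real.exp_lt_exp.2 (by linarith)
  exact_mod_cast h4

end Prm.OK

theorem n2_n_le (P : Prm) (hL : 0 ≤ P.L) (i : ℕ) :
    (P.n i : ℝ) ≤ P.NU * (2 * (P.Γ : ℝ) ^ 4) ^ i * Real.exp (P.c i) := by
  have hc : ∀ i, 1 ≤ Real.exp (P.c i) := fun i => Real.one_le_exp (by unfold Prm.c; positivity)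
  induction i with
  | zero => simpa [Prm.n] using le_mul_of_one_le_right (Nat.cast_nonneg P.NU) (hc 0)
  | succ i ih =>
    have he : (P.e i : ℝ) ≤ 2 * Real.exp (P.c i) := by
      unfold Prm.e
      split_ifs
      · linarith [(Nat.ceil_lt_add_one (Real.exp_pos (P.c i)).le).le, hc i]
      · push_cast; linarith [hc i]
    rw [Prm.OK.n_succ, Prm.k, Prm.OK.c_succ, two_mul (P.c i), Real.exp_add]
    push_cast
    calc (P.Γ : ℝ) ^ 4 * P.e i * P.n i ≤ (P.Γ : ℝ) ^ 4 * (2 * Real.exp (P.c i)) *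
          (P.NU * (2 * (P.Γ : ℝ) ^ 4) ^ i * Real.exp (P.c i)) := by gcongr
      _ = _ := by ring

theorem exists_prm (D : ℕ) (C : ℝ) (hD : 1 ≤ D) (hC : 1 ≤ C) :
    ∀ᶠ y : ℕ in atTop, ∀ NU : ℕ, 1 ≤ NU → (NU : ℝ) ≤ Real.log y ^ 3 →
      ∃ Γ m : ℕ, Prm.OK ⟨D, C, y, NU, Γ, m⟩ := by
  have hT : Tendsto (fun y : ℕ => Real.log y) atTop atTop :=
    Real.tendsto_log_atTop.comp tendsto_natCast_atTop_atTop
  have hsq : ∀ᶠ L : ℝ in atTop, 20000 * Real.log L ^ 2 ≤ L := by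
    filter_upwards [(Real.isLittleO_pow_log_id_atTop (n := 2)).bound
      (show (0 : ℝ) < 1 / 20000 by norm_num), eventually_ge_atTop 0] with L h1 h2
    rw [Real.norm_of_nonneg (by positivity), id, Real.norm_of_nonneg h2] at h1
    linarith
  filter_upwards [hT.eventually (eventually_ge_atTop (10 ^ 12)),
    hT.eventually (eventually_ge_atTop (100 * Real.log (10 * D))),
    hT.eventually (eventually_ge_atTop (Real.log C)), hT.eventually hsq,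
    hT.eventually (Real.tendsto_log_atTop.eventually (eventually_ge_atTop 4))]
    with y h1 h2 h3 h4 h5 NU hNU hNU'
  set L := Real.log y with hL
  set l := Real.log L with hl
  have hL0 : 0 < L := by linarith
  have hexp : Real.exp l = L := Real.exp_log hL0
  obtain ⟨k, hk1, hk2⟩ := exists_nat_pow_near (x := 550000 * L) (y := 2) (by linarith) one_lt_two
  obtain ⟨m, rfl⟩ : ∃ m, k = m + 1 := by
    rcases k with _ | m
    · norm_num at hk2; linarith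
    · exact ⟨m, rfl⟩
  have hm : (m : ℝ) + 1 ≤ 4 * l := by
    have a1 := (Prm.OK.n2_exp_le_two_pow (m + 1)).trans hk1
    have a2 : 550000 * L ≤ Real.exp (l + l) := by
      rw [Real.exp_add, hexp]
      exact mul_le_mul_of_nonneg_right (by linarith) hL0.le
    have a3 := Real.exp_le_exp.1 (a1.trans a2)
    push_cast at a3
    linarith
  have hm0 : (0 : ℝ) ≤ m := Nat.cast_nonneg m
  have hΓ : ((⌈L⌉₊ ^ 6 : ℕ) : ℝ) ≤ Real.exp (12 * l) := by
    have a1 : (⌈L⌉₊ : ℝ) ≤ Real.exp (l + l) := by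
      rw [Real.exp_add, hexp]
      nlinarith [(Nat.ceil_lt_add_one hL0.le).le]
    push_cast
    refine (pow_le_pow_left₀ (Nat.cast_nonneg _) a1 6).trans (le_of_eq ?_)
    rw [← Real.exp_nat_mul]; congr 1; push_cast; ring
  have hp : (0 : ℝ) < 2 ^ (m + 1) := by positivity
  refine ⟨⌈L⌉₊ ^ 6, m, hD, hC, hNU, h1, ?_, h3, ?_, ?_, ?_, ?_, ?_, ?_⟩
  · change Real.log (10 * D) ≤ L / 100
    linarith
  · change L ^ 6 ≤ ((⌈L⌉₊ ^ 6 : ℕ) : ℝ)
    push_cast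
    exact pow_le_pow_left₀ hL0.le (Nat.le_ceil L) 6
  · change ((⌈L⌉₊ ^ 6 : ℕ) : ℝ) ≤ Real.exp (L / 100)
    exact hΓ.trans (Real.exp_le_exp.2 (by nlinarith))
  · change 1 / 10 ^ 6 ≤ 2 ^ 0 * (0.55 * L / 2 ^ (m + 1))
    rw [pow_zero, one_mul, le_div_iff₀ hp]
    linarith
  · change 2 ^ 0 * (0.55 * L / 2 ^ (m + 1)) ≤ 2 / 10 ^ 6
    rw [pow_zero, one_mul, div_le_iff₀ hp]
    rw [pow_succ _ (m + 1)] at hk2
    linarith
  · change ((m : ℝ) + 5) * (m + 2) ≤ L / 2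
    have : ((m : ℝ) + 5) * (m + 2) ≤ (5 * l) * (5 * l) :=
      mul_le_mul (by linarith) (by linarith) (by linarith) (by linarith)
    nlinarith
  · set P : Prm := ⟨D, C, y, NU, ⌈L⌉₊ ^ 6, m⟩ with hPd
    have b1 := n2_n_le P hL0.le (P.m + 1)
    rw [Prm.OK.c_top] at b1
    rw [Prm.OK.n2_top]
    have b2 : (P.Γ : ℝ) ≤ Real.exp (12 * l) := hΓ
    have b3 : 2 * (P.Γ : ℝ) ^ 4 ≤ Real.exp (49 * l) := by
      have c1 := pow_le_pow_left₀ (Nat.cast_nonneg _) b2 4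
      rw [← Real.exp_nat_mul] at c1
      calc 2 * (P.Γ : ℝ) ^ 4 ≤ Real.exp l * Real.exp ((4 : ℕ) * (12 * l)) :=
            mul_le_mul (by rw [hexp]; linarith) c1 (by positivity) (Real.exp_pos _).le
        _ = _ := by rw [← Real.exp_add]; congr 1; push_cast; ring
    have b4 : (P.NU : ℝ) ≤ Real.exp (3 * l) := by
      refine hNU'.trans (le_of_eq ?_)
      rw [← hexp, ← Real.exp_nat_mul]; norm_num
    have b5 : (P.Γ : ℝ) ^ 4 ≤ Real.exp (49 * l) := by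
      linarith [pow_nonneg (Nat.cast_nonneg (α := ℝ) P.Γ) 4]
    push_cast
    calc (P.Γ : ℝ) ^ 4 * P.n (P.m + 1) ≤ Real.exp (49 * l) *
          (Real.exp (3 * l) * Real.exp (49 * l) ^ (P.m + 1) * Real.exp (0.55 * P.L)) := by
          refine mul_le_mul b5 (b1.trans ?_) (Nat.cast_nonneg _) (Real.exp_pos _).le
          gcongr
      _ ≤ _ := by
          rw [← Real.exp_nat_mul, ← Real.exp_add, ← Real.exp_add, ← Real.exp_add]
          refine Real.exp_le_exp.2 ?_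
          change 49 * l + (3 * l + ((m + 1 : ℕ) : ℝ) * (49 * l) + 0.55 * L) ≤ 0.56 * L
          push_cast
          have : ((m : ℝ) + 1) * (49 * l) ≤ 4 * l * (49 * l) :=
            mul_le_mul_of_nonneg_right hm (by linarith)
          nlinarith

end Crest.Agent.R2
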