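import Crest.Agent.R2.Basic

/-!
# Row 2: conditional collision probabilities

Write `P(d) = μ.E (ind (x.2 = d))`, `P(d, a) = μ.E (ind (x.2 = d ∧ ξ x.1 = a))`.

Recipes.
* `col_cs`: `μ.E (g x.2 (ξ x.1)) = ∑_d ∑_a P(d, a) g d a` and `μ.E (∑_a g x.2 a ²) = ∑_d P(d) ∑_a g d a ²`
  (`FD.E_eq_sum_fiber`), `P(d) > 0` on the image of the support; Cauchy-Schwarz over the pairs `(d, a)`
  (`Finset.sum_mul_sq_le_sq_mul_sq` with `P(d,a) / √P(d)` and `√P(d) g`, or `Finset.sum_div..`/`div_add_div_same`).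
* `col_sum_le`: `∑_a P(d, a)² = μ.E μ.E (ind (x.2 = d) ind (x'.2 = d) ind (ξ x.1 = ξ x'.1))`; summing with
  `ω p` the last factor becomes `≤ J + Pm * ind (x'.1 = x.1)`; this gives `≤ J P(d)² + Pm * a * P(d)`.
  Divide by `P(d)`, sum over `d`: `∑ P(d) = 1`, the number of `d` is `≤ T.card`.
-/

set_option autoImplicit false
open Finset

noncomputable section
namespace Crest.Agent.R2
open Classical

/-- Conditional collision probability of the residue of the base time given the data. -/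
def col {G δ : Type} [Fintype G] (μ : FD (ℕ × δ)) (ξ : ℕ → G) : ℝ :=
  ∑ d ∈ μ.supp.image Prod.snd,
    (∑ a, (μ.E (fun x => ind (x.2 = d ∧ ξ x.1 = a))) ^ 2) / μ.E (fun x => ind (x.2 = d))

theorem col_nonneg {G δ : Type} [Fintype G] (μ : FD (ℕ × δ)) (ξ : ℕ → G) : 0 ≤ col μ ξ :=
  sum_nonneg (fun _ _ => div_nonneg (sum_nonneg (fun _ _ => sq_nonneg _))
    (μ.E_nonneg (fun _ _ => ind_nonneg _)))

theorem col_P_pos {δ : Type} (μ : FD (ℕ × δ)) {d : δ} (hd : d ∈ μ.supp.image Prod.snd) :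
    0 < μ.E (fun x => ind (x.2 = d)) := by
  obtain ⟨x, hx, rfl⟩ := mem_image.1 hd
  refine lt_of_lt_of_le (FD.mem_supp_iff_E.1 hx) (μ.E_mono fun y _ => ind_mono ?_)
  rintro rfl
  rfl

theorem col_sum_sq {G δ : Type} [Fintype G] (μ : FD (ℕ × δ)) (ξ : ℕ → G) (d : δ) :
    ∑ r, (μ.E (fun x => ind (x.2 = d ∧ ξ x.1 = r))) ^ 2 = μ.E (fun x => μ.E (fun x' =>
      ind (x.2 = d) * (ind (x'.2 = d) * ind (ξ x.1 = ξ x'.1)))) := by
  have e : ∀ r, (μ.E (fun x => ind (x.2 = d ∧ ξ x.1 = r))) ^ 2 = μ.E (fun x => μ.E (fun x' =>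
      ind (x.2 = d ∧ ξ x.1 = r) * ind (x'.2 = d ∧ ξ x'.1 = r))) := by
    intro r
    simp only [FD.E_mul_left, FD.E_mul_right, sq]
  simp only [e]
  rw [← FD.E_sum]
  refine μ.E_congr fun x _ => ?_
  rw [← FD.E_sum]
  refine μ.E_congr fun x' _ => ?_
  rw [sum_eq_single (ξ x.1)]
  · rw [ind_and, ind_and, ind_pos (rfl : ξ x.1 = ξ x.1), mul_one, ind_congr (eq_comm (a := ξ x'.1))]
  · intro r _ hr
    rw [ind_neg (fun h => hr h.2.symm), zero_mul]
  · intro h; exact absurd (mem_univ _) h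

theorem col_cs {G δ : Type} [Fintype G] (μ : FD (ℕ × δ)) (ξ : ℕ → G) (g : δ → G → ℝ) :
    (μ.E (fun x => g x.2 (ξ x.1))) ^ 2 ≤ col μ ξ * μ.E (fun x => ∑ a, g x.2 a ^ 2) := by
  have h1 := μ.E_eq_sum_fiber (fun x => (x.2, ξ x.1)) (μ.supp.image Prod.snd ×ˢ univ)
    (fun x hx => mem_product.2 ⟨mem_image_of_mem _ hx, mem_univ _⟩) (fun b => g b.1 b.2)
  have h2 := μ.E_eq_sum_fiber Prod.snd (μ.supp.image Prod.snd)
    (fun x hx => mem_image_of_mem _ hx) (fun d => ∑ a, g d a ^ 2)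
  have h3 : col μ ξ = ∑ b ∈ μ.supp.image Prod.snd ×ˢ univ,
      μ.E (fun x => ind ((x.2, ξ x.1) = b)) ^ 2 / μ.E (fun x => ind (x.2 = b.1)) := by
    rw [sum_product, col]
    refine sum_congr rfl fun d _ => ?_
    rw [sum_div]
    simp only [Prod.mk.injEq]
  have h4 : ∑ d ∈ μ.supp.image Prod.snd, μ.E (fun x => ind (x.2 = d)) * ∑ a, g d a ^ 2 =
      ∑ b ∈ μ.supp.image Prod.snd ×ˢ (univ : Finset G),
        μ.E (fun x => ind (x.2 = b.1)) * g b.1 b.2 ^ 2 := by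
    rw [sum_product]
    exact sum_congr rfl fun d _ => mul_sum _ _ _
  simp only at h1
  rw [h1, h2, h3, h4]
  refine sum_sq_le_sum_mul_sum_of_sq_le_mul _
    (fun b _ => div_nonneg (sq_nonneg _) (μ.E_nonneg fun _ _ => ind_nonneg _))
    (fun b _ => mul_nonneg (μ.E_nonneg fun _ _ => ind_nonneg _) (sq_nonneg _)) fun b hb => le_of_eq ?_
  have := (col_P_pos μ (mem_product.1 hb).1).ne'
  field_simp

theorem col_sum_le {δ : Type} (μ : FD (ℕ × δ)) (Ps : Finset P1) (ξ : (p : P1) → ℕ → ZMod p.1)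
    (ω : P1 → ℝ) (hω : ∀ p, 0 ≤ ω p) {J Pm a : ℝ} (hJ : 0 ≤ J)
    (hoff : ∀ x ∈ μ.supp, ∀ x' ∈ μ.supp, x.1 ≠ x'.1 → ∑ p ∈ Ps, ω p * ind (ξ p x.1 = ξ p x'.1) ≤ J)
    (hdiag : ∑ p ∈ Ps, ω p ≤ Pm) (T : Finset δ) (hT : ∀ x ∈ μ.supp, x.2 ∈ T)
    (ha : ∀ s, μ.E (fun x => ind (x.1 = s)) ≤ a) :
    ∑ p ∈ Ps, ω p * col μ (ξ p) ≤ J + Pm * T.card * a := by
  have hPm : 0 ≤ Pm := (sum_nonneg fun p _ => hω p).trans hdiag
  have ha0 : 0 ≤ a := (μ.E_nonneg fun _ _ => ind_nonneg _).trans (ha 0)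
  have key : ∀ d, ∑ p ∈ Ps, ω p * ∑ r, (μ.E (fun x => ind (x.2 = d ∧ ξ p x.1 = r))) ^ 2 ≤
      μ.E (fun x => ind (x.2 = d)) * (μ.E (fun x => ind (x.2 = d)) * J + Pm * a) := by
    intro d
    simp only [col_sum_sq, ← FD.E_mul_left]
    rw [← FD.E_sum, ← FD.E_mul_right]
    refine μ.E_mono fun x hx => ?_
    rw [← FD.E_sum]
    calc μ.E (fun x' => ∑ p ∈ Ps, ω p *
          (ind (x.2 = d) * (ind (x'.2 = d) * ind (ξ p x.1 = ξ p x'.1))))
        ≤ μ.E (fun x' => ind (x.2 = d) * (ind (x'.2 = d) * J + Pm * ind (x'.1 = x.1))) := by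
          refine μ.E_mono fun x' hx' => ?_
          have e : ∑ p ∈ Ps, ω p * (ind (x.2 = d) * (ind (x'.2 = d) * ind (ξ p x.1 = ξ p x'.1))) =
              ind (x.2 = d) * (ind (x'.2 = d) * ∑ p ∈ Ps, ω p * ind (ξ p x.1 = ξ p x'.1)) := by
            rw [mul_sum, mul_sum]
            exact sum_congr rfl fun p _ => by ring
          rw [e]
          refine mul_le_mul_of_nonneg_left ?_ (ind_nonneg _)
          have i0 := ind_nonneg (x'.2 = d)
          have i1 := ind_le_one (x'.2 = d)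
          by_cases hxx : x.1 = x'.1
          · have s1 : ∑ p ∈ Ps, ω p * ind (ξ p x.1 = ξ p x'.1) ≤ Pm :=
              (sum_le_sum fun p _ => mul_le_of_le_one_right (hω p) (ind_le_one _)).trans hdiag
            rw [ind_pos hxx.symm]
            have s2 := mul_le_mul_of_nonneg_left s1 i0
            nlinarith [mul_nonneg i0 hJ]
          · rw [ind_neg (Ne.symm hxx), mul_zero, add_zero]
            exact mul_le_mul_of_nonneg_left (hoff x hx x' hx' hxx) i0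
      _ = ind (x.2 = d) * (μ.E (fun x' => ind (x'.2 = d)) * J +
            Pm * μ.E (fun x' => ind (x'.1 = x.1))) := by
          rw [FD.E_mul_left, FD.E_add, FD.E_mul_right, FD.E_mul_left]
      _ ≤ _ := by
          refine mul_le_mul_of_nonneg_left ?_ (ind_nonneg _)
          have := mul_le_mul_of_nonneg_left (ha x.1) hPm
          linarith
  have hsum : ∑ d ∈ μ.supp.image Prod.snd, μ.E (fun x => ind (x.2 = d)) = 1 := by
    have := μ.E_eq_sum_fiber Prod.snd (μ.supp.image Prod.snd)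
      (fun x hx => mem_image_of_mem _ hx) (fun _ => 1)
    simpa using this.symm
  have hcard : ((μ.supp.image Prod.snd).card : ℝ) ≤ T.card := by
    exact_mod_cast card_le_card (image_subset_iff.2 hT)
  calc ∑ p ∈ Ps, ω p * col μ (ξ p)
      = ∑ d ∈ μ.supp.image Prod.snd, (∑ p ∈ Ps, ω p *
          ∑ r, (μ.E (fun x => ind (x.2 = d ∧ ξ p x.1 = r))) ^ 2) / μ.E (fun x => ind (x.2 = d)) := by
        simp only [col, mul_sum (s := μ.supp.image Prod.snd)]
        rw [sum_comm]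
        refine sum_congr rfl fun d _ => ?_
        rw [sum_div]
        exact sum_congr rfl fun p _ => (mul_div_assoc _ _ _).symm
    _ ≤ ∑ d ∈ μ.supp.image Prod.snd, (μ.E (fun x => ind (x.2 = d)) * J + Pm * a) := by
        refine sum_le_sum fun d hd => ?_
        rw [div_le_iff₀' (col_P_pos μ hd)]
        exact key d
    _ = J + Pm * ((μ.supp.image Prod.snd).card : ℝ) * a := by
        rw [sum_add_distrib, ← sum_mul, hsum, sum_const, nsmul_eq_mul]; ring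
    _ ≤ J + Pm * T.card * a := by gcongr

end Crest.Agent.R2
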