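import Crest.Agent.R2.Pt
import Crest.Agent.R2.Col

/-!
# Row 2: after a long uniform jump the raw density has no high peaks

Recipes.
* `exists_peak_set`: any subset of `{v | M < raw v}` with `min (card) ⌈δ p / M⌉₊` elements.
* `peak_one`: with `ν s σ = hit ξ (Pt s) (P'.image (· - σ)) = (1 / p) ∑_{v ∈ P'} lam (v - σ)` (`hit_eq_sum`),
  `a = |P'| / p ≤ 2 δ / M`, test function `g (d₁, d₂) x = ind (∃ z ∈ d₁, x + r z ∈ P') * ind (∃ z ∈ d₂, ..)`.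
  Given `s`, `E g(d, ξ s + σ) = (1 - (1 - ν s σ) ^ n₁)²` (`hit_Blk`, independence is just `E_bind`/`E_map` and
  `E_mul_left`), which is `≤ (n₁ ν)²` (`hit_Blk_le`) and `≥ 1 / 4` if `ν ≥ δ / 2` (`(1 - ν) ^ n₁ ≤ exp (-1) ≤ 1 / 2`).
  Cauchy-Schwarz: `ν s 0 ² ≤ a * avg (lam²)` and `∑_σ ν s σ ² ≤ a² p * avg (lam²)`.
  `ρ.E (ν s 0) ≥ δ`, so `(δ / 2)² ≤ (E (ν * ind (ν ≥ δ / 2)))² ≤ ρ(ν ≥ δ / 2) * a Λ` (`FD.E_mul_sq_le`), i.e.
  `ρ(ν ≥ δ / 2) ≥ δ M / (8 Λ)`. Then `col_cs`: `(δ M / (32 Λ))² ≤ col * n₁² p a² Λ`.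
* `peak`: `ind (δ < ..) ≤ Λ_p / Λ + (4096 n₁² Λ³ / M⁴) * (p * col)` for each `p ∈ Ps`; sum with `w p`, use
  `hL2` and `col_sum_le` with `ω p = w p * p`, `Pm = y²`, `T ×ˢ T` from `Cnt.blk`, `Fam.sieve`, `xi_sub`.
-/

set_option autoImplicit false
open Finset

noncomputable section
namespace Crest.Agent.R2
open Classical

theorem exists_peak_set {G : Type} [Fintype G] [Nonempty G] (raw : G → ℝ) {δ M : ℝ} (hδ : 0 < δ)
    (hM : 0 < M) (hMδ : M ≤ δ * Fintype.card G) (h : δ < avg (fun v => raw v * ind (M < raw v))) :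
    ∃ P' : Finset G, (P'.card : ℝ) ≤ 2 * δ * Fintype.card G / M ∧
      δ * Fintype.card G ≤ ∑ v ∈ P', raw v := by
  have hp : (0 : ℝ) < Fintype.card G := by exact_mod_cast Fintype.card_pos
  set A : Finset G := univ.filter (fun v => M < raw v) with hA
  have hsum : δ * Fintype.card G < ∑ v ∈ A, raw v := by
    rw [avg, lt_div_iff₀ hp] at h
    refine h.trans_le (le_of_eq ?_)
    rw [hA, sum_filter]
    exact sum_congr rfl (fun v _ => by unfold ind; split_ifs <;> simp)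
  have hk : ((⌈δ * Fintype.card G / M⌉₊ : ℕ) : ℝ) ≤ 2 * δ * Fintype.card G / M := by
    have h1 : (1 : ℝ) ≤ δ * Fintype.card G / M := (one_le_div hM).2 hMδ
    have h2 := Nat.ceil_lt_add_one (show 0 ≤ δ * Fintype.card G / M by positivity)
    have h3 : 2 * δ * Fintype.card G / M = 2 * (δ * Fintype.card G / M) := by ring
    linarith
  rcases le_total A.card ⌈δ * Fintype.card G / M⌉₊ with hle | hle
  · exact ⟨A, le_trans (by exact_mod_cast hle) hk, hsum.le⟩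
  · obtain ⟨B, hBA, hB⟩ := exists_subset_card_eq hle
    refine ⟨B, by rw [hB]; exact hk, ?_⟩
    have h1 : ∑ _v ∈ B, M ≤ ∑ v ∈ B, raw v :=
      sum_le_sum (fun v hv => (mem_filter.1 (hBA hv)).2.le)
    rw [sum_const, nsmul_eq_mul, hB] at h1
    have h2 := Nat.le_ceil (δ * Fintype.card G / M)
    rw [div_le_iff₀ hM] at h2
    exact h2.trans h1

/-- Base time together with the data of two independent blocks of `n₁` points. -/
def twoBlk (γ : ℕ → GI) (ρ : FD ℕ) (Pt : Ker) (n₁ : ℕ) : FD (ℕ × (Finset GI × Finset GI)) :=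
  ρ.bind (fun s => (Blk n₁ (Pt s)).bind (fun S₁ => (Blk n₁ (Pt s)).map (fun S₂ =>
    (s, (data γ s S₁, data γ s S₂)))))

theorem peak_one {G : Type} [Fintype G] [AddCommGroup G] (γ : ℕ → GI) (r : GI →+ G) (ξ : ℕ → G)
    (hξ : ∀ τ, ξ τ = r (γ τ)) {Pt : Ker} (hsz : Size Pt 1) (ρ : FD ℕ) {δ M Λ : ℝ} {n₁ : ℕ}
    (hδ : 0 < δ) (hM : 0 < M) (hΛ : 0 < Λ) (hn : 2 ≤ n₁ * δ) (hMδ : M ≤ δ * Fintype.card G)
    (hL2 : ρ.E (fun s => avg (fun v => lam ξ (Pt s) 1 v ^ 2)) ≤ Λ)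
    (h : δ < avg (fun v => ρ.E (fun s => lam ξ (Pt s) 1 v) *
      ind (M < ρ.E (fun s => lam ξ (Pt s) 1 v)))) :
    M ^ 4 ≤ 4096 * n₁ ^ 2 * Λ ^ 3 * (Fintype.card G * col (twoBlk γ ρ Pt n₁) ξ) := by
  haveI : Nonempty G := ⟨0⟩
  have hp : (0 : ℝ) < Fintype.card G := by exact_mod_cast Fintype.card_pos
  obtain ⟨P', hP1, hP2⟩ := exists_peak_set _ hδ hM hMδ h
  set p : ℝ := (Fintype.card G : ℝ) with hpdef
  set c : ℝ := (P'.card : ℝ) with hcdef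
  have hc0 : 0 ≤ c := Nat.cast_nonneg _
  let f : ℕ → G → ℝ := fun s v => hit ξ (Pt s) {v}
  let B : G → Finset G := fun σ => P'.image (· - σ)
  let ν : ℕ → G → ℝ := fun s σ => hit ξ (Pt s) (B σ)
  let L : ℕ → ℝ := fun s => avg (fun v => lam ξ (Pt s) 1 v ^ 2)
  have hlam : ∀ s v, lam ξ (Pt s) 1 v = p * f s v := fun s v => by simp [lam, f, hpdef]
  have hν : ∀ s σ, ν s σ = ∑ v ∈ P', f s (v - σ) := fun s σ => by
    simp only [ν, B]
    rw [hit_eq_sum ξ _ (hsz s), sum_image (fun a _ b _ hab => sub_left_injective hab)]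
  have hL : ∀ s, ∑ v, f s v ^ 2 = L s / p := fun s => by
    simp only [L, avg, hlam, mul_pow, ← mul_sum, ← hpdef]
    field_simp
  have hcs : ∀ s σ, ν s σ ^ 2 ≤ c * ∑ v ∈ P', f s (v - σ) ^ 2 := fun s σ => by
    rw [hν]; exact sq_sum_le_card_mul_sum_sq
  have hν0 : ∀ s, ν s 0 ^ 2 ≤ c / p * L s := fun s => by
    have h1 : ∑ v ∈ P', f s (v - 0) ^ 2 ≤ ∑ v, f s v ^ 2 := by
      simp only [sub_zero]
      exact sum_le_sum_of_subset_of_nonneg (subset_univ _) (fun _ _ _ => sq_nonneg _)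
    calc ν s 0 ^ 2 ≤ c * ∑ v, f s v ^ 2 := (hcs s 0).trans (mul_le_mul_of_nonneg_left h1 hc0)
      _ = c / p * L s := by rw [hL]; ring
  have hνσ : ∀ s, ∑ σ, ν s σ ^ 2 ≤ c ^ 2 / p * L s := fun s => by
    calc ∑ σ, ν s σ ^ 2 ≤ ∑ σ, c * ∑ v ∈ P', f s (v - σ) ^ 2 := sum_le_sum (fun σ _ => hcs s σ)
      _ = c * ∑ v ∈ P', ∑ σ, f s (v - σ) ^ 2 := by rw [← mul_sum, sum_comm]
      _ = c * ∑ _v ∈ P', L s / p := by
        congr 1
        refine sum_congr rfl (fun v _ => ?_)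
        rw [← hL]
        exact (Equiv.subLeft v).sum_comp (fun u => f s u ^ 2)
      _ = c ^ 2 / p * L s := by rw [sum_const, nsmul_eq_mul, ← hcdef]; ring
  have hEν : δ ≤ ρ.E (fun s => ν s 0) := by
    have h1 : ∑ v ∈ P', ρ.E (fun s => lam ξ (Pt s) 1 v) = p * ρ.E (fun s => ν s 0) := by
      simp only [hlam, hν, sub_zero, FD.E_mul_left, FD.E_sum, mul_sum]
    rw [h1, mul_comm] at hP2
    exact le_of_mul_le_mul_left hP2 hp
  -- the probability of a heavy base time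
  set q : ℝ := ρ.E (fun s => ind (δ / 2 ≤ ν s 0)) with hq
  have hq0 : 0 ≤ q := ρ.E_nonneg (fun _ _ => ind_nonneg _)
  have hq1 : (δ / 2) ^ 2 ≤ c / p * Λ * q := by
    have h1 : ρ.E (fun s => ν s 0) ≤ ρ.E (fun s => ν s 0 * ind (δ / 2 ≤ ν s 0) + δ / 2) := by
      refine ρ.E_mono (fun s _ => ?_)
      by_cases hs : δ / 2 ≤ ν s 0
      · rw [ind_pos hs]; linarith
      · rw [ind_neg hs]; linarith [not_le.1 hs]
    rw [FD.E_add, FD.E_const] at h1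
    have h2 : δ / 2 ≤ ρ.E (fun s => ν s 0 * ind (δ / 2 ≤ ν s 0)) := by linarith
    have h3 := ρ.E_mul_sq_le (fun s => ν s 0) (fun s => ind (δ / 2 ≤ ν s 0))
    have h4 : ρ.E (fun s => ind (δ / 2 ≤ ν s 0) ^ 2) = q :=
      ρ.E_congr (fun s _ => by rw [sq, ind_mul_self])
    have h5 : ρ.E (fun s => ν s 0 ^ 2) ≤ c / p * Λ := by
      refine (ρ.E_mono (fun s _ => hν0 s)).trans ?_
      rw [FD.E_mul_left]
      exact mul_le_mul_of_nonneg_left hL2 (by positivity)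
    rw [h4] at h3
    calc (δ / 2) ^ 2 ≤ _ := pow_le_pow_left₀ (by positivity) h2 2
      _ ≤ _ := h3
      _ ≤ c / p * Λ * q := mul_le_mul_of_nonneg_right h5 hq0
  -- the test function
  let g : Finset GI × Finset GI → G → ℝ := fun d x =>
    ind (∃ z ∈ d.1, x + r z ∈ P') * ind (∃ z ∈ d.2, x + r z ∈ P')
  have hdata : ∀ s σ (S : Finset ℕ), ind (∃ z ∈ data γ s S, ξ s + σ + r z ∈ P') =
      ind (∃ τ ∈ S, ξ τ ∈ B σ) := fun s σ S => by
    refine ind_congr ?_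
    simp only [data, B, mem_image]
    constructor
    · rintro ⟨_, ⟨τ, hτ, rfl⟩, hz⟩
      refine ⟨τ, hτ, _, hz, ?_⟩
      rw [map_sub, ← hξ, ← hξ]; abel
    · rintro ⟨τ, hτ, v, hv, hvτ⟩
      refine ⟨_, ⟨τ, hτ, rfl⟩, ?_⟩
      rw [map_sub, ← hξ, ← hξ, ← hvτ]
      convert hv using 1; abel
  have hE : ∀ σ, (twoBlk γ ρ Pt n₁).E (fun x => g x.2 (ξ x.1 + σ)) =
      ρ.E (fun s => hit ξ (Blk n₁ (Pt s)) (B σ) ^ 2) := fun σ => by
    simp only [twoBlk, FD.E_bind, FD.E_map, g, hdata, FD.E_mul_left, FD.E_mul_right]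
    exact ρ.E_congr (fun s _ => by rw [sq]; rfl)
  have hlow : q / 4 ≤ (twoBlk γ ρ Pt n₁).E (fun x => g x.2 (ξ x.1)) := by
    have h1 := hE 0
    simp only [add_zero] at h1
    rw [h1, hq, ← FD.E_div]
    refine ρ.E_mono (fun s _ => ?_)
    by_cases hs : δ / 2 ≤ ν s 0
    · rw [ind_pos hs, hit_Blk]
      have h2 : 0 ≤ 1 - ν s 0 := sub_nonneg.2 (hit_le_one _ _ _)
      have h3 : (1 - ν s 0) ^ n₁ ≤ Real.exp (-ν s 0) ^ n₁ :=
        pow_le_pow_left₀ h2 (by linarith [Real.add_one_le_exp (-ν s 0)]) _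
      rw [← Real.exp_nat_mul] at h3
      have h4 : (n₁ : ℝ) * -ν s 0 ≤ -1 := by
        have : (n₁ : ℝ) * (δ / 2) ≤ n₁ * ν s 0 := mul_le_mul_of_nonneg_left hs (Nat.cast_nonneg _)
        linarith
      have h5 := Real.exp_le_exp.2 h4
      have h6 := Real.exp_neg_one_lt_d9
      have h7 : 1 / 2 ≤ 1 - (1 - ν s 0) ^ n₁ := by linarith
      have h8 := pow_le_pow_left₀ (by norm_num) h7 2
      exact le_trans (by norm_num) h8
    · rw [ind_neg hs, zero_div]; exact sq_nonneg _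
  have hup : (twoBlk γ ρ Pt n₁).E (fun x => ∑ a, g x.2 a ^ 2) ≤ n₁ ^ 2 * (c ^ 2 / p * Λ) := by
    have h1 : ∀ x : ℕ × (Finset GI × Finset GI), ∑ a, g x.2 a ^ 2 = ∑ σ, g x.2 (ξ x.1 + σ) := by
      intro x
      rw [← Equiv.sum_comp (Equiv.addLeft (ξ x.1)) (fun a => g x.2 a ^ 2)]
      refine sum_congr rfl (fun σ _ => ?_)
      simp only [g, Equiv.coe_addLeft, ← ind_and, sq, and_self]
    simp only [h1]
    rw [FD.E_sum]
    simp only [hE]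
    rw [← FD.E_sum]
    have h2 : ∀ s, ∑ σ, hit ξ (Blk n₁ (Pt s)) (B σ) ^ 2 ≤ n₁ ^ 2 * (c ^ 2 / p * L s) := fun s => by
      refine le_trans ?_ (mul_le_mul_of_nonneg_left (hνσ s) (sq_nonneg _))
      rw [mul_sum]
      refine sum_le_sum (fun σ _ => ?_)
      rw [← mul_pow]
      exact pow_le_pow_left₀ (hit_nonneg _ _ _) (hit_Blk_le _ _ _ _) 2
    refine (ρ.E_mono (fun s _ => h2 s)).trans ?_
    rw [FD.E_mul_left, FD.E_mul_left]
    exact mul_le_mul_of_nonneg_left (mul_le_mul_of_nonneg_left hL2 (by positivity)) (sq_nonneg _)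
  have hcol := col_cs (twoBlk γ ρ Pt n₁) ξ g
  set K := col (twoBlk γ ρ Pt n₁) ξ with hK
  have hK0 : 0 ≤ K := col_nonneg _ _
  have h1 : (q / 4) ^ 2 ≤ K * (n₁ ^ 2 * (c ^ 2 / p * Λ)) :=
    ((pow_le_pow_left₀ (by positivity) hlow 2).trans hcol).trans
      (mul_le_mul_of_nonneg_left hup hK0)
  have ha : c / p ≤ 2 * δ / M := by
    rw [div_le_iff₀ hp]; refine hP1.trans (le_of_eq ?_); ring
  have h2 : δ * M / (8 * Λ) ≤ q := by
    have h3 : (δ / 2) ^ 2 ≤ 2 * δ / M * Λ * q :=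
      hq1.trans (mul_le_mul_of_nonneg_right (mul_le_mul_of_nonneg_right ha hΛ.le) hq0)
    have h4 : δ * (δ * M / (8 * Λ)) ≤ δ * q := by
      have h5 := mul_le_mul_of_nonneg_right h3 (show 0 ≤ M / (2 * Λ) by positivity)
      calc δ * (δ * M / (8 * Λ)) = (δ / 2) ^ 2 * (M / (2 * Λ)) := by field_simp; ring
        _ ≤ _ := h5
        _ = δ * q := by field_simp
    exact le_of_mul_le_mul_left h4 hδ
  have h3 : c ^ 2 / p ≤ (2 * δ / M) ^ 2 * p := by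
    have h4 : c ^ 2 / p = (c / p) ^ 2 * p := by field_simp
    rw [h4]
    exact mul_le_mul_of_nonneg_right (pow_le_pow_left₀ (by positivity) ha 2) hp.le
  have h4 : (δ * M / (8 * Λ) / 4) ^ 2 ≤ K * (n₁ ^ 2 * ((2 * δ / M) ^ 2 * p * Λ)) := by
    refine (pow_le_pow_left₀ (by positivity) (by linarith) 2).trans (h1.trans ?_)
    gcongr
  have h5 := mul_le_mul_of_nonneg_right h4 (show 0 ≤ 1024 * Λ ^ 2 * M ^ 2 / δ ^ 2 by positivity)
  calc M ^ 4 = (δ * M / (8 * Λ) / 4) ^ 2 * (1024 * Λ ^ 2 * M ^ 2 / δ ^ 2) := by field_simp; ring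
    _ ≤ _ := h5
    _ = 4096 * n₁ ^ 2 * Λ ^ 3 * (p * K) := by field_simp; ring

theorem peak {D y : ℕ} {γ : ℕ → GI} (hγ : IsPath D γ) {Ps : Finset P1} {w : P1 → ℝ}
    (hF : Fam y Ps w) (hy : 2 ≤ y) {Pt : Ker} (hsz : Size Pt 1) {H : ℝ} (hc : Cnt γ Pt H) {C₀ : ℝ}
    (hL2 : ∀ s, ∑ p ∈ Ps, w p * avg (fun v => lam (xi γ p) (Pt s) 1 v ^ 2) ≤ C₀)
    (ρ : FD ℕ) {t Sp : ℕ} (hρ : ∀ s ∈ ρ.supp, t ≤ s ∧ s ≤ t + Sp) {a : ℝ} (ha : ∀ s, ρ.w s ≤ a)
    {δ M Λ J : ℝ} {n₁ : ℕ} (hδ : 0 < δ) (hM : 0 < M) (hΛ : 0 < Λ) (hn : 2 ≤ n₁ * δ) (hMδ : M ≤ δ * y)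
    (hJ : 200 * Real.log (2 * ((D : ℝ) * Sp) ^ 2) / Real.log y ≤ J)
    (hdiag : (y : ℝ) ^ 2 * Real.exp (2 * n₁ * H) * a ≤ 1) :
    ∑ p ∈ Ps, w p * ind (δ < avg (fun v => ρ.E (fun s => lam (xi γ p) (Pt s) 1 v) *
      ind (M < ρ.E (fun s => lam (xi γ p) (Pt s) 1 v)))) ≤
      C₀ / Λ + 4096 * n₁ ^ 2 * Λ ^ 3 * (J + 1) / M ^ 4 := by
  set K : ℝ := 4096 * n₁ ^ 2 * Λ ^ 3 / M ^ 4 with hK
  have hK0 : 0 ≤ K := by positivity
  let μ := twoBlk γ ρ Pt n₁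
  let Lp : P1 → ℝ := fun p => ρ.E (fun s => avg (fun v => lam (xi γ p) (Pt s) 1 v ^ 2))
  have hLp : ∀ p, 0 ≤ Lp p := fun p => ρ.E_nonneg (fun s _ =>
    div_nonneg (sum_nonneg (fun _ _ => sq_nonneg _)) (Nat.cast_nonneg _))
  have h1 : ∀ p ∈ Ps, ind (δ < avg (fun v => ρ.E (fun s => lam (xi γ p) (Pt s) 1 v) *
      ind (M < ρ.E (fun s => lam (xi γ p) (Pt s) 1 v)))) ≤
      Lp p / Λ + K * (p.1 * col μ (xi γ p)) := by
    intro p hp
    have h2 : 0 ≤ Lp p / Λ := div_nonneg (hLp p) hΛ.le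
    have h3 : 0 ≤ K * (p.1 * col μ (xi γ p)) :=
      mul_nonneg hK0 (mul_nonneg (Nat.cast_nonneg _) (col_nonneg _ _))
    by_cases hL : Lp p ≤ Λ
    · by_cases hc' : δ < avg (fun v => ρ.E (fun s => lam (xi γ p) (Pt s) 1 v) *
          ind (M < ρ.E (fun s => lam (xi γ p) (Pt s) 1 v)))
      · rw [ind_pos hc']
        have hy' : (y : ℝ) ≤ p.1 := by exact_mod_cast hF.lo p hp
        have h4 := peak_one γ (res p).toAddMonoidHom (xi γ p) (fun _ => rfl) hsz ρ hδ hM hΛ hn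
          (by rw [card_zmod]; exact hMδ.trans (mul_le_mul_of_nonneg_left hy' hδ.le)) hL hc'
        rw [card_zmod] at h4
        have h5 : 1 ≤ K * (p.1 * col μ (xi γ p)) := by
          rw [hK, div_mul_eq_mul_div, one_le_div (by positivity)]
          exact h4
        linarith
      · rw [ind_neg hc']; linarith
    · have h4 : 1 ≤ Lp p / Λ := (one_le_div hΛ).2 (not_le.1 hL).le
      linarith [ind_le_one (δ < avg (fun v => ρ.E (fun s => lam (xi γ p) (Pt s) 1 v) *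
        ind (M < ρ.E (fun s => lam (xi γ p) (Pt s) 1 v))))]
  have h2 : ∑ p ∈ Ps, w p * Lp p ≤ C₀ := by
    have : ∑ p ∈ Ps, w p * Lp p =
        ρ.E (fun s => ∑ p ∈ Ps, w p * avg (fun v => lam (xi γ p) (Pt s) 1 v ^ 2)) := by
      rw [FD.E_sum]
      exact sum_congr rfl (fun p _ => (ρ.E_mul_left _ _).symm)
    rw [this]
    exact ρ.E_le_const (fun s _ => hL2 s)
  have hly : 0 < Real.log y := Real.log_pos (by exact_mod_cast hy)
  have hJ0 : 0 ≤ J := by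
    refine le_trans (div_nonneg (mul_nonneg (by norm_num) ?_) hly.le) hJ
    have := Real.log_natCast_nonneg (2 * (D * Sp) ^ 2)
    push_cast at this
    exact this
  obtain ⟨T, hT1, hT2⟩ := hc.blk n₁
  have hsupp : ∀ x ∈ μ.supp, x.1 ∈ ρ.supp ∧ x.2 ∈ T ×ˢ T := by
    intro x hx
    obtain ⟨s, hs, hx⟩ := FD.mem_supp_bind.1 hx
    obtain ⟨S₁, hS₁, hx⟩ := FD.mem_supp_bind.1 hx
    obtain ⟨S₂, hS₂, rfl⟩ := FD.mem_supp_map.1 hx
    exact ⟨hs, mem_product.2 ⟨hT2 s S₁ hS₁, hT2 s S₂ hS₂⟩⟩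
  have ha0 : 0 ≤ a := (ρ.nonneg 0).trans (ha 0)
  have h3 : ∑ p ∈ Ps, w p * p.1 * col μ (xi γ p) ≤ J + (y : ℝ) ^ 2 * (T ×ˢ T).card * a := by
    refine col_sum_le μ Ps (xi γ) (fun p => w p * p.1)
      (fun p => mul_nonneg (hF.nonneg p) (Nat.cast_nonneg _)) hJ0 (fun x hx x' hx' hne => ?_) ?_
      (T ×ˢ T) (fun x hx => (hsupp x hx).2) (fun s => ?_)
    · have hd : γ x.1 - γ x'.1 ≠ 0 := sub_ne_zero.2 (fun e => hne (hγ.inj e))
      have h4 := hF.sieve _ hd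
      have h5 : ∀ p : P1, ind (xi γ p x.1 = xi γ p x'.1) = ind (res p (γ x.1 - γ x'.1) = 0) :=
        fun p => ind_congr (by rw [← xi_sub, sub_eq_zero])
      simp only [h5]
      refine h4.trans (le_trans ?_ hJ)
      obtain ⟨a1, a2⟩ := hρ _ (hsupp x hx).1
      obtain ⟨a3, a4⟩ := hρ _ (hsupp x' hx').1
      have h6 := norm_le_of_mem_box (hγ.sub_mem_box a1 a2 a3 a4)
      have h7 := one_le_norm hd
      have h8 : (((γ x.1 - γ x'.1).norm : ℤ) : ℝ) ≤ 2 * ((D : ℝ) * Sp) ^ 2 := by exact_mod_cast h6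
      have h9 : (0 : ℝ) < ((γ x.1 - γ x'.1).norm : ℤ) := by exact_mod_cast h7
      have h10 := Real.log_le_log h9 h8
      gcongr
    · calc ∑ p ∈ Ps, w p * p.1 ≤ ∑ p ∈ Ps, w p * (y : ℝ) ^ 2 :=
            sum_le_sum (fun p hp => mul_le_mul_of_nonneg_left (by exact_mod_cast hF.hi p hp)
              (hF.nonneg p))
        _ = (y : ℝ) ^ 2 := by rw [← sum_mul, hF.sum_one, one_mul]
    · have : μ.E (fun x => ind (x.1 = s)) = ρ.w s := by
        simp only [μ, twoBlk, FD.E_bind, FD.E_map, FD.E_const, FD.w_eq_E]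
      rw [this]; exact ha s
  have h4 : (y : ℝ) ^ 2 * (T ×ˢ T).card * a ≤ 1 := by
    refine le_trans ?_ hdiag
    have h5 : (((T ×ˢ T).card : ℕ) : ℝ) ≤ Real.exp (2 * n₁ * H) := by
      rw [card_product, show 2 * (n₁ : ℝ) * H = n₁ * H + n₁ * H by ring, Real.exp_add]
      push_cast
      exact mul_le_mul hT1 hT1 (Nat.cast_nonneg _) (Real.exp_pos _).le
    gcongr
  calc _ ≤ ∑ p ∈ Ps, w p * (Lp p / Λ + K * (p.1 * col μ (xi γ p))) :=
        sum_le_sum (fun p hp => mul_le_mul_of_nonneg_left (h1 p hp) (hF.nonneg p))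
    _ = (∑ p ∈ Ps, w p * Lp p) / Λ + K * ∑ p ∈ Ps, w p * p.1 * col μ (xi γ p) := by
        rw [sum_div, mul_sum, ← sum_add_distrib]
        exact sum_congr rfl (fun p _ => by ring)
    _ ≤ C₀ / Λ + K * (J + 1) := by
        gcongr
        linarith
    _ = _ := by rw [hK]; ring

end Crest.Agent.R2
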