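import Crest.Agent.R2.StepAll
import Crest.Agent.R2.Peak
import Crest.Agent.R2.Num2

/-!
# Row 2: amplification on the thin tree

Recipes (`thin i = tree J P.k (BlkK P.NU Pt) i`, `P.n 0 = P.NU` by `rfl`).
* `cnt_thin`: `cnt_pt`, `Cnt.blk`, `cnt_tree` with `ε = 2 / Γ` (`log_box`, `eps_small`), `Cnt.mono`.
* `init`: `chain J 0 t = pure t`; `dfc_init` with `β = c 0`, `avg_lam`, `PtOK.mass`, `PtOK.size`, `pt_L2`.
* `step`: `stepAll` with `κ = thin i`, `N = n i`, `F = Γ e i`, `χ = (1 - η) ^ (i + 1)`, `χ' = 1 - η`,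
  `φ s = gmix i (Γ e i) s`, `h s = gmix i (Γ e (i+1)) s`, `e s p v = (chain J i s).E (lam² ) / (Γ e (i+1))`;
  `hcert = cert_tree`, `htrue` from `raw_tree` and `x ≤ min x F + x² / F`; `min _ _ ≤` its left entry,
  `avg_E`, `avg_div`, `pt_L2`, `exc`. `(chain J (i+1) t).E = (J i t).E (chain J i s).E` by `FD.E_bind`.
* `mid`: `dfc_mix`, `dfc_trunc`, `trunc`, `Fam.sum_one`. `cert_mid`: `hit_JK`, `cert_blk` applied to
  `x = (1 - η) ^ (m + 1) (n m / p) ∑_B min (gmix ..) Γ ≤ hit (thin m s) B` (`cert_tree`, `e_mul_n_le`).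
* `top`: `stepAll` with `i = m + 1`, `φ = gmid`, `h s = lam ξ (Blk (k (m+1)) (thin (m+1) s)) (n (m+2))`,
  `e s p v = raw * ind (M < raw)`, `raw = (chain J (m+1) s).E lam`. For `htrue`: if `raw ≤ M` then
  `k x ≤ n (m+2) M / p ≤ η` (`raw_tree`, `y ≤ p`) and `cert_blk` with `x = hit` itself; else `raw_tree`.
  `min (β' e^{2c} avg e) K ≤ β' e^{2c} δ + K * ind (δ < avg e)`; `peak` with `ρ = chain J (m+1) s`
  (`jumpIn_chain`, `w_unif_bind_le`), `Λ = Γ`, `peak_K`, `peak_δ`.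
* `amp`: induction `d i + 7 η ≤ 2 ^ i (d 0 + 7 η)`, then `mid`, `top`, `total`.
-/

set_option autoImplicit false
open Finset

noncomputable section
namespace Crest.Agent.R2
open Classical

/-- The hypotheses of the amplification. -/
structure Ctx (P : Prm) (γ : ℕ → GI) (Ps : Finset P1) (w : P1 → ℝ) (Pt : Ker) (θ : ℝ)
    (J : ℕ → ℕ → FD ℕ) : Prop where
  ok : P.OK
  path : IsPath P.D γ
  fam : Fam P.y Ps w
  pt : PtOK P.y Pt θ
  hθ : 0.995 ≤ θ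
  geo : ∀ i, i ≠ P.m → ∀ t, ∃ (Pr : FD (ℕ × ℕ)) (h₀ : GI),
    PairOK γ P.D P.C t (2 ^ P.g i) (P.N0 i) Pr h₀ ∧ J i t = Geo Pr
  unif : J P.m = Unif (2 ^ P.g P.m)

/-- Mixture over the leaves of the truncated point density. -/
def gmix (γ : ℕ → GI) (Pt : Ker) (J : ℕ → ℕ → FD ℕ) (i : ℕ) (F : ℝ) (t : ℕ) (p : P1)
    (v : ZMod p.1) : ℝ :=
  (chain J i t).E (fun s => min (lam (xi γ p) (Pt s) 1 v) F)

/-- The density used after the uniform jump. -/
def gmid (P : Prm) (γ : ℕ → GI) (Pt : Ker) (J : ℕ → ℕ → FD ℕ) (t : ℕ) (p : P1) (v : ZMod p.1) : ℝ :=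
  (J P.m t).E (fun s => min (gmix γ Pt J P.m (P.Γ * P.e P.m) s p v) P.Γ)

theorem amp_le_min_add {x F : ℝ} (hx : 0 ≤ x) (hF : 0 < F) : x ≤ min x F + x ^ 2 / F := by
  rcases le_total x F with h | h
  · rw [min_eq_left h]
    have : 0 ≤ x ^ 2 / F := by positivity
    linarith
  · rw [min_eq_right h]
    have : x ≤ x ^ 2 / F := by rw [le_div_iff₀ hF]; nlinarith
    linarith

theorem gmix_nonneg (γ : ℕ → GI) (Pt : Ker) (J : ℕ → ℕ → FD ℕ) (i : ℕ) {F : ℝ} (hF : 0 ≤ F) (t : ℕ)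
    (p : P1) (v : ZMod p.1) : 0 ≤ gmix γ Pt J i F t p v :=
  FD.E_nonneg _ (fun _ _ => le_min (lam_nonneg _ _ zero_le_one _) hF)

theorem gmix_succ (γ : ℕ → GI) (Pt : Ker) (J : ℕ → ℕ → FD ℕ) (i : ℕ) (F : ℝ) (t : ℕ) (p : P1) :
    gmix γ Pt J (i + 1) F t p = fun v => (J i t).E (fun s => gmix γ Pt J i F s p v) := by
  funext v
  simp only [gmix, chain, FD.E_bind]

theorem amp_p_pos (p : P1) : (0 : ℝ) < p.1 := by exact_mod_cast p.2.1.pos

namespace Ctx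
variable {P : Prm} {γ : ℕ → GI} {Ps : Finset P1} {w : P1 → ℝ} {Pt : Ker} {θ : ℝ}
  {J : ℕ → ℕ → FD ℕ} (H : Ctx P γ Ps w Pt θ J)
include H

theorem jumpIn (i : ℕ) : JumpIn (J i) (2 ^ P.g i) := by
  by_cases hi : i = P.m
  · rw [hi, H.unif]; exact jumpIn_Unif _
  · intro t s hs
    obtain ⟨Pr, h₀, hP, hJ⟩ := H.geo i hi t
    rw [hJ] at hs
    obtain ⟨x, hx, hs⟩ := mem_supp_Geo hs
    obtain ⟨h1, h2⟩ := hP.win x hx
    rw [mem_Ico] at h1 h2
    rcases hs with rfl | rfl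
    · exact ⟨h1.1, h1.2.le⟩
    · exact ⟨h2.1, h2.2.le⟩

theorem Γ_pos' : (0 : ℝ) < P.Γ := by exact_mod_cast H.ok.Γ_pos

omit H in
theorem e_pos' (i : ℕ) : (0 : ℝ) < P.e i := by exact_mod_cast Prm.OK.e_pos (P := P) i

theorem n_pos' (i : ℕ) : (0 : ℝ) < P.n i := by exact_mod_cast H.ok.n_pos i

theorem F_pos (i : ℕ) : (0 : ℝ) < P.Γ * P.e i := mul_pos H.Γ_pos' (e_pos' i)

theorem one_sub_pos : 0 < 1 - P.η := by linarith [H.ok.η_le]

theorem one_sub_le : 1 - P.η ≤ 1 := by linarith [H.ok.η_pos]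

theorem L2 (s : ℕ) : ∑ p ∈ Ps, w p * avg (fun v => lam (xi γ p) (Pt s) 1 v ^ 2) ≤ 5000 :=
  pt_L2 H.path H.fam H.ok.two_le_y H.ok.hLD H.pt s

theorem cnt_thin {i : ℕ} (hi : i ≤ P.m + 1) :
    Cnt γ (tree J P.k (BlkK P.NU Pt) i) (23 * P.L * P.n i) := by
  have h0 : Cnt γ (BlkK P.NU Pt) (22 * P.L * P.n 0) :=
    ((cnt_pt H.path H.ok.two_le_y H.ok.hLD H.pt).blk P.NU).mono (le_of_eq (by
      show (P.NU : ℝ) * (22 * P.L) = 22 * P.L * P.NU
      ring))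
  refine (cnt_tree H.path J P.k P.n (fun l => 2 ^ P.g l) (ε := 2 / P.Γ) h0 Prm.OK.n_succ i
    (fun l _ => H.jumpIn l) (fun l _ => H.ok.log_box l)).mono ?_
  refine mul_le_mul_of_nonneg_right ?_ (Nat.cast_nonneg _)
  have h1 := H.ok.eps_small
  have h2 := H.ok.hL
  have h3 : (i : ℝ) ≤ P.m + 2 := by exact_mod_cast (by omega : i ≤ P.m + 2)
  have h4 : (0 : ℝ) ≤ 2 / P.Γ := by positivity
  have h5 := mul_le_mul_of_nonneg_right h3 h4
  norm_num at h1 h2 ⊢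
  linarith

theorem init (t : ℕ) :
    ∑ p ∈ Ps, w p * dfc (P.c 0) (P.β 0) (gmix γ Pt J 0 (P.Γ * P.e 0) t p) ≤
      P.c 0 * (1 - θ) + P.c 0 * 5000 / (P.Γ * P.e 0) + P.c 0 ^ 2 * 5000 / 2 := by
  have hF := H.F_pos 0
  have hc := H.ok.c_pos 0
  have h1 : ∀ p ∈ Ps, w p * dfc (P.c 0) (P.β 0) (gmix γ Pt J 0 (P.Γ * P.e 0) t p) ≤
      w p * (P.c 0 * (1 - θ)) + (P.c 0 / (P.Γ * P.e 0) + P.c 0 ^ 2 / 2) *
        (w p * avg (fun v => lam (xi γ p) (Pt t) 1 v ^ 2)) := by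
    intro p _
    have e1 : gmix γ Pt J 0 (P.Γ * P.e 0) t p =
        fun v => min (lam (xi γ p) (Pt t) 1 v) (P.Γ * P.e 0) := by
      funext v
      simp only [gmix, chain, FD.E_pure]
    have e2 := avg_lam (xi γ p) (Pt t) (H.pt.size t)
    have h2 : avg (lam (xi γ p) (Pt t) 1) ≤ 1 := by
      rw [e2]
      exact FD.E_le_const _ (fun S hS => by exact_mod_cast H.pt.size t S hS)
    have h3 : θ ≤ avg (lam (xi γ p) (Pt t) 1) := by
      rw [e2]
      exact H.pt.mass t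
    have h4 := dfc_init hc.le hF (fun v => lam_nonneg (xi γ p) (Pt t) zero_le_one v) h2
    rw [e1, Prm.OK.β_zero]
    have h5 : P.c 0 * (1 - avg (lam (xi γ p) (Pt t) 1)) ≤ P.c 0 * (1 - θ) :=
      mul_le_mul_of_nonneg_left (by linarith) hc.le
    have h6 := mul_le_mul_of_nonneg_left (h4.trans (add_le_add_left (add_le_add_left h5 _) _))
      (H.fam.nonneg p)
    refine h6.trans (le_of_eq ?_)
    ring
  refine (sum_le_sum h1).trans ?_
  rw [sum_add_distrib, ← sum_mul, ← mul_sum, H.fam.sum_one]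
  have h7 := mul_le_mul_of_nonneg_left (H.L2 t)
    (show 0 ≤ P.c 0 / (P.Γ * P.e 0) + P.c 0 ^ 2 / 2 by positivity)
  refine (add_le_add_right h7 _).trans (le_of_eq ?_)
  ring

theorem cert (p : P1) (i : ℕ) {F : ℝ} (hF : 0 ≤ F) (s : ℕ) (B : Finset (ZMod p.1))
    (hB : (B.card : ℝ) * P.n i * F ≤ P.η * p.1) :
    (1 - P.η) ^ (i + 1) * ((P.n i : ℝ) / p.1) * ∑ v ∈ B, gmix γ Pt J i F s p v ≤
      hit (xi γ p) (tree J P.k (BlkK P.NU Pt) i s) B := by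
  have := cert_tree (xi γ p) J P.k P.n Pt H.pt.size H.ok.k_pos Prm.OK.n_succ hF H.ok.η_pos.le
    (by linarith [H.ok.η_le]) B i (by rwa [card_zmod]) s
  rw [card_zmod] at this
  exact this

omit H in
theorem raw (p : P1) (i s : ℕ) (v : ZMod p.1) :
    hit (xi γ p) (tree J P.k (BlkK P.NU Pt) i s) {v} ≤
      (P.n i : ℝ) / p.1 * (chain J i s).E (fun s' => lam (xi γ p) (Pt s') 1 v) := by
  have := raw_tree (xi γ p) J P.k P.n Pt Prm.OK.n_succ i s v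
  rw [card_zmod] at this
  exact this

theorem step {i : ℕ} (hi : i < P.m) {d : ℝ}
    (hd : ∀ t, ∑ p ∈ Ps, w p * dfc (P.c i) (P.β i) (gmix γ Pt J i (P.Γ * P.e i) t p) ≤ d) (t : ℕ) :
    ∑ p ∈ Ps, w p * dfc (P.c (i + 1)) (P.β (i + 1))
      (gmix γ Pt J (i + 1) (P.Γ * P.e (i + 1)) t p) ≤ 2 * d + 7 * P.η := by
  obtain ⟨Pr, h₀, hP, hJ⟩ := H.geo i hi.ne t
  have hi' : i ≤ P.m + 1 := by omega
  have hmin : min i P.m = i := min_eq_left hi.le
  have hF := H.F_pos i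
  have hF' := H.F_pos (i + 1)
  have g1 := H.ok.step_h1 hi'
  have g3 := H.ok.step_h3 hi'
  have g4 := H.ok.step_h4 hi'
  have g7 := H.ok.step_h7 hi'
  rw [hmin] at g1 g3 g4 g7
  have key := stepAll H.fam H.ok.two_le_y hP H.ok.hC (H.cnt_thin hi')
    (fun s p => gmix γ Pt J i (P.Γ * P.e i) s p) (fun s p => gmix γ Pt J i (P.Γ * P.e (i + 1)) s p)
    (fun s p v => (chain J i s).E (fun s' => lam (xi γ p) (Pt s') 1 v ^ 2) / (P.Γ * P.e (i + 1)))
    (fun s p v => gmix_nonneg γ Pt J i hF.le s p v) (fun s p v => gmix_nonneg γ Pt J i hF'.le s p v)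
    (fun s p v => div_nonneg (FD.E_nonneg _ (fun _ _ => sq_nonneg _)) hF'.le)
    (H.n_pos' i) hF H.ok.η_pos H.ok.η_le (pow_pos H.one_sub_pos (i + 1))
    (pow_le_one₀ H.one_sub_pos.le H.one_sub_le) H.one_sub_pos H.one_sub_le (H.ok.β_pos i)
    (H.ok.c_pos i).le (fun p _ s B hB => H.cert p i hF.le s B hB)
    (fun p _ s v => by
      refine (raw p i s v).trans (mul_le_mul_of_nonneg_left ?_ (div_nonneg (H.n_pos' i).le (amp_p_pos p).le))
      have h1 : gmix γ Pt J i (P.Γ * P.e (i + 1)) s p v ≤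
          gmix γ Pt J i (P.Γ * P.e (i + 1)) s p v / (1 - P.η) :=
        le_div_self (gmix_nonneg γ Pt J i hF'.le s p v) H.one_sub_pos H.one_sub_le
      refine le_trans ?_ (add_le_add_left h1 _)
      rw [gmix, ← FD.E_div, ← FD.E_add]
      exact FD.E_mono _ (fun s' _ => amp_le_min_add (lam_nonneg _ _ zero_le_one _) hF'))
    g1 (H.ok.step_h2 hi') g3 g4 (H.ok.step_h5 i).1 (H.ok.step_h5 i).2.1 (H.ok.step_h6 i) g7
  have e1 : ∀ p, gmix γ Pt J (i + 1) (P.Γ * P.e (i + 1)) t p =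
      fun v => (Geo Pr).E (fun s => gmix γ Pt J i (P.Γ * P.e (i + 1)) s p v) := by
    intro p
    rw [gmix_succ, hJ]
  simp only [e1, Prm.OK.c_succ]
  refine key.trans ?_
  have h1 : (Geo Pr).E (fun s => ∑ p ∈ Ps, w p * dfc (P.c i) (P.β i)
      (gmix γ Pt J i (P.Γ * P.e i) s p)) ≤ d := FD.E_le_const _ (fun s _ => hd s)
  have h2 : (Geo Pr).E (fun s => ∑ p ∈ Ps, w p * min (P.β (i + 1) * Real.exp (2 * P.c i) *
      avg (fun v => (chain J i s).E (fun s' => lam (xi γ p) (Pt s') 1 v ^ 2) / (P.Γ * P.e (i + 1))))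
      (2 * P.c i + Real.log (1 / P.η))) ≤ P.η := by
    refine FD.E_le_const _ (fun s _ => ?_)
    refine (sum_le_sum (fun p _ => mul_le_mul_of_nonneg_left (min_le_left _ _) (H.fam.nonneg p))).trans ?_
    refine le_trans ?_ (H.ok.exc hi)
    have h3 : ∀ p : P1, w p * (P.β (i + 1) * Real.exp (2 * P.c i) *
        avg (fun v => (chain J i s).E (fun s' => lam (xi γ p) (Pt s') 1 v ^ 2) / (P.Γ * P.e (i + 1)))) =
        P.β (i + 1) * Real.exp (2 * P.c i) * ((chain J i s).E (fun s' =>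
          w p * avg (fun v => lam (xi γ p) (Pt s') 1 v ^ 2)) / (P.Γ * P.e (i + 1))) := by
      intro p
      rw [avg_div, avg_E, FD.E_mul_left]
      ring
    simp only [h3]
    rw [← mul_sum, ← sum_div, ← FD.E_sum]
    refine mul_le_mul_of_nonneg_left (div_le_div_of_nonneg_right ?_ hF'.le)
      (mul_nonneg (H.ok.β_pos _).le (Real.exp_pos _).le)
    exact FD.E_le_const _ (fun s' _ => H.L2 s')
  linarith

theorem mid {d : ℝ}
    (hd : ∀ t, ∑ p ∈ Ps, w p * dfc (P.c P.m) (P.β P.m) (gmix γ Pt J P.m (P.Γ * P.e P.m) t p) ≤ d)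
    (t : ℕ) : ∑ p ∈ Ps, w p * dfc (P.c P.m) (P.β P.m) (gmid P γ Pt J t p) ≤ d + P.η := by
  have h1 : ∀ p ∈ Ps, w p * dfc (P.c P.m) (P.β P.m) (gmid P γ Pt J t p) ≤
      (J P.m t).E (fun s => w p * dfc (P.c P.m) (P.β P.m) (gmix γ Pt J P.m (P.Γ * P.e P.m) s p)) +
        w p * P.η := by
    intro p _
    rw [FD.E_mul_left, ← mul_add]
    refine mul_le_mul_of_nonneg_left ?_ (H.fam.nonneg p)
    refine (dfc_mix (J P.m t) (P.c P.m) (P.β P.m)
      (fun s v => min (gmix γ Pt J P.m (P.Γ * P.e P.m) s p v) P.Γ)).trans ?_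
    rw [← (J P.m t).E_const P.η, ← FD.E_add]
    refine FD.E_mono _ (fun s _ => ?_)
    exact (dfc_trunc _ (H.ok.β_pos _).le _ _).trans (add_le_add_right H.ok.trunc _)
  refine (sum_le_sum h1).trans ?_
  rw [sum_add_distrib, ← sum_mul, H.fam.sum_one, one_mul, ← FD.E_sum]
  exact add_le_add_left (FD.E_le_const _ (fun s _ => hd s)) _

theorem cert_mid (p : P1) (t : ℕ) (B : Finset (ZMod p.1))
    (hB : (B.card : ℝ) * P.n (P.m + 1) * P.Γ ≤ P.η * p.1) :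
    (1 - P.η) ^ (P.m + 1 + 1) * ((P.n (P.m + 1) : ℝ) / p.1) * ∑ v ∈ B, gmid P γ Pt J t p v ≤
      hit (xi γ p) (tree J P.k (BlkK P.NU Pt) (P.m + 1) t) B := by
  have hF := H.F_pos P.m
  have hp := amp_p_pos p
  have hΓ := H.Γ_pos'
  have hn := H.n_pos' P.m
  have hη := H.one_sub_pos
  have hnk : (P.n (P.m + 1) : ℝ) = P.k P.m * P.n P.m := by rw [Prm.OK.n_succ]; push_cast; rfl
  show _ ≤ hit (xi γ p) (JK (J P.m) (BlkK (P.k P.m) (tree J P.k (BlkK P.NU Pt) P.m)) t) B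
  rw [hit_JK]
  simp only [gmid]
  rw [← FD.E_sum, ← FD.E_mul_left]
  refine FD.E_mono _ (fun s _ => ?_)
  have hen : (P.e P.m : ℝ) * P.n P.m ≤ P.n (P.m + 1) := by exact_mod_cast H.ok.e_mul_n_le P.m
  have h1 := H.cert p P.m hF.le s B (by
    refine le_trans ?_ hB
    have := mul_le_mul_of_nonneg_left hen (show (0 : ℝ) ≤ B.card * P.Γ by positivity)
    linarith)
  have h0 : ∀ v ∈ B, 0 ≤ min (gmix γ Pt J P.m (P.Γ * P.e P.m) s p v) P.Γ :=
    fun v _ => le_min (gmix_nonneg γ Pt J P.m hF.le s p v) hΓ.le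
  have hS0 := sum_nonneg h0
  have hS1 : ∑ v ∈ B, min (gmix γ Pt J P.m (P.Γ * P.e P.m) s p v) P.Γ ≤ B.card * P.Γ := by
    simpa using sum_le_card_nsmul B _ (P.Γ : ℝ) (fun v _ => min_le_right _ _)
  have hS2 : ∑ v ∈ B, min (gmix γ Pt J P.m (P.Γ * P.e P.m) s p v) P.Γ ≤
      ∑ v ∈ B, gmix γ Pt J P.m (P.Γ * P.e P.m) s p v := sum_le_sum (fun v _ => min_le_left _ _)
  set S := ∑ v ∈ B, min (gmix γ Pt J P.m (P.Γ * P.e P.m) s p v) P.Γ with hS
  have h2 := cert_blk (xi γ p) (P.k P.m) (tree J P.k (BlkK P.NU Pt) P.m s) B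
    (x := (1 - P.η) ^ (P.m + 1) * ((P.n P.m : ℝ) / p.1) * S) (η := P.η) (by positivity)
    (le_trans (mul_le_mul_of_nonneg_left hS2 (by positivity)) h1) (by
      have h3 : (1 - P.η) ^ (P.m + 1) ≤ 1 := pow_le_one₀ hη.le H.one_sub_le
      calc (P.k P.m : ℝ) * ((1 - P.η) ^ (P.m + 1) * ((P.n P.m : ℝ) / p.1) * S)
          ≤ (P.k P.m : ℝ) * (1 * ((P.n P.m : ℝ) / p.1) * (B.card * P.Γ)) := by gcongr
        _ = (B.card : ℝ) * P.n (P.m + 1) * P.Γ / p.1 := by rw [hnk]; ring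
        _ ≤ P.η := by rw [div_le_iff₀ hp]; exact hB)
  refine le_trans (le_of_eq ?_) h2
  rw [hnk]
  ring

theorem peak_top (s : ℕ) :
    ∑ p ∈ Ps, w p * ind (P.δ < avg (fun v =>
      (chain J (P.m + 1) s).E (fun s' => lam (xi γ p) (Pt s') 1 v) *
      ind (P.M < (chain J (P.m + 1) s).E (fun s' => lam (xi γ p) (Pt s') 1 v)))) ≤
      5000 / P.Γ + 4096 * P.n₁ ^ 2 * (P.Γ : ℝ) ^ 3 * (P.J + 1) / P.M ^ 4 := by
  refine peak H.path H.fam H.ok.two_le_y H.pt.size (cnt_pt H.path H.ok.two_le_y H.ok.hLD H.pt) H.L2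
    (chain J (P.m + 1) s) (t := s) (Sp := P.Sp (P.m + 1))
    (jumpIn_chain J (fun l => 2 ^ P.g l) (P.m + 1) (fun l _ => H.jumpIn l) s)
    (a := ((P.Sp P.m : ℝ) + 1) / (2 ^ P.g P.m : ℕ)) (fun τ => ?_) H.ok.δ_pos H.ok.M_pos H.Γ_pos'
    H.ok.peak_n H.ok.peak_M le_rfl H.ok.peak_diag
  show ((J P.m s).bind (chain J P.m)).w τ ≤ _
  rw [H.unif]
  exact w_unif_bind_le (by positivity)
    (jumpIn_chain J (fun l => 2 ^ P.g l) P.m (fun l _ => H.jumpIn l)) s τ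

theorem top {d : ℝ}
    (hd : ∀ t, ∑ p ∈ Ps, w p * dfc (P.c P.m) (P.β P.m) (gmid P γ Pt J t p) ≤ d) (t : ℕ) :
    ∑ p ∈ Ps, w p * dfc (P.c (P.m + 1)) (P.β (P.m + 1))
      (lam (xi γ p) (tree J P.k (BlkK P.NU Pt) (P.m + 2) t) (P.n (P.m + 2))) ≤ 2 * d + 9 * P.η := by
  obtain ⟨Pr, h₀, hP, hJ⟩ := H.geo (P.m + 1) (Nat.succ_ne_self _) t
  have hi' : P.m + 1 ≤ P.m + 1 := le_rfl
  have hmin : min (P.m + 1) P.m = P.m := min_eq_right (Nat.le_succ _)
  have hF := H.F_pos (P.m + 1)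
  have hη := H.one_sub_pos
  have hn1 := H.n_pos' (P.m + 1)
  have hn2 := H.n_pos' (P.m + 2)
  have hk : (0 : ℝ) < P.k (P.m + 1) := by exact_mod_cast H.ok.k_pos (P.m + 1)
  have hnk : (P.n (P.m + 2) : ℝ) = P.k (P.m + 1) * P.n (P.m + 1) := by
    rw [Prm.OK.n_succ]; push_cast; rfl
  have g1 := H.ok.step_h1 hi'
  have g3 := H.ok.step_h3 hi'
  have g4 := H.ok.step_h4 hi'
  have g7 := H.ok.step_h7 hi'
  rw [hmin] at g1 g3 g4 g7
  have hraw : ∀ s (p : P1) v, 0 ≤ (chain J (P.m + 1) s).E (fun s' => lam (xi γ p) (Pt s') 1 v) :=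
    fun s p v => FD.E_nonneg _ (fun _ _ => lam_nonneg _ _ zero_le_one _)
  have key := stepAll H.fam H.ok.two_le_y hP H.ok.hC (H.cnt_thin hi')
    (fun s p => gmid P γ Pt J s p)
    (fun s p => lam (xi γ p) (Blk (P.k (P.m + 1)) (tree J P.k (BlkK P.NU Pt) (P.m + 1) s)) (P.n (P.m + 2)))
    (fun s p v => (chain J (P.m + 1) s).E (fun s' => lam (xi γ p) (Pt s') 1 v) *
      ind (P.M < (chain J (P.m + 1) s).E (fun s' => lam (xi γ p) (Pt s') 1 v)))
    (fun s p v => FD.E_nonneg _ (fun s' _ =>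
      le_min (gmix_nonneg γ Pt J P.m (H.F_pos _).le s' p v) H.Γ_pos'.le))
    (fun s p v => lam_nonneg _ _ hn2.le v)
    (fun s p v => mul_nonneg (hraw s p v) (ind_nonneg _))
    hn1 hF H.ok.η_pos H.ok.η_le (pow_pos hη (P.m + 1 + 1))
    (pow_le_one₀ hη.le H.one_sub_le) hη H.one_sub_le (H.ok.β_pos P.m)
    (H.ok.c_pos P.m).le
    (fun p _ s B hB => H.cert_mid p s B (by simpa [Prm.OK.e_top] using hB))
    (fun p hp s v => by
      have hp0 := amp_p_pos p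
      have h1 := raw (P := P) (γ := γ) (Pt := Pt) (J := J) p (P.m + 1) s v
      have h2 : 0 ≤ lam (xi γ p) (Blk (P.k (P.m + 1)) (tree J P.k (BlkK P.NU Pt) (P.m + 1) s))
          (P.n (P.m + 2)) v / (1 - P.η) := div_nonneg (lam_nonneg _ _ hn2.le v) hη.le
      by_cases hM : P.M < (chain J (P.m + 1) s).E (fun s' => lam (xi γ p) (Pt s') 1 v)
      · rw [ind_pos hM, mul_one]
        exact h1.trans (mul_le_mul_of_nonneg_left (le_add_of_nonneg_left h2) (by positivity))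
      · rw [ind_neg hM, mul_zero, add_zero]
        have hyp : (P.y : ℝ) ≤ p.1 := by exact_mod_cast H.fam.lo p hp
        have h3 := cert_blk (xi γ p) (P.k (P.m + 1)) (tree J P.k (BlkK P.NU Pt) (P.m + 1) s) {v}
          (η := P.η) (hit_nonneg _ _ _) le_rfl (by
            have hη0 := H.ok.η_pos
            calc (P.k (P.m + 1) : ℝ) * hit (xi γ p) (tree J P.k (BlkK P.NU Pt) (P.m + 1) s) {v}
                ≤ (P.k (P.m + 1) : ℝ) * ((P.n (P.m + 1) : ℝ) / p.1 * P.M) :=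
                  mul_le_mul_of_nonneg_left (h1.trans (mul_le_mul_of_nonneg_left (not_lt.1 hM)
                    (by positivity))) hk.le
              _ = P.η * (P.y / p.1) := by rw [Prm.M, hnk]; field_simp
              _ ≤ P.η := mul_le_of_le_one_right hη0.le ((div_le_one hp0).2 hyp))
        rw [lam, card_zmod, hnk]
        calc _ = (P.n (P.m + 1) : ℝ) / p.1 * ((p.1 : ℝ) / (P.k (P.m + 1) * P.n (P.m + 1)) *
              ((1 - P.η) * (P.k (P.m + 1) *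
                hit (xi γ p) (tree J P.k (BlkK P.NU Pt) (P.m + 1) s) {v})) / (1 - P.η)) := by
              field_simp
          _ ≤ _ := by gcongr)
    g1 (H.ok.step_h2 hi') g3 g4 (H.ok.step_h5 _).1 (H.ok.step_h5 _).2.1 (H.ok.step_h6 _) g7
  have e1 : ∀ p : P1, lam (xi γ p) (tree J P.k (BlkK P.NU Pt) (P.m + 2) t) (P.n (P.m + 2)) =
      fun v => (Geo Pr).E (fun s => lam (xi γ p)
        (Blk (P.k (P.m + 1)) (tree J P.k (BlkK P.NU Pt) (P.m + 1) s)) (P.n (P.m + 2)) v) := by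
    intro p
    funext v
    show lam (xi γ p) (JK (J (P.m + 1)) (BlkK (P.k (P.m + 1)) (tree J P.k (BlkK P.NU Pt) (P.m + 1))) t)
      _ v = _
    simp only [lam]
    rw [hit_JK, hJ, FD.E_mul_left]
    rfl
  simp only [e1, Prm.OK.c_succ]
  refine key.trans ?_
  have h1 : (Geo Pr).E (fun s => ∑ p ∈ Ps, w p * dfc (P.c P.m) (P.β P.m) (gmid P γ Pt J s p)) ≤ d :=
    FD.E_le_const _ (fun s _ => hd s)
  have h2 : (Geo Pr).E (fun s => ∑ p ∈ Ps, w p * min (P.β (P.m + 1) * Real.exp (2 * P.c P.m) *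
      avg (fun v => (chain J (P.m + 1) s).E (fun s' => lam (xi γ p) (Pt s') 1 v) *
        ind (P.M < (chain J (P.m + 1) s).E (fun s' => lam (xi γ p) (Pt s') 1 v))))
      (2 * P.c P.m + Real.log (1 / P.η))) ≤ 2 * P.η := by
    refine FD.E_le_const _ (fun s _ => ?_)
    have hK := H.ok.peak_K_nonneg
    have hb : 0 ≤ P.β (P.m + 1) * Real.exp (2 * P.c P.m) :=
      mul_nonneg (H.ok.β_pos _).le (Real.exp_pos _).le
    have h3 : ∀ x : ℝ, min (P.β (P.m + 1) * Real.exp (2 * P.c P.m) * x)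
        (2 * P.c P.m + Real.log (1 / P.η)) ≤
        P.η + (2 * P.c P.m + Real.log (1 / P.η)) * ind (P.δ < x) := by
      intro x
      by_cases hx : P.δ < x
      · rw [ind_pos hx, mul_one]
        exact (min_le_right _ _).trans (le_add_of_nonneg_left H.ok.η_pos.le)
      · rw [ind_neg hx, mul_zero, add_zero]
        exact (min_le_left _ _).trans
          ((mul_le_mul_of_nonneg_left (not_lt.1 hx) hb).trans H.ok.peak_δ)
    refine (sum_le_sum (fun p _ => mul_le_mul_of_nonneg_left (h3 _) (H.fam.nonneg p))).trans ?_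
    have h4 := (mul_le_mul_of_nonneg_left (H.peak_top s) hK).trans H.ok.peak_K
    rw [mul_sum] at h4
    simp only [mul_add (w _), sum_add_distrib, mul_left_comm (w _) (2 * P.c P.m + Real.log (1 / P.η))]
    rw [← sum_mul, H.fam.sum_one]
    linarith
  linarith

theorem amp (t : ℕ) :
    ∑ p ∈ Ps, w p * dfc (0.55 * Real.log P.y) (P.β (P.m + 1))
      (lam (xi γ p) (tree J P.k (BlkK P.NU Pt) (P.m + 2) t) (P.n (P.m + 2))) ≤ Real.log P.y / 100 := by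
  set d₀ := P.c 0 * (1 - θ) + P.c 0 * 5000 / (P.Γ * P.e 0) + P.c 0 ^ 2 * 5000 / 2 with hd₀
  have h1 : ∀ i ≤ P.m, ∀ t, ∑ p ∈ Ps, w p * dfc (P.c i) (P.β i) (gmix γ Pt J i (P.Γ * P.e i) t p) ≤
      2 ^ i * (d₀ + 7 * P.η) - 7 * P.η := by
    intro i
    induction i with
    | zero =>
      intro _ t
      have := H.init t
      simp only [pow_zero, one_mul, add_sub_cancel_right]
      exact this
    | succ i ih =>
      intro hi t
      refine (H.step hi (ih (by omega)) t).trans (le_of_eq ?_)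
      ring
  have h2 := H.top (H.mid (h1 P.m le_rfl)) t
  have h3 := H.ok.total H.hθ
  have h4 := H.ok.η_pos
  rw [Prm.OK.c_top] at h2
  rw [← hd₀, pow_succ] at h3
  refine h2.trans ?_
  show _ ≤ P.L / 100
  linarith

end Ctx
end Crest.Agent.R2
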