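import Crest.Agent.R2.Defs

/-!
# Row 2: boxes, paths, residues, class masses
-/

set_option autoImplicit false
open Finset

noncomputable section
namespace Crest.Agent.R2
open Classical

theorem mem_box {R : ℕ} {z : GI} : z ∈ box R ↔ |z.re| ≤ (R : ℤ) ∧ |z.im| ≤ (R : ℤ) := by
  simp only [box, mem_image, mem_product, mem_Icc, abs_le]
  constructor
  · rintro ⟨x, hx, rfl⟩; exact hx
  · intro h; exact ⟨(z.re, z.im), h, rfl⟩

theorem card_box_le (R : ℕ) : (box R).card ≤ (2 * R + 1) ^ 2 := by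
  refine card_image_le.trans ?_
  rw [card_product, Int.card_Icc]
  have : ((R : ℤ) + 1 - -(R : ℤ)).toNat = 2 * R + 1 := by omega
  rw [this, sq]

theorem zero_mem_box (R : ℕ) : (0 : GI) ∈ box R := by simp [mem_box]

theorem box_mono {R R' : ℕ} (h : R ≤ R') : box R ⊆ box R' := by
  intro z hz
  have : (R : ℤ) ≤ R' := by exact_mod_cast h
  rw [mem_box] at hz ⊢
  exact ⟨hz.1.trans this, hz.2.trans this⟩

theorem neg_mem_box {R : ℕ} {z : GI} (h : z ∈ box R) : -z ∈ box R := by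
  simpa [mem_box] using h

theorem add_mem_box {R R' : ℕ} {z z' : GI} (h : z ∈ box R) (h' : z' ∈ box R') :
    z + z' ∈ box (R + R') := by
  rw [mem_box] at h h' ⊢
  push_cast
  simp only [Zsqrtd.re_add, Zsqrtd.im_add]
  exact ⟨(abs_add_le _ _).trans (add_le_add h.1 h'.1), (abs_add_le _ _).trans (add_le_add h.2 h'.2)⟩

theorem norm_eq (z : GI) : z.norm = z.re ^ 2 + z.im ^ 2 := by
  rw [Zsqrtd.norm_def]; ring

theorem norm_le_of_mem_box {R : ℕ} {z : GI} (h : z ∈ box R) : z.norm ≤ 2 * (R : ℤ) ^ 2 := by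
  rw [mem_box] at h
  rw [norm_eq]
  have h1 := sq_le_sq' (abs_le.1 h.1).1 (abs_le.1 h.1).2
  have h2 := sq_le_sq' (abs_le.1 h.2).1 (abs_le.1 h.2).2
  linarith

theorem one_le_norm {z : GI} (h : z ≠ 0) : 1 ≤ z.norm :=
  GaussianInt.norm_pos.2 h

theorem IsPath.add_sub_mem_box {D : ℕ} {γ : ℕ → GI} (hγ : IsPath D γ) (s k : ℕ) :
    γ (s + k) - γ s ∈ box (D * k) := by
  induction k with
  | zero => simpa using zero_mem_box 0
  | succ k ih =>
    have h1 : γ (s + k + 1) - γ (s + k) ∈ box D := mem_box.2 ⟨hγ.re _, hγ.im _⟩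
    have := add_mem_box ih h1
    rw [Nat.mul_succ, ← add_assoc]
    convert this using 1; ring

/-- Two times in a window of length `G` have displacement in `box (D * G)`. -/
theorem IsPath.sub_mem_box {D : ℕ} {γ : ℕ → GI} (hγ : IsPath D γ) {t G s s' : ℕ}
    (h1 : t ≤ s) (h2 : s ≤ t + G) (h3 : t ≤ s') (h4 : s' ≤ t + G) : γ s - γ s' ∈ box (D * G) := by
  rcases le_total s' s with h | h
  · obtain ⟨k, rfl⟩ := Nat.exists_eq_add_of_le h
    exact box_mono (Nat.mul_le_mul_left D (by omega)) (hγ.add_sub_mem_box s' k)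
  · obtain ⟨k, rfl⟩ := Nat.exists_eq_add_of_le h
    have := neg_mem_box (hγ.add_sub_mem_box s k)
    rw [neg_sub] at this
    exact box_mono (Nat.mul_le_mul_left D (by omega)) this

theorem IsPath.one_le {D : ℕ} {γ : ℕ → GI} (hγ : IsPath D γ) : 1 ≤ D := by
  by_contra h
  have hD : D = 0 := by omega
  subst hD
  have h1 := hγ.re 0
  have h2 := hγ.im 0
  have : γ (0 + 1) - γ 0 = 0 := by
    ext
    · simpa using h1
    · simpa using h2
  exact absurd (hγ.inj (sub_eq_zero.1 this)) (by norm_num)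

theorem xi_sub (γ : ℕ → GI) (p : P1) (s t : ℕ) : xi γ p s - xi γ p t = res p (γ s - γ t) := by
  simp [xi]

theorem res_natCast_self (p : P1) : res p (p.1 : GI) = 0 := by simp

theorem dvd_norm_of_res_eq_zero {p : P1} {d : GI} (h : res p d = 0) : (p.1 : ℤ) ∣ d.norm := by
  rw [← ZMod.intCast_zmod_eq_zero_iff_dvd]
  have h1 : res p (d * star d) = 0 := by rw [map_mul, h, zero_mul]
  rw [← Zsqrtd.norm_eq_mul_conj] at h1
  simpa using h1

theorem prod_dvd_norm {Q : Finset P1} {d : GI} (h : ∀ p ∈ Q, res p d = 0) :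
    ((∏ p ∈ Q, p.1 : ℕ) : ℤ) ∣ d.norm := by
  push_cast
  refine Finset.prod_dvd_of_coprime (fun p _ q _ hpq => ?_) (fun p hp => dvd_norm_of_res_eq_zero (h p hp))
  exact Nat.isCoprime_iff_coprime.2 ((Nat.coprime_primes p.2.1 q.2.1).2 (fun e => hpq (Subtype.ext e)))

theorem prod_le_norm {Q : Finset P1} {d : GI} (hd : d ≠ 0) (h : ∀ p ∈ Q, res p d = 0) :
    ((∏ p ∈ Q, p.1 : ℕ) : ℤ) ≤ d.norm :=
  Int.le_of_dvd (one_le_norm hd) (prod_dvd_norm h)

/-- The larger-sieve inequality. -/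
theorem sum_log_le_log_norm (Q : Finset P1) {d : GI} (hd : d ≠ 0) :
    ∑ p ∈ Q, Real.log p.1 * ind (res p d = 0) ≤ Real.log (d.norm : ℝ) := by
  have h1 : ∑ p ∈ Q, Real.log p.1 * ind (res p d = 0) =
      Real.log ((∏ p ∈ Q.filter (fun p => res p d = 0), p.1 : ℕ) : ℝ) := by
    push_cast
    rw [Real.log_prod (fun p _ => by exact_mod_cast p.2.1.ne_zero), sum_filter]
    exact sum_congr rfl (fun p _ => by unfold ind; split_ifs <;> simp)
  rw [h1]
  refine Real.log_le_log (by exact_mod_cast prod_pos (fun (p : P1) _ => p.2.1.pos)) ?_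
  exact_mod_cast prod_le_norm hd (fun p hp => (mem_filter.1 hp).2)

/-- If `k • h` is killed by every `res p`, `p ∈ Q`, but `h` by none, then `∏ Q ∣ k`. -/
theorem prod_dvd_of_res_zsmul {Q : Finset P1} {h : GI} {k : ℤ} (hh : ∀ p ∈ Q, res p h ≠ 0)
    (hk : ∀ p ∈ Q, res p (k • h) = 0) : ((∏ p ∈ Q, p.1 : ℕ) : ℤ) ∣ k := by
  push_cast
  refine Finset.prod_dvd_of_coprime (fun p _ q _ hpq => ?_) (fun p hp => ?_)
  · exact Nat.isCoprime_iff_coprime.2
      ((Nat.coprime_primes p.2.1 q.2.1).2 (fun e => hpq (Subtype.ext e)))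
  · have := hk p hp
    rw [map_zsmul, zsmul_eq_mul, mul_eq_zero] at this
    exact (ZMod.intCast_zmod_eq_zero_iff_dvd _ _).1 (this.resolve_right (hh p hp))

/-- Distinct times in a short window have distinct residues. -/
theorem IsPath.xi_injOn {D : ℕ} {γ : ℕ → GI} (hγ : IsPath D γ) {p : P1} {t G s s' : ℕ}
    (hp : 2 * (D * G) ^ 2 < p.1) (h1 : t ≤ s) (h2 : s ≤ t + G) (h3 : t ≤ s') (h4 : s' ≤ t + G)
    (h : xi γ p s = xi γ p s') : s = s' := by
  by_contra hne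
  have hd : γ s - γ s' ≠ 0 := sub_ne_zero.2 (fun e => hne (hγ.inj e))
  have h5 : res p (γ s - γ s') = 0 := by rw [← xi_sub, h, sub_self]
  have h6 := Int.le_of_dvd (one_le_norm hd) (dvd_norm_of_res_eq_zero h5)
  have h7 := norm_le_of_mem_box (hγ.sub_mem_box h1 h2 h3 h4)
  have h8 : (2 * ((D * G : ℕ) : ℤ) ^ 2) < p.1 := by exact_mod_cast hp
  omega

theorem E_Unif {G : ℕ} (hG : 0 < G) (t : ℕ) (f : ℕ → ℝ) :
    (Unif G t).E f = (∑ s ∈ Ico t (t + G), f s) / G := by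
  have : max G 1 = G := max_eq_left hG
  simp only [Unif, FD.E_unif, this, Nat.card_Ico, add_tsub_cancel_left]

theorem mem_supp_Unif {G : ℕ} (hG : 0 < G) {t s : ℕ} (h : s ∈ (Unif G t).supp) :
    t ≤ s ∧ s < t + G := by
  have := FD.supp_unif _ _ h
  rwa [max_eq_left hG, mem_Ico] at this

theorem jumpIn_Unif (G : ℕ) : JumpIn (Unif G) G := by
  intro t s h
  have := FD.supp_unif _ _ h
  rw [mem_Ico] at this
  refine ⟨this.1, ?_⟩
  rcases le_total G 1 with h1 | h1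
  · rw [max_eq_right h1] at this; omega
  · rw [max_eq_left h1] at this; omega

theorem E_Geo (Pr : FD (ℕ × ℕ)) (f : ℕ → ℝ) :
    (Geo Pr).E f = Pr.E (fun x => (f x.1 + f x.2) / 2) := by
  simp only [Geo, FD.E_bind, FD.E_half]

theorem mem_supp_Geo {Pr : FD (ℕ × ℕ)} {s : ℕ} (h : s ∈ (Geo Pr).supp) :
    ∃ x ∈ Pr.supp, s = x.1 ∨ s = x.2 := by
  obtain ⟨x, hx, hs⟩ := FD.mem_supp_bind.1 h
  exact ⟨x, hx, FD.mem_supp_half hs⟩

end Crest.Agent.R2
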