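import Crest.Agent.R2.Pt

/-!
# Row 2: codes (cross-entropy certificates) and the entropy decrement

Recipes.
* `Code.nonneg`: `Q d ≤ ∑_T Q ≤ 1` on the support, so `-log Q ≥ 0`.
* `Code.jump`: `E = box (D G)`, `T' = (E ×ˢ T).image sh` with `sh (e, d) = d.image (· + e)`,
  `Q' d' = ∑_{x ∈ E ×ˢ T, sh x = d'} Q x.2 / (2 D G + 1)²` (`sum_fiberwise_of_maps_to` for the total mass,
  `card_box_le`); `data_shift` shows `Q' (data γ t S) ≥ Q (data γ s S) / (2 D G + 1)²`;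
  `(ρ.bind J).E = ρ.E (J t).E` (`FD.E_bind`, `FD.mem_supp_bind`).
* `Code.dec`: `R y d = Q d * ind (y ∈ U d) / (U d).card`, `Ry y = ∑_{d ∈ T} R y d`, `∑_y Ry y ≤ 1`.
  `T' = (Fintype.piFinset (fun _ : Fin A => T)).image (univ.biUnion ·)`,
  `Q' d' = ∑_y ∑_{x ∈ piFinset, biUnion x = d'} (∏ i, R y (x i)) / Ry y ^ (A - 1)`; the total mass is
  `∑_y Ry y ^ A / Ry y ^ (A - 1) ≤ ∑_y Ry y` (`prod_univ_sum`). For `S : Fin A → Finset ℕ` in the support, keeping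
  only `y = pos t`, `x = dataN γ t S` (`data_biUnion`):
  `-log Q' ≤ ∑ i, (-log Q (x i) + log (U (x i)).card) + (A - 1) log (Ry (pos t))`. `E_Blk`, `FD.E_iid_sum`;
  finally `ρ.E (log (Ry (pos t))) ≤ log (ρ.E (Ry (pos t))) ≤ log μ₀` (`FD.E_log_le`,
  `FD.E_eq_sum_fiber` with `T = univ`; `Ry (pos t) > 0` because `(κ t).supp` is nonempty).
* `Code.blk`: `Code.dec` with `Y = Unit`, `U = univ`, `μ₀ = 1`.
-/

set_option autoImplicit false
open Finset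

noncomputable section
namespace Crest.Agent.R2
open Classical

theorem Code.mono {γ : ℕ → GI} {ρ : FD ℕ} {κ : Ker} {H H' : ℝ} (h : Code γ ρ κ H) (hH : H ≤ H') :
    Code γ ρ κ H' := by
  obtain ⟨T, Q, h1, h2, h3, h4⟩ := h
  exact ⟨T, Q, h1, h2, h3, h4.trans hH⟩

theorem Code.nonneg {γ : ℕ → GI} {ρ : FD ℕ} {κ : Ker} {H : ℝ} (h : Code γ ρ κ H) : 0 ≤ H := by
  obtain ⟨T, Q, h1, h2, h3, h4⟩ := h
  refine le_trans (ρ.E_nonneg fun t ht => (κ t).E_nonneg fun S hS => ?_) h4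
  have := (single_le_sum (fun d _ => h1 d) (h3 t ht S hS).1).trans h2
  exact neg_nonneg.2 (Real.log_nonpos (h1 _) this)

theorem code_pure (γ : ℕ → GI) (ρ : FD ℕ) : Code γ ρ (fun t => FD.pure {t}) 0 := by
  refine ⟨{{0}}, fun _ => 1, fun _ => zero_le_one, by simp, fun t _ S hS => ?_, by simp⟩
  rw [FD.eq_of_mem_supp_pure hS]
  simp [data]

/-- A code for a richer description `x` of the data is a code for the data. -/
theorem code_of_lift {γ : ℕ → GI} {ρ : FD ℕ} {κ : Ker} {H : ℝ} {Ω X : Type} (ν : ℕ → FD Ω)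
    (g : Ω → Finset ℕ) (hE : ∀ t f, (κ t).E f = (ν t).E fun ω => f (g ω))
    (hs : ∀ t, ∀ S ∈ (κ t).supp, ∃ ω ∈ (ν t).supp, g ω = S) (T : Finset X) (q : X → ℝ)
    (f : X → Finset GI) (x : ℕ → Ω → X) (h0 : ∀ a, 0 ≤ q a) (h1 : ∑ a ∈ T, q a ≤ 1)
    (hx : ∀ t ∈ ρ.supp, ∀ ω ∈ (ν t).supp,
      x t ω ∈ T ∧ 0 < q (x t ω) ∧ f (x t ω) = data γ t (g ω))
    (hH : ρ.E (fun t => (ν t).E fun ω => - Real.log (q (x t ω))) ≤ H) : Code γ ρ κ H := by
  have key : ∀ t ∈ ρ.supp, ∀ ω ∈ (ν t).supp,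
      q (x t ω) ≤ ∑ a ∈ T.filter (fun a => f a = data γ t (g ω)), q a := fun t ht ω hω =>
    single_le_sum (fun a _ => h0 a) (mem_filter.2 ⟨(hx t ht ω hω).1, (hx t ht ω hω).2.2⟩)
  refine ⟨T.image f, fun d => ∑ a ∈ T.filter (fun a => f a = d), q a,
    fun d => sum_nonneg fun a _ => h0 a, ?_, fun t ht S hS => ?_, le_trans ?_ hH⟩
  · rwa [sum_fiberwise_of_maps_to fun a ha => mem_image_of_mem f ha]
  · obtain ⟨ω, hω, rfl⟩ := hs t S hS
    exact ⟨mem_image.2 ⟨_, (hx t ht ω hω).1, (hx t ht ω hω).2.2⟩,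
      (hx t ht ω hω).2.1.trans_le (key t ht ω hω)⟩
  · refine ρ.E_mono fun t ht => ?_
    rw [hE]
    exact (ν t).E_mono fun ω hω =>
      neg_le_neg (Real.log_le_log (hx t ht ω hω).2.1 (key t ht ω hω))

theorem Code.jump {D G : ℕ} {γ : ℕ → GI} (hγ : IsPath D γ) {ρ : FD ℕ} {J : ℕ → FD ℕ}
    (hJ : JumpIn J G) {κ : Ker} {H : ℝ} (h : Code γ (ρ.bind J) κ H) :
    Code γ ρ (JK J κ) (H + Real.log ((2 * ((D : ℝ) * G) + 1) ^ 2)) := by
  obtain ⟨T, Q, h1, h2, h3, h4⟩ := h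
  have hc : (0 : ℝ) < (2 * ((D : ℝ) * G) + 1) ^ 2 := by positivity
  have hs : ∀ t (ω : ℕ × Finset ℕ),
      ω ∈ ((J t).bind fun s => (κ s).map fun S => (s, S)).supp →
        ω.1 ∈ (J t).supp ∧ ω.2 ∈ (κ ω.1).supp := fun t ω hω => by
    obtain ⟨s, hs, hω⟩ := FD.mem_supp_bind.1 hω
    obtain ⟨S, hS, rfl⟩ := FD.mem_supp_map.1 hω
    exact ⟨hs, hS⟩
  refine code_of_lift (fun t => (J t).bind fun s => (κ s).map fun S => (s, S)) Prod.snd
    (fun t f => by simp only [JK, FD.E_bind, FD.E_map]) (fun t S hS => ?_) (box (D * G) ×ˢ T)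
    (fun a => Q a.2 / (2 * ((D : ℝ) * G) + 1) ^ 2) (fun a => a.2.image fun z => z + a.1)
    (fun t ω => (γ ω.1 - γ t, data γ ω.1 ω.2)) (fun a => div_nonneg (h1 _) hc.le) ?_
    (fun t ht ω hω => ?_) ?_
  · obtain ⟨s, hs, hS⟩ := FD.mem_supp_bind.1 hS
    exact ⟨(s, S), FD.mem_supp_bind.2 ⟨s, hs, FD.mem_supp_map.2 ⟨S, hS, rfl⟩⟩, rfl⟩
  · rw [sum_product]
    simp only []
    rw [sum_const, nsmul_eq_mul, ← sum_div, ← mul_div_assoc, div_le_one hc]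
    have h5 : ((box (D * G)).card : ℝ) ≤ (2 * ((D : ℝ) * G) + 1) ^ 2 := by
      exact_mod_cast card_box_le (D * G)
    exact (mul_le_of_le_one_right (Nat.cast_nonneg _) h2).trans h5
  · obtain ⟨a1, a2⟩ := hs t ω hω
    have a3 := h3 ω.1 (FD.mem_supp_bind.2 ⟨t, ht, a1⟩) ω.2 a2
    exact ⟨mem_product.2 ⟨hγ.sub_mem_box (hJ t _ a1).1 (hJ t _ a1).2 le_rfl (Nat.le_add_right _ _),
      a3.1⟩, div_pos a3.2 hc, (data_shift γ t ω.1 ω.2).symm⟩
  · rw [FD.E_bind] at h4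
    refine le_trans (le_of_eq ?_) (add_le_add h4 le_rfl)
    rw [← ρ.E_const (Real.log _), ← FD.E_add]
    refine ρ.E_congr fun t ht => ?_
    rw [FD.E_bind, ← (J t).E_const (Real.log _), ← FD.E_add]
    refine (J t).E_congr fun s hs => ?_
    rw [FD.E_map, ← (κ s).E_const (Real.log _), ← FD.E_add]
    refine (κ s).E_congr fun S hS => ?_
    rw [Real.log_div (h3 s (FD.mem_supp_bind.2 ⟨t, ht, hs⟩) S hS).2.ne' hc.ne']
    ring

/-- The entropy decrement: `A` independent samples share the cost of the position `pos t`. -/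
theorem Code.dec {γ : ℕ → GI} {ρ : FD ℕ} {κ : Ker} {H : ℝ} (h : Code γ ρ κ H) {Y : Type} [Fintype Y]
    (pos : ℕ → Y) (U : Finset GI → Finset Y)
    (hU : ∀ t ∈ ρ.supp, ∀ S ∈ (κ t).supp, pos t ∈ U (data γ t S)) {μ₀ Lg : ℝ}
    (hμ : ∀ a, ρ.E (fun t => ind (pos t = a)) ≤ μ₀)
    (hL : ρ.E (fun t => (κ t).E (fun S => Real.log (U (data γ t S)).card)) ≤ Lg)
    {A : ℕ} (hA : 1 ≤ A) :
    Code γ ρ (BlkK A κ) (A * H + A * Lg + ((A : ℝ) - 1) * Real.log μ₀) := by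
  obtain ⟨T, Q, h1, h2, h3, h4⟩ := h
  obtain ⟨B, rfl⟩ : ∃ B, A = B + 1 := ⟨A - 1, by omega⟩
  set R : Y → Finset GI → ℝ := fun y d => Q d * ind (y ∈ U d) / (U d).card with hR
  have R0 : ∀ y d, 0 ≤ R y d := fun y d =>
    div_nonneg (mul_nonneg (h1 d) (ind_nonneg _)) (Nat.cast_nonneg _)
  set Ry : Y → ℝ := fun y => ∑ d ∈ T, R y d with hRy
  have Ry0 : ∀ y, 0 ≤ Ry y := fun y => sum_nonneg fun d _ => R0 y d
  have Ry1 : ∑ y, Ry y ≤ 1 := by
    rw [sum_comm]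
    refine (sum_le_sum fun d _ => ?_).trans h2
    simp only [hR]
    have e : ∑ y, ind (y ∈ U d) = (U d).card := by
      rw [sum_ind_eq_card]; congr 2; ext y; simp
    rw [← sum_div, ← mul_sum, e, mul_div_assoc]
    exact mul_le_of_le_one_right (h1 d) (div_self_le_one _)
  have hc : ∀ t ∈ ρ.supp, ∀ S ∈ (κ t).supp, (0 : ℝ) < (U (data γ t S)).card := fun t ht S hS =>
    Nat.cast_pos.2 (card_pos.2 ⟨_, hU t ht S hS⟩)
  have Re : ∀ t ∈ ρ.supp, ∀ S ∈ (κ t).supp,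
      R (pos t) (data γ t S) = Q (data γ t S) / (U (data γ t S)).card := fun t ht S hS => by
    simp only [hR, ind_pos (hU t ht S hS), mul_one]
  have Rp : ∀ t ∈ ρ.supp, ∀ S ∈ (κ t).supp, 0 < R (pos t) (data γ t S) := fun t ht S hS => by
    rw [Re t ht S hS]; exact div_pos (h3 t ht S hS).2 (hc t ht S hS)
  have Ryp : ∀ t ∈ ρ.supp, 0 < Ry (pos t) := fun t ht => by
    obtain ⟨S, hS⟩ := (κ t).supp_nonempty
    exact (Rp t ht S hS).trans_le (single_le_sum (fun d _ => R0 _ d) (h3 t ht S hS).1)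
  refine code_of_lift (fun t => FD.iid (B + 1) (κ t)) (fun x => univ.biUnion x)
    (fun t f => E_Blk _ _ f) (fun t S hS => FD.mem_supp_map.1 hS)
    (univ ×ˢ Fintype.piFinset fun _ : Fin (B + 1) => T)
    (fun a => (∏ i, R a.1 (a.2 i)) / Ry a.1 ^ B) (fun a => univ.biUnion a.2)
    (fun t x => (pos t, dataN γ t x))
    (fun a => div_nonneg (prod_nonneg fun i _ => R0 _ _) (pow_nonneg (Ry0 _) _)) ?_
    (fun t ht x hx => ?_) ?_
  · rw [sum_product]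
    refine (sum_le_sum fun y _ => ?_).trans Ry1
    simp only []
    rw [← sum_div, ← prod_univ_sum (fun _ : Fin (B + 1) => T) fun _ d => R y d, prod_const,
      card_univ, Fintype.card_fin, pow_succ', mul_div_assoc]
    exact mul_le_of_le_one_right (Ry0 y) (div_self_le_one _)
  · have hx' := FD.mem_supp_iid.1 hx
    exact ⟨mem_product.2 ⟨mem_univ _, Fintype.mem_piFinset.2 fun i => (h3 t ht _ (hx' i)).1⟩,
      div_pos (prod_pos fun i _ => Rp t ht _ (hx' i)) (pow_pos (Ryp t ht) _),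
      (data_biUnion γ t x).symm⟩
  · have e1 : ∀ t ∈ ρ.supp, (FD.iid (B + 1) (κ t)).E (fun x =>
        - Real.log ((∏ i, R (pos t) (dataN γ t x i)) / Ry (pos t) ^ B)) =
        (B + 1 : ℕ) * (κ t).E (fun S => - Real.log (Q (data γ t S))) +
          (B + 1 : ℕ) * (κ t).E (fun S => Real.log (U (data γ t S)).card) +
            B * Real.log (Ry (pos t)) := fun t ht => by
      rw [← mul_add, ← FD.E_add, ← FD.E_iid_sum,
        ← (FD.iid (B + 1) (κ t)).E_const (B * Real.log _), ← FD.E_add]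
      refine FD.E_congr _ fun x hx => ?_
      have hx' := FD.mem_supp_iid.1 hx
      simp only [dataN]
      rw [Real.log_div (prod_pos fun i _ => Rp t ht _ (hx' i)).ne' (pow_pos (Ryp t ht) _).ne',
        Real.log_prod fun i _ => (Rp t ht _ (hx' i)).ne', Real.log_pow, neg_sub, sub_eq_neg_add,
        ← sum_neg_distrib]
      congr 1
      refine sum_congr rfl fun i _ => ?_
      rw [Re t ht _ (hx' i), Real.log_div (h3 t ht _ (hx' i)).2.ne' (hc t ht _ (hx' i)).ne']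
      ring
    have e2 : ρ.E (fun t => Ry (pos t)) ≤ μ₀ := by
      rw [ρ.E_eq_sum_fiber pos univ (fun _ _ => mem_univ _) Ry]
      have hμ0 : 0 ≤ μ₀ := by
        obtain ⟨t, _⟩ := ρ.supp_nonempty
        exact (ρ.E_nonneg fun _ _ => ind_nonneg _).trans (hμ (pos t))
      refine (sum_le_sum fun y _ => mul_le_mul_of_nonneg_right (hμ y) (Ry0 y)).trans ?_
      rw [← mul_sum]
      exact mul_le_of_le_one_right hμ0 Ry1
    have e3 := (ρ.E_log_le Ryp).trans (Real.log_le_log (ρ.E_pos Ryp) e2)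
    rw [ρ.E_congr e1, FD.E_add, FD.E_add, FD.E_mul_left, FD.E_mul_left, FD.E_mul_left]
    have e4 : ((B + 1 : ℕ) : ℝ) - 1 = B := by push_cast; ring
    rw [e4]
    gcongr

theorem Code.blk {γ : ℕ → GI} {ρ : FD ℕ} {κ : Ker} {H : ℝ} (h : Code γ ρ κ H) {A : ℕ} (hA : 1 ≤ A) :
    Code γ ρ (BlkK A κ) (A * H) := by
  simpa using h.dec (Y := Unit) (fun _ => ()) (fun _ => univ) (fun _ _ _ _ => mem_univ _)
    (μ₀ := 1) (Lg := 0) (fun _ => ρ.E_le_const fun _ _ => ind_le_one _) (by simp) hA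

theorem code_tree {D : ℕ} {γ : ℕ → GI} (hγ : IsPath D γ) (J : ℕ → ℕ → FD ℕ) (k n Gs : ℕ → ℕ)
    {κ : Ker} {h ε : ℝ} (h0 : ∀ ρ, Code γ ρ κ (h * n 0)) (hk : ∀ i, 1 ≤ k i)
    (hn : ∀ i, n (i + 1) = k i * n i) (i : ℕ) (hJ : ∀ l < i, JumpIn (J l) (Gs l))
    (hG : ∀ l < i, Real.log ((2 * ((D : ℝ) * Gs l) + 1) ^ 2) ≤ ε * n (l + 1)) (ρ : FD ℕ) :
    Code γ ρ (tree J k κ i) ((h + i * ε) * n i) := by
  induction i generalizing ρ with
  | zero => simpa [tree] using h0 ρ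
  | succ i ih =>
    have h1 := (ih (fun l hl => hJ l (Nat.lt_succ_of_lt hl))
      (fun l hl => hG l (Nat.lt_succ_of_lt hl)) (ρ.bind (J i))).blk (hk i)
    refine (h1.jump hγ (hJ i (Nat.lt_succ_self i))).mono ?_
    have h2 := hG i (Nat.lt_succ_self i)
    rw [hn] at h2 ⊢
    push_cast at h2 ⊢
    linarith

end Crest.Agent.R2
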