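import Crest.Agent.R2.Basic
import Crest.Agent.Lib.Brouwer.Basic

/-!
# Row 2: two sub-paths span their parallelogram

Recipes.
* `exists_interp`: with `T = s₁ - s₀`, `clamp u = max 0 (min 1 u)`, put
  `Pa x = γ s₀ + ∑_{k < T} clamp (T x - k) • (γ (s₀ + k + 1) - γ (s₀ + k))` in `ℝ × ℝ` (continuous), and
  `g x = Pa (fract x) - fract x • d` with `d = γ s₁ - γ s₀`; since `Pa 0 - 0 = Pa 1 - d`, `g` is continuous
  (`ContinuousOn.comp_fract''`) and bounded. For `x` put `u = fract x`, `k = ⌊T u⌋₊ < T`: the sum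
  telescopes to `γ (s₀ + k) + θ • step`, `0 ≤ θ ≤ 1`. Finally `x • d + g x = ⌊x⌋ • d + Pa (fract x)`.
* `cover`: solve `x • d₀ + g₀ x - (x' • d₁ + g₁ x') = target` by Brouwer
  (`Crest.Agent.Lib.Brouwer.exists_fixedPoint_of_isCompact_convex` on a closed ball of `ℝ × ℝ`) for the map
  `(x, x') ↦ L⁻¹ (target - g₀ x + g₁ x')`, `L (x, x') = x • d₀ - x' • d₁`, written out by Cramer's rule.
  The error is an integer vector with coordinates `≤ 2 D` in absolute value.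
* `det_le_card`: the subgroup `L` generated by `d₀, d₁` has index `|det d₀ d₁|`
  (`Submodule.natAbs_det_equiv` with `LinearEquiv.ofInjective`, or `AddSubgroup.index_eq_natAbs_det`, in
  `Fin 2 → ℤ`), and `W` surjects onto the quotient. Elementary alternative: write `d₀ = g • h₀` with `h₀`
  primitive, complete to a basis `h₀, h₁` (Bezout), `d₁ = a • h₀ + b • h₁`, `|det| = g |b|`; the points
  `i • h₀ + j • h₁`, `0 ≤ i < g`, `0 ≤ j < |b|` are pairwise incongruent, so they get distinct `w`.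
* `area_le`: order the times (swapping changes only the sign of `det`); if `det ≠ 0` apply `det_le_card`
  to `W = image₂ (· + ·) (diffs γ t G) (box (2 D))`.
-/

set_option autoImplicit false
open Finset

noncomputable section
namespace Crest.Agent.R2
open Classical

/-- The real vector of a Gaussian integer. -/
def vec (z : GI) : ℝ × ℝ := ((z.re : ℝ), (z.im : ℝ))

theorem cross_vec_add (a b : GI) : vec (a + b) = vec a + vec b := by
  simp [vec]

theorem cross_vec_sub (a b : GI) : vec (a - b) = vec a - vec b := by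
  simp [vec]

theorem cross_vec_zsmul (i : ℤ) (a : GI) : vec (i • a) = (i : ℝ) • vec a := by
  simp [vec]

theorem cross_norm_vec_le {R : ℕ} {z : GI} : ‖vec z‖ ≤ R ↔ z ∈ box R := by
  rw [mem_box, vec, Prod.norm_def, max_le_iff, Real.norm_eq_abs, Real.norm_eq_abs]
  dsimp only
  constructor
  · rintro ⟨h1, h2⟩
    exact ⟨by exact_mod_cast h1, by exact_mod_cast h2⟩
  · rintro ⟨h1, h2⟩
    exact ⟨by exact_mod_cast h1, by exact_mod_cast h2⟩

theorem cross_tele (P : ℕ → ℝ × ℝ) {T k : ℕ} (hk : k < T) {y : ℝ} (h1 : (k : ℝ) ≤ y)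
    (h2 : y ≤ k + 1) :
    P 0 + ∑ j ∈ range T, max 0 (min 1 (y - j)) • (P (j + 1) - P j) =
      P k + (y - k) • (P (k + 1) - P k) := by
  rw [← sum_subset (range_subset_range.2 (Nat.succ_le_of_lt hk)), sum_range_succ]
  · have e1 : ∑ j ∈ range k, max 0 (min 1 (y - j)) • (P (j + 1) - P j) =
        ∑ j ∈ range k, (P (j + 1) - P j) := by
      refine sum_congr rfl fun j hj => ?_
      have : (j : ℝ) + 1 ≤ k := by exact_mod_cast mem_range.1 hj
      rw [min_eq_left (by linarith), max_eq_right zero_le_one, one_smul]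
    rw [e1, sum_range_sub, min_eq_right (by linarith), max_eq_right (by linarith)]
    abel
  · intro j _ hj
    have : (k : ℝ) + 1 ≤ j := by
      have : k + 1 ≤ j := by simpa using hj
      exact_mod_cast this
    rw [max_eq_left (min_le_of_right_le (by linarith)), zero_smul]

theorem exists_interp {D : ℕ} {γ : ℕ → GI} (hγ : IsPath D γ) {s₀ s₁ : ℕ} (h : s₀ < s₁) :
    ∃ (g : ℝ → ℝ × ℝ) (R : ℝ), Continuous g ∧ (∀ x, ‖g x‖ ≤ R) ∧
      ∀ x : ℝ, ∃ u ∈ Icc s₀ s₁, ∃ i : ℤ,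
        ‖x • vec (γ s₁ - γ s₀) + g x - vec (γ u + i • (γ s₁ - γ s₀))‖ ≤ D := by
  obtain ⟨m, rfl⟩ := Nat.exists_eq_add_of_lt h
  set P : ℕ → ℝ × ℝ := fun j => vec (γ (s₀ + j)) with hP
  set d : ℝ × ℝ := vec (γ (s₀ + m + 1) - γ s₀) with hd
  set G : ℝ → ℝ × ℝ := fun u =>
    P 0 + ∑ j ∈ range (m + 1), max 0 (min 1 ((m + 1) * u - j)) • (P (j + 1) - P j) - u • d with hG
  have hGc : Continuous G := by
    refine Continuous.sub (continuous_const.add (continuous_finsetSum _ fun j _ => ?_)) (by fun_prop)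
    fun_prop
  have h01 : G 0 = G 1 := by
    have e0 := cross_tele P (Nat.succ_pos m) (y := ((m : ℝ) + 1) * 0) (by simp) (by simp)
    have e1 := cross_tele P (Nat.lt_succ_self m) (y := ((m : ℝ) + 1) * 1) (by simp) (by simp)
    simp only [hG, e0, e1]
    have : d = P (m + 1) - P 0 := by rw [hd, cross_vec_sub]; rfl
    rw [this]
    simp
  obtain ⟨R, hR⟩ := (isCompact_Icc (a := (0 : ℝ)) (b := 1)).exists_bound_of_continuousOn
    hGc.continuousOn
  refine ⟨G ∘ Int.fract, R, hGc.continuousOn.comp_fract'' h01,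
    fun x => hR _ ⟨Int.fract_nonneg x, (Int.fract_lt_one x).le⟩, fun x => ?_⟩
  have hu0 := Int.fract_nonneg x
  have hu1 := Int.fract_lt_one x
  have hm : (0 : ℝ) < m + 1 := by positivity
  set y : ℝ := ((m : ℝ) + 1) * Int.fract x with hy
  have hy0 : 0 ≤ y := by positivity
  have hk : ⌊y⌋₊ < m + 1 := by
    rw [Nat.floor_lt hy0]
    push_cast
    nlinarith
  have h1 := Nat.floor_le hy0
  have h2 := (Nat.lt_floor_add_one y).le
  refine ⟨s₀ + ⌊y⌋₊, mem_Icc.2 ⟨by omega, by omega⟩, ⌊x⌋, ?_⟩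
  have e : x • d + (G ∘ Int.fract) x - vec (γ (s₀ + ⌊y⌋₊) + ⌊x⌋ • (γ (s₀ + m + 1) - γ s₀)) =
      (y - ⌊y⌋₊) • (P (⌊y⌋₊ + 1) - P ⌊y⌋₊) := by
    simp only [Function.comp, hG]
    rw [← hy, cross_tele P hk h1 h2, cross_vec_add, cross_vec_zsmul, ← hd]
    have hx : x = ⌊x⌋ + Int.fract x := (Int.floor_add_fract x).symm
    have : x • d = (⌊x⌋ : ℝ) • d + Int.fract x • d := by rw [← add_smul, ← hx]
    rw [this]
    simp only [hP]
    abel
  rw [e, norm_smul, Real.norm_eq_abs, abs_of_nonneg (by linarith)]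
  have hs : ‖P (⌊y⌋₊ + 1) - P ⌊y⌋₊‖ ≤ D := by
    simp only [hP]
    rw [← cross_vec_sub, cross_norm_vec_le]
    exact mem_box.2 ⟨hγ.re _, hγ.im _⟩
  have := norm_nonneg (P (⌊y⌋₊ + 1) - P ⌊y⌋₊)
  nlinarith

theorem cross_solve {g₀ g₁ : ℝ → ℝ × ℝ} {R₀ R₁ : ℝ} (c₀ : Continuous g₀) (c₁ : Continuous g₁)
    (b₀ : ∀ x, ‖g₀ x‖ ≤ R₀) (b₁ : ∀ x, ‖g₁ x‖ ≤ R₁) (d₀ d₁ w : ℝ × ℝ)
    (hdet : d₀.1 * d₁.2 - d₀.2 * d₁.1 ≠ 0) :
    ∃ x x' : ℝ, x • d₀ + g₀ x - (x' • d₁ + g₁ x') = w := by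
  set Δ := d₀.1 * d₁.2 - d₀.2 * d₁.1 with hΔ
  set L : ℝ × ℝ → ℝ × ℝ := fun p =>
    ((p.1 * d₁.2 - p.2 * d₁.1) / Δ, (p.1 * d₀.2 - p.2 * d₀.1) / Δ) with hL
  have hLc : Continuous L := by fun_prop
  obtain ⟨R, hR⟩ := (isCompact_closedBall (0 : ℝ × ℝ) (‖w‖ + R₀ + R₁)).exists_bound_of_continuousOn
    hLc.continuousOn
  have hb : ∀ z : ℝ × ℝ, ‖L (w - g₀ z.1 + g₁ z.2)‖ ≤ R := fun z => hR _ (by
    rw [mem_closedBall_zero_iff]
    have h1 := norm_add_le (w - g₀ z.1) (g₁ z.2)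
    have h2 := norm_sub_le w (g₀ z.1)
    linarith [b₀ z.1, b₁ z.2])
  obtain ⟨z, -, hz⟩ := Crest.Agent.Lib.Brouwer.exists_fixedPoint_of_isCompact_convex
    (isCompact_closedBall (0 : ℝ × ℝ) R) (convex_closedBall _ _)
    ⟨0, Metric.mem_closedBall_self ((norm_nonneg _).trans (hb 0))⟩
    (fun z => L (w - g₀ z.1 + g₁ z.2)) (Continuous.continuousOn (by fun_prop))
    (fun z _ => mem_closedBall_zero_iff.2 (hb z))
  refine ⟨z.1, z.2, ?_⟩
  set p := w - g₀ z.1 + g₁ z.2 with hp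
  have h1 : (p.1 * d₁.2 - p.2 * d₁.1) / Δ = z.1 := congrArg Prod.fst hz
  have h2 : (p.1 * d₀.2 - p.2 * d₀.1) / Δ = z.2 := congrArg Prod.snd hz
  have key : z.1 • d₀ - z.2 • d₁ = p := by
    rw [← h1, ← h2]
    ext
    · simp only [Prod.fst_sub, Prod.smul_fst, smul_eq_mul]
      field_simp
      rw [hΔ]; ring
    · simp only [Prod.snd_sub, Prod.smul_snd, smul_eq_mul]
      field_simp
      rw [hΔ]; ring
  rw [hp] at key
  linear_combination (exp := 1) key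

theorem cover {D : ℕ} {γ : ℕ → GI} (hγ : IsPath D γ) {s₀ s₁ t₀ t₁ : ℕ} (hs : s₀ < s₁) (ht : t₀ < t₁)
    (hdet : det (γ s₁ - γ s₀) (γ t₁ - γ t₀) ≠ 0) (x : GI) :
    ∃ u ∈ Icc s₀ s₁, ∃ v ∈ Icc t₀ t₁, ∃ i j : ℤ,
      x - (γ u - γ v) - i • (γ s₁ - γ s₀) - j • (γ t₁ - γ t₀) ∈ box (2 * D) := by
  obtain ⟨g₀, R₀, c₀, b₀, h₀⟩ := exists_interp hγ hs
  obtain ⟨g₁, R₁, c₁, b₁, h₁⟩ := exists_interp hγ ht
  obtain ⟨y, y', hy⟩ := cross_solve c₀ c₁ b₀ b₁ (vec (γ s₁ - γ s₀)) (vec (γ t₁ - γ t₀)) (vec x) (by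
    simp only [vec]
    unfold det at hdet
    exact_mod_cast hdet)
  obtain ⟨u, hu, i, hi⟩ := h₀ y
  obtain ⟨v, hv, j, hj⟩ := h₁ y'
  refine ⟨u, hu, v, hv, i, -j, ?_⟩
  rw [← cross_norm_vec_le]
  have e : vec (x - (γ u - γ v) - i • (γ s₁ - γ s₀) - (-j) • (γ t₁ - γ t₀)) =
      (y • vec (γ s₁ - γ s₀) + g₀ y - vec (γ u + i • (γ s₁ - γ s₀))) -
      (y' • vec (γ t₁ - γ t₀) + g₁ y' - vec (γ v + j • (γ t₁ - γ t₀))) := by
    have : x - (γ u - γ v) - i • (γ s₁ - γ s₀) - (-j) • (γ t₁ - γ t₀) =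
        x - (γ u + i • (γ s₁ - γ s₀)) + (γ v + j • (γ t₁ - γ t₀)) := by
      rw [neg_smul]; abel
    rw [this, cross_vec_add, cross_vec_sub, ← hy]
    abel
  rw [e]
  refine (norm_sub_le _ _).trans ?_
  push_cast
  linarith

theorem det_le_card {d₀ d₁ : GI} (hdet : det d₀ d₁ ≠ 0) (W : Finset GI)
    (h : ∀ x : GI, ∃ w ∈ W, ∃ i j : ℤ, x = w + i • d₀ + j • d₁) : |det d₀ d₁| ≤ (W.card : ℤ) := by
  set A : Matrix (Fin 2) (Fin 2) ℤ := !![d₀.re, d₁.re; d₀.im, d₁.im] with hA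
  have hAd : A.det = det d₀ d₁ := by
    rw [hA, Matrix.det_fin_two_of, det]; ring
  set f : (Fin 2 → ℤ) →ₗ[ℤ] (Fin 2 → ℤ) := Matrix.toLin' A with hf
  have hinj : Function.Injective f := by
    rw [← LinearMap.ker_eq_bot, LinearMap.ker_eq_bot']
    intro v hv
    by_contra hne
    exact hdet (hAd ▸ Matrix.exists_mulVec_eq_zero_iff.1 ⟨v, hne, hv⟩)
  have h1 := Submodule.natAbs_det_equiv (LinearMap.range f) (LinearEquiv.ofInjective f hinj)
  have h2 : (LinearMap.range f).subtype ∘ₗ AddMonoidHom.toIntLinearMap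
      (LinearEquiv.ofInjective f hinj : (Fin 2 → ℤ) →+ LinearMap.range f) = f :=
    LinearMap.ext fun v => rfl
  rw [h2, hf, LinearMap.det_toLin', hAd, ← hf] at h1
  have h3 : Nat.card ((Fin 2 → ℤ) ⧸ LinearMap.range f) ≤ Nat.card W := by
    refine Nat.card_le_card_of_surjective
      (fun w : W => (Submodule.Quotient.mk ![w.1.re, w.1.im] : (Fin 2 → ℤ) ⧸ LinearMap.range f)) ?_
    intro q
    obtain ⟨v, rfl⟩ := Submodule.Quotient.mk_surjective _ q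
    obtain ⟨w, hw, i, j, e⟩ := h ⟨v 0, v 1⟩
    refine ⟨⟨w, hw⟩, ?_⟩
    rw [eq_comm, Submodule.Quotient.eq]
    refine ⟨![i, j], ?_⟩
    have e1 := congrArg Zsqrtd.re e
    have e2 := congrArg Zsqrtd.im e
    simp at e1 e2
    ext k
    fin_cases k
    · simp [hf, hA, Matrix.toLin'_apply, Matrix.mulVec, dotProduct, Fin.sum_univ_two]
      linarith
    · simp [hf, hA, Matrix.toLin'_apply, Matrix.mulVec, dotProduct, Fin.sum_univ_two]
      linarith
  rw [Nat.card_eq_finsetCard, ← h1] at h3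
  rw [Int.abs_eq_natAbs]
  exact_mod_cast h3

theorem cross_order {γ : ℕ → GI} {t G : ℕ} {a : GI} (ha : a ∈ diffs γ t G) :
    a = 0 ∨ ∃ s₀ s₁, t ≤ s₀ ∧ s₀ < s₁ ∧ s₁ < t + G ∧
      (a = γ s₁ - γ s₀ ∨ a = -(γ s₁ - γ s₀)) := by
  obtain ⟨⟨s, s'⟩, hs, rfl⟩ := mem_image.1 ha
  simp only [mem_product, mem_Ico] at hs
  rcases lt_trichotomy s s' with h | rfl | h
  · exact Or.inr ⟨s, s', hs.1.1, h, hs.2.2, Or.inr (neg_sub _ _).symm⟩
  · exact Or.inl (sub_self _)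
  · exact Or.inr ⟨s', s, hs.2.1, h, hs.1.2, Or.inl rfl⟩

theorem area_le {D : ℕ} {γ : ℕ → GI} (hγ : IsPath D γ) {t G : ℕ} {a b : GI}
    (ha : a ∈ diffs γ t G) (hb : b ∈ diffs γ t G) :
    |det a b| ≤ (4 * D + 1 : ℤ) ^ 2 * (diffs γ t G).card := by
  have hpos : (0 : ℤ) ≤ (4 * D + 1 : ℤ) ^ 2 * (diffs γ t G).card := by positivity
  rcases cross_order ha with rfl | ⟨s₀, s₁, h1, h2, h3, ha'⟩
  · simpa [det] using hpos
  rcases cross_order hb with rfl | ⟨t₀, t₁, k1, k2, k3, hb'⟩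
  · simpa [det] using hpos
  have e : |det a b| = |det (γ s₁ - γ s₀) (γ t₁ - γ t₀)| := by
    generalize γ s₁ - γ s₀ = d₀ at ha'
    generalize γ t₁ - γ t₀ = d₁ at hb'
    rw [abs_eq_abs]
    rcases ha' with rfl | rfl <;> rcases hb' with rfl | rfl
    · exact Or.inl rfl
    · right; simp [det]; ring
    · right; simp [det]; ring
    · left; simp [det]
  rw [e]
  by_cases hdet : det (γ s₁ - γ s₀) (γ t₁ - γ t₀) = 0
  · rw [hdet, abs_zero]; exact hpos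
  refine (det_le_card hdet (image₂ (· + ·) (diffs γ t G) (box (2 * D))) fun x => ?_).trans ?_
  · obtain ⟨u, hu, v, hv, i, j, hx⟩ := cover hγ h2 k2 hdet x
    rw [mem_Icc] at hu hv
    refine ⟨_, mem_image₂_of_mem (mem_image.2 ⟨(u, v), ?_, rfl⟩) hx, i, j, ?_⟩
    · simp only [mem_product, mem_Ico]
      omega
    · abel
  · have h5 := card_image₂_le (fun x y : GI => x + y) (diffs γ t G) (box (2 * D))
    have h6 := card_box_le (2 * D)
    have h7 : (image₂ (· + ·) (diffs γ t G) (box (2 * D))).card ≤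
        (4 * D + 1) ^ 2 * (diffs γ t G).card := by
      rw [show 2 * (2 * D) = 4 * D by ring] at h6
      exact h5.trans (by rw [mul_comm]; exact Nat.mul_le_mul_right _ h6)
    exact_mod_cast h7

end Crest.Agent.R2
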