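import Crest.Agent.R2.FD

/-!
# Row 2 (Gaussian moat): definitions and blueprint

**Theorem.** For every `D` there is a finite set `Ps` of primes `p ≡ 1 (4)` such that every injective
path `γ : ℕ → ℤ[i]` with steps `≤ D` meets `ker (res p)` for some `p ∈ Ps` (`Main.no_path`);
`Reduce.reduce` turns this into S0002.

Notation: `ξ_p τ = res p (γ τ)`; a *kernel* `κ t` is a random finite set of times `≥ t`; its *data* is
the set of displacements `γ τ - γ t`; `hit ξ μ B` is the probability that the random set meets the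
residue set `B`. `ell β g = -log avg exp(-β g)` measures how few *holes* a density `g` on `ZMod p` has;
`dfc c β g = c - min (ell β g) c`.

1. `Cross`, `PairCount`, `Pair`: in every window of times there is a law `Π` of a pair of times with
   `γ s - γ s'` almost uniform mod `∏ Q` for all `Q` avoiding one short vector `h` (Brouwer + lattice lines).
2. `Step1`, `StepAll`: *doubling*: `ell` of the mixture over the pair is about the sum of the two
   `ell`s (soft test statistic + Ruzsa injection + Gibbs inequality), for all but few primes.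
3. `Peak`: after a long uniform jump the raw density has almost no mass above height `M`
   (two test samples + Cauchy-Schwarz + larger sieve).
4. `Amp`: iterate on a tree of blocks: `ell ≥ 0.54 log y` on average over primes `y ≤ p ≤ y^1.02`.
5. `Code`, `Scales`, `Range`: entropy decrement with explicit codes; every range of primes lowers the
   code length per point by `10⁻⁷`; `Main` iterates ranges until the length is negative.
-/

set_option autoImplicit false
open Finset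

noncomputable section
namespace Crest.Agent.R2
open Classical

abbrev GI := GaussianInt

/-- An injective path with steps of sup-norm at most `D`. -/
structure IsPath (D : ℕ) (γ : ℕ → GI) : Prop where
  inj : Function.Injective γ
  re : ∀ t, |(γ (t + 1) - γ t).re| ≤ (D : ℤ)
  im : ∀ t, |(γ (t + 1) - γ t).im| ≤ (D : ℤ)

/-- The Gaussian integers of sup-norm at most `R`. -/
def box (R : ℕ) : Finset GI :=
  (Icc (-(R : ℤ)) R ×ˢ Icc (-(R : ℤ)) R).image (fun x => (⟨x.1, x.2⟩ : GI))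

/-- The determinant of two Gaussian integers seen as vectors of `ℤ²`. -/
def det (a b : GI) : ℤ := a.re * b.im - a.im * b.re

/-- The differences of two points of the path in the window `[t, t + G)`. -/
def diffs (γ : ℕ → GI) (t G : ℕ) : Finset GI :=
  (Ico t (t + G) ×ˢ Ico t (t + G)).image (fun x => γ x.1 - γ x.2)

/-- Primes `≡ 1 mod 4`. -/
abbrev P1 := {p : ℕ // p.Prime ∧ p % 4 = 1}

instance (p : P1) : Fact p.1.Prime := ⟨p.2.1⟩

theorem exists_iota (p : P1) : ∃ x : ZMod p.1, x * x = ((-1 : ℤ) : ZMod p.1) := by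
  obtain ⟨x, hx⟩ := (ZMod.exists_sq_eq_neg_one_iff (p := p.1)).2 (by rw [p.2.2]; norm_num)
  exact ⟨x, by push_cast; exact hx.symm⟩

/-- Reduction modulo a Gaussian prime above `p`. -/
def res (p : P1) : GI →+* ZMod p.1 := Zsqrtd.lift ⟨choose (exists_iota p), choose_spec (exists_iota p)⟩

/-- The residue of the path at time `τ`. -/
def xi (γ : ℕ → GI) (p : P1) (τ : ℕ) : ZMod p.1 := res p (γ τ)

@[simp] theorem card_zmod (p : P1) : Fintype.card (ZMod p.1) = p.1 := ZMod.card p.1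

/-! ## Densities on a finite group -/

/-- Average over a finite type. -/
def avg {G : Type} [Fintype G] (g : G → ℝ) : ℝ := (∑ a, g a) / Fintype.card G

/-- The hole functional. -/
def ell {G : Type} [Fintype G] (β : ℝ) (g : G → ℝ) : ℝ :=
  - Real.log (avg (fun a => Real.exp (-(β * g a))))

/-- The Gibbs weights. -/
def gib {G : Type} [Fintype G] (β : ℝ) (g : G → ℝ) (a : G) : ℝ :=
  Real.exp (-(β * g a)) / ∑ b, Real.exp (-(β * g b))

/-- The deficiency of `ell` below the cap `c`. -/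
def dfc {G : Type} [Fintype G] (c β : ℝ) (g : G → ℝ) : ℝ := c - min (ell β g) c

/-! ## Kernels -/

/-- Random finite sets of times, depending on a base time. -/
abbrev Ker := ℕ → FD (Finset ℕ)

/-- Uniform time in `[t, t + G)`. -/
def Unif (G t : ℕ) : FD ℕ := FD.unif (Ico t (t + max G 1)) (by simp)

/-- One of the two times of a pair. -/
def Geo (Pr : FD (ℕ × ℕ)) : FD ℕ := Pr.bind (fun x => FD.half x.1 x.2)

/-- Union of `k` independent samples. -/
def Blk (k : ℕ) (μ : FD (Finset ℕ)) : FD (Finset ℕ) :=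
  (FD.iid k μ).map (fun x => univ.biUnion x)

def BlkK (k : ℕ) (κ : Ker) : Ker := fun t => Blk k (κ t)

/-- Jump, then sample. -/
def JK (J : ℕ → FD ℕ) (κ : Ker) : Ker := fun t => (J t).bind κ

/-- Each element of `S` with probability `1 / N` (as a singleton), else the empty set
(meaningful when `S.card ≤ N`, `1 ≤ N`). -/
def pick (N : ℕ) (S : Finset ℕ) : FD (Finset ℕ) :=
  if h : S.card ≤ N ∧ 1 ≤ N then
    FD.ofFn (insert ∅ (S.image (fun τ => ({τ} : Finset ℕ))))
      (fun A => if A = ∅ then 1 - (S.card : ℝ) / N else 1 / N)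
      (fun A _ => by
        have h1 : (0 : ℝ) < N := by exact_mod_cast h.2
        have h2 : (S.card : ℝ) ≤ N := by exact_mod_cast h.1
        split_ifs
        · rw [sub_nonneg, div_le_one h1]; exact h2
        · positivity)
      (by
        have h1 : (0 : ℝ) < N := by exact_mod_cast h.2
        rw [sum_insert (by simp [eq_comm]), if_pos rfl,
          sum_image (fun a _ b _ hab => singleton_injective hab)]
        simp only [singleton_ne_empty, if_false, sum_const, nsmul_eq_mul]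
        field_simp; ring)
  else FD.pure ∅

/-- A single point of a unit `U` placed after a uniform jump. -/
def PtOf (G : ℕ) (U : Ker) (N : ℕ) : Ker := fun t => (JK (Unif G) U t).bind (pick N)

/-- The tree of blocks. -/
def tree (J : ℕ → ℕ → FD ℕ) (k : ℕ → ℕ) (κ₀ : Ker) : ℕ → Ker
  | 0 => κ₀
  | i + 1 => JK (J i) (BlkK (k i) (tree J k κ₀ i))

/-- The composite jump from the base of a level-`i` unit to the base of one of its leaves. -/
def chain (J : ℕ → ℕ → FD ℕ) : ℕ → ℕ → FD ℕ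
  | 0 => fun t => FD.pure t
  | i + 1 => fun t => (J i t).bind (chain J i)

/-- Iterated blocks without jumps. -/
def scales (A : ℕ) (V : Ker) : ℕ → Ker
  | 0 => V
  | s + 1 => BlkK A (scales A V s)

/-- Probability that the random set of times meets the residue set `B`. -/
def hit {G : Type} (ξ : ℕ → G) (μ : FD (Finset ℕ)) (B : Finset G) : ℝ :=
  μ.E (fun S => ind (∃ τ ∈ S, ξ τ ∈ B))

/-- Normalised hitting density of a unit of nominal size `N`. -/
def lam {G : Type} [Fintype G] (ξ : ℕ → G) (μ : FD (Finset ℕ)) (N : ℝ) (v : G) : ℝ :=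
  (Fintype.card G : ℝ) / N * hit ξ μ {v}

def JumpIn (J : ℕ → FD ℕ) (G : ℕ) : Prop := ∀ t, ∀ s ∈ (J t).supp, t ≤ s ∧ s ≤ t + G
def Span (κ : Ker) (Sp : ℕ) : Prop := ∀ t, ∀ S ∈ (κ t).supp, ∀ τ ∈ S, t ≤ τ ∧ τ ≤ t + Sp
def Size (κ : Ker) (N : ℕ) : Prop := ∀ t, ∀ S ∈ (κ t).supp, S.card ≤ N
def Atom (κ : Ker) (a : ℝ) : Prop := ∀ t τ, hit id (κ t) {τ} ≤ a
def Mass (κ : Ker) (μ : ℝ) : Prop := ∀ t, μ ≤ (κ t).E (fun S => (S.card : ℝ))

/-- Size, span, atoms and expected number of distinct times of a unit of nominal size `N`. -/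
structure Good (κ : Ker) (N Sp : ℕ) (a θ : ℝ) : Prop where
  size : Size κ N
  span : Span κ Sp
  atom : Atom κ (N * a)
  mass : Mass κ (θ * N)

/-- What is used of the single-point kernel. -/
structure PtOK (y : ℕ) (Pt : Ker) (θ : ℝ) : Prop where
  size : Size Pt 1
  span : Span Pt (2 * y ^ 10)
  atom : Atom Pt (1 / (y : ℝ) ^ 2)
  mass : Mass Pt θ

/-- The displacements seen from the base time. -/
def data (γ : ℕ → GI) (t : ℕ) (S : Finset ℕ) : Finset GI := S.image (fun τ => γ τ - γ t)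

def dataN (γ : ℕ → GI) (t : ℕ) {n : ℕ} (S : Fin n → Finset ℕ) : Fin n → Finset GI :=
  fun j => data γ t (S j)

/-- At most `exp H` possible data. -/
def Cnt (γ : ℕ → GI) (κ : Ker) (H : ℝ) : Prop :=
  ∃ T : Finset (Finset GI), (T.card : ℝ) ≤ Real.exp H ∧ ∀ t, ∀ S ∈ (κ t).supp, data γ t S ∈ T

/-- A code for the data of expected length at most `H` when the base time has law `ρ`. -/
def Code (γ : ℕ → GI) (ρ : FD ℕ) (κ : Ker) (H : ℝ) : Prop :=
  ∃ (T : Finset (Finset GI)) (Q : Finset GI → ℝ), (∀ d, 0 ≤ Q d) ∧ ∑ d ∈ T, Q d ≤ 1 ∧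
    (∀ t ∈ ρ.supp, ∀ S ∈ (κ t).supp, data γ t S ∈ T ∧ 0 < Q (data γ t S)) ∧
    ρ.E (fun t => (κ t).E (fun S => - Real.log (Q (data γ t S)))) ≤ H

/-- The state carried from one range of primes to the next. -/
structure State (γ : ℕ → GI) (U : Ker) (N Sp Gm : ℕ) (θ h : ℝ) : Prop where
  pos : 1 ≤ N
  size : Size U N
  span : Span U Sp
  mass : Mass U (θ * N)
  code : ∀ (ρ : FD ℕ) (G : ℕ), Gm ≤ G → Code γ (ρ.bind (Unif G)) U (h * N)

/-! ## Primes -/

/-- A weighted family of primes in `[y, y²]` with the larger-sieve bound. -/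
structure Fam (y : ℕ) (Ps : Finset P1) (w : P1 → ℝ) : Prop where
  nonneg : ∀ p, 0 ≤ w p
  sum_one : ∑ p ∈ Ps, w p = 1
  lo : ∀ p ∈ Ps, y ≤ p.1
  hi : ∀ p ∈ Ps, p.1 ≤ y ^ 2
  wmax : ∀ p ∈ Ps, w p ≤ 400 / (y : ℝ)
  sieve : ∀ d : GI, d ≠ 0 →
    ∑ p ∈ Ps, w p * p.1 * ind (res p d = 0) ≤ 200 * Real.log (d.norm : ℝ) / Real.log y

/-- Number of scales of the range starting at `y`. -/
def nS (y : ℕ) : ℕ := ⌊Real.log y / 250⌋₊

/-- Primes `≡ 1 mod 4` in `[a, b)`. -/
def primesIn (a b : ℕ) : Finset P1 := (Ico a b).subtype (fun p => p.Prime ∧ p % 4 = 1)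

/-- The primes of the range starting at `y`. -/
def fam (y : ℕ) : Finset P1 := primesIn y (y * 100 ^ nS y)

def Wt (y : ℕ) : ℝ := ∑ p ∈ fam y, Real.log p.1 / p.1

def wt (y : ℕ) (p : P1) : ℝ := Real.log p.1 / p.1 / Wt y

/-- A pair of times in the window `[t, t + G)` whose difference is almost uniform modulo every
product `≤ N₀` of primes not dividing `h`. -/
structure PairOK (γ : ℕ → GI) (D : ℕ) (C : ℝ) (t G N₀ : ℕ) (Pr : FD (ℕ × ℕ)) (h : GI) : Prop where
  win : ∀ x ∈ Pr.supp, x.1 ∈ Ico t (t + G) ∧ x.2 ∈ Ico t (t + G)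
  ne : h ≠ 0
  mem : h ∈ box (D * G)
  unif : ∀ Q : Finset P1, (∀ p ∈ Q, res p h ≠ 0) → ∏ p ∈ Q, p.1 ≤ N₀ →
    ∀ F : (p : P1) → ZMod p.1 → ℝ, (∀ p a, 0 ≤ F p a) →
      Pr.E (fun x => ∏ p ∈ Q, F p (xi γ p x.1 - xi γ p x.2)) ≤ C * ∏ p ∈ Q, avg (F p)

/-! ## Parameters of one range -/

/-- Free parameters: step bound, pair constant, start of the range, size of the unit,
a polylogarithmic factor, number of plain doubling steps. -/
structure Prm where
  D : ℕ
  C : ℝ
  y : ℕ
  NU : ℕ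
  Γ : ℕ
  m : ℕ

namespace Prm
variable (P : Prm)

def L : ℝ := Real.log P.y
def η : ℝ := 1 / P.L
/-- caps; `c (m + 1) = 0.55 L` -/
def c (i : ℕ) : ℝ := 2 ^ i * (0.55 * P.L / 2 ^ (P.m + 1))
def e (i : ℕ) : ℕ := if i ≤ P.m then ⌈Real.exp (P.c i)⌉₊ else 1
def k (i : ℕ) : ℕ := P.Γ ^ 4 * P.e i
/-- nominal sizes -/
def n : ℕ → ℕ
  | 0 => P.NU
  | i + 1 => P.k i * n i
/-- the jump into level `i + 1` has window `2 ^ g i` -/
def g (i : ℕ) : ℕ := P.Γ ^ 3 * P.e i * P.n i
def N0 (i : ℕ) : ℕ := 2 ^ (P.g i / 2 - 2)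
def j (i : ℕ) : ℕ := ⌊(P.g i : ℝ) / (8 * P.L)⌋₊
def χ : ℝ := (1 - P.η) ^ (P.m + 5)
def β (i : ℕ) : ℝ := (2 / P.χ) ^ i * P.c 0
def Sp (i : ℕ) : ℕ := ∑ l ∈ range i, 2 ^ P.g l
/-- peak lemma parameters -/
def δ : ℝ := 1 / (P.Γ * Real.exp (P.c (P.m + 1)))
def M : ℝ := P.η * P.y / P.n (P.m + 2)
def n₁ : ℕ := ⌈2 / P.δ⌉₊
def J : ℝ := 200 * Real.log (2 * ((P.D : ℝ) * P.Sp (P.m + 1)) ^ 2) / P.L
/-- number of top units in the first scale -/
def K₀ : ℕ := ⌈P.β (P.m + 1) * 100 * P.y / P.n (P.m + 2)⌉₊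

/-- The primitive largeness conditions; `Num.lean` derives everything from them. -/
structure OK : Prop where
  hD : 1 ≤ P.D
  hC : 1 ≤ P.C
  hNU : 1 ≤ P.NU
  hL : (10 : ℝ) ^ 12 ≤ P.L
  hLD : Real.log (10 * P.D) ≤ P.L / 100
  hLC : Real.log P.C ≤ P.L
  hΓ : P.L ^ 6 ≤ P.Γ
  hΓ' : (P.Γ : ℝ) ≤ Real.exp (P.L / 100)
  hc0 : 1 / 10 ^ 6 ≤ P.c 0
  hc0' : P.c 0 ≤ 2 / 10 ^ 6
  hm : ((P.m : ℝ) + 5) * (P.m + 2) ≤ P.L / 2
  htop : (P.n (P.m + 2) : ℝ) ≤ Real.exp (0.56 * P.L)

end Prm

end Crest.Agent.R2
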