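import Crest.Agent.R2.Basic

/-!
# Row 2: the hole functional `ell`

Recipes.
* `gibbs`: Jensen for `log` with the weights `π = gib β g` (`FD.ofFn univ π`, `FD.E_log_le`, or
  `ConcaveOn.le_map_sum`) applied to `a ↦ exp (h a) / (card * π a)`; note
  `log (card * π a) = -(β * g a) + ell β g`.
* `dfc_mix`: `gibbs` for `ḡ = E g` with `h = -β g s`, take `μ.E`: `μ.E (ell β (g s)) ≤ ell β ḡ`; then
  `FD.E_min_le`.
* `dfc_trunc`: `exp (-β min g F) ≤ exp (-β g) + exp (-β F)`, so with `l = min (ell β g) c`,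
  `avg ≤ exp (-l) + exp (-β F) ≤ exp (-l) (1 + exp (c - β F))` and `log (1 + x) ≤ x`.
* `dfc_init`: `exp (-x) ≤ 1 - x + x² / 2` for `x ≥ 0`, `log u ≤ u - 1`, `g - g² / F ≤ min g F`.
* `ruzsa`: for each `z` apply `gibbs` (exponentiated) with `h v = -β (φ (v - σ z) + φ' (v - σ' z))`; then
  `(z, v) ↦ (v - σ z, v - σ' z)` is injective on `G × G` (the difference of the two coordinates is
  `σ z - σ' z = z - z₀`), so `∑_z ∑_v F (v - σ z) F' (v - σ' z) ≤ (∑ F) (∑ F')`; use `sum_exp_eq`.
-/

set_option autoImplicit false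
open Finset

noncomputable section
namespace Crest.Agent.R2
open Classical

variable {G : Type} [Fintype G] [Nonempty G]

theorem card_pos' : (0 : ℝ) < Fintype.card G := by exact_mod_cast Fintype.card_pos

theorem avg_nonneg {g : G → ℝ} (h : ∀ a, 0 ≤ g a) : 0 ≤ avg g :=
  div_nonneg (sum_nonneg fun a _ => h a) card_pos'.le

theorem avg_mono {g g' : G → ℝ} (h : ∀ a, g a ≤ g' a) : avg g ≤ avg g' :=
  div_le_div_of_nonneg_right (sum_le_sum fun a _ => h a) card_pos'.le

omit [Nonempty G] in
theorem avg_E {α : Type} (μ : FD α) (g : α → G → ℝ) :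
    avg (fun v => μ.E (fun s => g s v)) = μ.E (fun s => avg (g s)) := by
  simp only [avg, FD.E_div, FD.E_sum]

omit [Nonempty G] in
theorem avg_div (g : G → ℝ) (c : ℝ) : avg (fun v => g v / c) = avg g / c := by
  simp only [avg, ← sum_div]; ring

theorem gib_pos (β : ℝ) (g : G → ℝ) (a : G) : 0 < gib β g a := by
  exact div_pos (Real.exp_pos _) (sum_pos (fun _ _ => Real.exp_pos _) univ_nonempty)

theorem sum_gib (β : ℝ) (g : G → ℝ) : ∑ a, gib β g a = 1 := by
  unfold gib
  rw [← sum_div]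
  exact div_self (sum_pos (fun _ _ => Real.exp_pos _) univ_nonempty).ne'

theorem ell_avg_exp_pos (h : G → ℝ) : 0 < avg (fun a => Real.exp (h a)) :=
  div_pos (sum_pos (fun _ _ => Real.exp_pos _) univ_nonempty) card_pos'

theorem ell_exp_neg (β : ℝ) (g : G → ℝ) :
    Real.exp (- ell β g) = avg (fun a => Real.exp (-(β * g a))) := by
  unfold ell
  rw [neg_neg, Real.exp_log (ell_avg_exp_pos _)]

theorem sum_exp_eq (β : ℝ) (g : G → ℝ) :
    ∑ a, Real.exp (-(β * g a)) = Fintype.card G * Real.exp (- ell β g) := by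
  rw [ell_exp_neg]
  unfold avg
  rw [mul_div_cancel₀ _ (card_pos' (G := G)).ne']

theorem ell_gib_eq (β : ℝ) (g : G → ℝ) (a : G) :
    gib β g a = Real.exp (-(β * g a) + ell β g) / Fintype.card G := by
  unfold gib
  have := card_pos' (G := G)
  rw [sum_exp_eq, Real.exp_add, Real.exp_neg (ell β g)]
  field_simp

theorem gib_le {β : ℝ} {g : G → ℝ} (h : ∀ a, 0 ≤ β * g a) (a : G) :
    gib β g a ≤ Real.exp (ell β g) / Fintype.card G := by
  rw [ell_gib_eq]
  refine div_le_div_of_nonneg_right (Real.exp_le_exp.2 ?_) card_pos'.le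
  linarith [h a]

/-- Gibbs' variational inequality. -/
theorem gibbs (β : ℝ) (g h : G → ℝ) :
    ∑ a, gib β g a * h a + β * ∑ a, gib β g a * g a - ell β g ≤
      Real.log (avg (fun a => Real.exp (h a))) := by
  have hc := card_pos' (G := G)
  have hA := ell_avg_exp_pos h
  set A := avg (fun a => Real.exp (h a)) with hAd
  have key : ∀ a, gib β g a * (h a + β * g a - ell β g - Real.log A) ≤
      Real.exp (h a) / Fintype.card G / A - gib β g a := by
    intro a
    have h1 := Real.add_one_le_exp (h a + β * g a - ell β g - Real.log A)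
    have h2 : gib β g a * Real.exp (h a + β * g a - ell β g - Real.log A) =
        Real.exp (h a) / Fintype.card G / A := by
      rw [ell_gib_eq, div_mul_eq_mul_div, ← Real.exp_add,
        show -(β * g a) + ell β g + (h a + β * g a - ell β g - Real.log A) = h a - Real.log A by ring,
        Real.exp_sub, Real.exp_log hA]
      ring
    have h3 := mul_le_mul_of_nonneg_left h1 (gib_pos β g a).le
    rw [h2] at h3
    linarith
  have h4 := sum_le_sum fun a (_ : a ∈ univ) => key a
  rw [sum_sub_distrib, sum_gib, ← sum_div, ← sum_div] at h4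
  have h5 : (∑ a, Real.exp (h a)) / Fintype.card G / A = 1 := div_self hA.ne'
  have h6 : ∑ a, gib β g a * (h a + β * g a - ell β g - Real.log A) =
      ∑ a, gib β g a * h a + β * ∑ a, gib β g a * g a -
        (∑ a, gib β g a) * (ell β g + Real.log A) := by
    rw [mul_sum, sum_mul, ← sum_add_distrib, ← sum_sub_distrib]
    exact sum_congr rfl fun a _ => by ring
  rw [h6, sum_gib, h5] at h4
  linarith

theorem ell_avg_const (c : ℝ) : avg (fun _ : G => c) = c := by
  unfold avg
  rw [sum_const, card_univ, nsmul_eq_mul, mul_div_cancel_left₀ _ (card_pos' (G := G)).ne']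

theorem gibbs_zero (β : ℝ) (g : G → ℝ) : β * ∑ a, gib β g a * g a ≤ ell β g := by
  have := gibbs β g fun _ => 0
  simp only [mul_zero, sum_const_zero, Real.exp_zero, ell_avg_const, Real.log_one] at this
  linarith

theorem ell_mono {β β' : ℝ} {g g' : G → ℝ} (h : ∀ a, β * g a ≤ β' * g' a) : ell β g ≤ ell β' g' := by
  unfold ell
  refine neg_le_neg (Real.log_le_log (ell_avg_exp_pos _) (avg_mono fun a => ?_))
  exact Real.exp_le_exp.2 (neg_le_neg (h a))

theorem ell_nonneg {β : ℝ} {g : G → ℝ} (h : ∀ a, 0 ≤ β * g a) : 0 ≤ ell β g := by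
  have := ell_mono (β := 0) (g := g) (β' := β) (g' := g) fun a => by simpa using h a
  simpa [ell, ell_avg_const] using this

omit [Nonempty G] in
theorem dfc_nonneg (c β : ℝ) (g : G → ℝ) : 0 ≤ dfc c β g :=
  sub_nonneg.2 (min_le_right _ _)

theorem dfc_le {c β : ℝ} {g : G → ℝ} (hc : 0 ≤ c) (h : ∀ a, 0 ≤ β * g a) : dfc c β g ≤ c := by
  have := le_min (ell_nonneg h) hc
  unfold dfc
  linarith

omit [Nonempty G] in
theorem sub_dfc_le_ell (c β : ℝ) (g : G → ℝ) : c - dfc c β g ≤ ell β g := by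
  unfold dfc; linarith [min_le_left (ell β g) c]

theorem dfc_mix {α : Type} (μ : FD α) (c β : ℝ) (g : α → G → ℝ) :
    dfc c β (fun a => μ.E (fun s => g s a)) ≤ μ.E (fun s => dfc c β (g s)) := by
  set gb : G → ℝ := fun a => μ.E (fun s => g s a) with hgb
  have h1 : ∀ s, ell β (g s) ≤ ell β gb - β * ∑ a, gib β gb a * gb a +
      β * ∑ a, gib β gb a * g s a := by
    intro s
    have h2 := gibbs β gb fun a => -(β * g s a)
    have h3 : ∑ a, gib β gb a * -(β * g s a) = -(β * ∑ a, gib β gb a * g s a) := by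
      rw [mul_sum, ← sum_neg_distrib]
      exact sum_congr rfl fun a _ => by ring
    rw [h3] at h2
    have h4 : ell β (g s) = - Real.log (avg fun a => Real.exp (-(β * g s a))) := rfl
    linarith
  have h5 : μ.E (fun s => ell β (g s)) ≤ ell β gb := by
    refine (μ.E_mono fun s _ => h1 s).trans (le_of_eq ?_)
    rw [FD.E_add, FD.E_const, FD.E_mul_left, FD.E_sum]
    simp only [FD.E_mul_left]
    ring
  unfold dfc
  rw [FD.E_sub, FD.E_const]
  have h6 := (μ.E_min_le (fun s => ell β (g s)) c).trans (min_le_min_right c h5)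
  linarith

theorem dfc_trunc (c : ℝ) {β : ℝ} (hβ : 0 ≤ β) (g : G → ℝ) (F : ℝ) :
    dfc c β (fun a => min (g a) F) ≤ dfc c β g + Real.exp (c - β * F) := by
  have h1 : Real.exp (- ell β fun a => min (g a) F) ≤ Real.exp (- ell β g) + Real.exp (-(β * F)) := by
    rw [ell_exp_neg, ell_exp_neg, ← ell_avg_const (G := G) (Real.exp (-(β * F)))]
    unfold avg
    rw [← add_div, ← sum_add_distrib]
    refine div_le_div_of_nonneg_right (sum_le_sum fun a _ => ?_) card_pos'.le
    rcases min_cases (g a) F with h | h <;> rw [h.1]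
    · linarith [Real.exp_pos (-(β * F))]
    · linarith [Real.exp_pos (-(β * g a))]
  set l := min (ell β g) c with hl
  have hl1 : l ≤ ell β g := min_le_left _ _
  have hl2 : l ≤ c := min_le_right _ _
  have h2 : Real.exp (- ell β g) ≤ Real.exp (-l) := Real.exp_le_exp.2 (by linarith)
  have h3 : Real.exp (-(β * F)) ≤ Real.exp (-l) * Real.exp (c - β * F) := by
    rw [← Real.exp_add]
    exact Real.exp_le_exp.2 (by linarith)
  have h4 : Real.exp (-l) * (Real.exp (c - β * F) + 1) ≤
      Real.exp (-l) * Real.exp (Real.exp (c - β * F)) :=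
    mul_le_mul_of_nonneg_left (Real.add_one_le_exp _) (Real.exp_pos _).le
  rw [← Real.exp_add] at h4
  have h5 : - ell β (fun a => min (g a) F) ≤ -l + Real.exp (c - β * F) :=
    Real.exp_le_exp.1 (by linarith)
  have h6 := Real.exp_pos (c - β * F)
  unfold dfc
  rw [← hl]
  have h7 : l - Real.exp (c - β * F) ≤ min (ell β fun a => min (g a) F) c :=
    le_min (by linarith) (by linarith)
  linarith

theorem ell_exp_neg_le {x : ℝ} (hx : 0 ≤ x) : Real.exp (-x) ≤ 1 - x + x ^ 2 / 2 := by
  have h1 := Real.quadratic_le_exp_of_nonneg hx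
  have h2 : 0 < 1 - x + x ^ 2 / 2 := by nlinarith [sq_nonneg (x - 1)]
  rw [Real.exp_neg, inv_le_comm₀ (Real.exp_pos x) h2]
  refine le_trans ?_ h1
  rw [inv_le_iff_one_le_mul₀ h2]
  nlinarith [sq_nonneg (x ^ 2)]

theorem dfc_init {β F : ℝ} (hβ : 0 ≤ β) (hF : 0 < F) {g : G → ℝ} (hg : ∀ a, 0 ≤ g a)
    (h1 : avg g ≤ 1) :
    dfc β β (fun a => min (g a) F) ≤ β * (1 - avg g) + β * avg (fun a => g a ^ 2) / F +
      β ^ 2 * avg (fun a => g a ^ 2) / 2 := by
  have key : ∀ a, Real.exp (-(β * min (g a) F)) ≤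
      1 - β * g a + β * g a ^ 2 / F + β ^ 2 * g a ^ 2 / 2 := by
    intro a
    have h0 : 0 ≤ min (g a) F := le_min (hg a) hF.le
    have h2 := ell_exp_neg_le (mul_nonneg hβ h0)
    have h3 : min (g a) F ^ 2 ≤ g a ^ 2 := pow_le_pow_left₀ h0 (min_le_left _ _) 2
    have h4 : g a - g a ^ 2 / F ≤ min (g a) F := by
      refine le_min ?_ ?_
      · have : 0 ≤ g a ^ 2 / F := by positivity
        linarith
      · rw [sub_le_iff_le_add, add_div' _ _ _ hF.ne', le_div_iff₀ hF]
        nlinarith [sq_nonneg (g a - F), mul_nonneg (hg a) hF.le]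
    have h5 := mul_le_mul_of_nonneg_left h4 hβ
    have h6 := mul_le_mul_of_nonneg_left h3 (sq_nonneg β)
    have h7 : β * (g a - g a ^ 2 / F) = β * g a - β * g a ^ 2 / F := by ring
    rw [mul_pow] at h2
    linarith
  have hc := card_pos' (G := G)
  have h2 : avg (fun a => 1 - β * g a + β * g a ^ 2 / F + β ^ 2 * g a ^ 2 / 2) =
      1 - β * avg g + β * avg (fun a => g a ^ 2) / F + β ^ 2 * avg (fun a => g a ^ 2) / 2 := by
    simp only [avg, sum_add_distrib, sum_sub_distrib, ← sum_div, ← mul_sum, sum_const, card_univ,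
      nsmul_eq_mul]
    field_simp
  have h3 := avg_mono key
  rw [h2, ← ell_exp_neg] at h3
  have h4 := Real.add_one_le_exp (- ell β fun a => min (g a) F)
  have h5 : 0 ≤ avg (fun a => g a ^ 2) := avg_nonneg fun a => sq_nonneg _
  have h6 : 0 ≤ β * avg (fun a => g a ^ 2) / F := by positivity
  have h7 : 0 ≤ β ^ 2 * avg (fun a => g a ^ 2) / 2 := by positivity
  have h8 : 0 ≤ β * (1 - avg g) := mul_nonneg hβ (by linarith)
  unfold dfc
  rcases min_cases (ell β fun a => min (g a) F) β with h | h <;> rw [h.1] <;> linarith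

/-- The Ruzsa injection combined with Gibbs' inequality. -/
theorem ruzsa [AddCommGroup G] (β' β : ℝ) (g φ φ' : G → ℝ) (σ σ' : G → G) (z₀ : G)
    (hσ : ∀ z, σ z - σ' z = z - z₀) :
    ∑ z, Real.exp (-(β * ∑ v, gib β' g v * φ (v - σ z)) - β * ∑ v, gib β' g v * φ' (v - σ' z)) ≤
      Fintype.card G *
        Real.exp (ell β' g - β' * ∑ v, gib β' g v * g v - ell β φ - ell β φ') := by
  have hc := card_pos' (G := G)
  set K := ell β' g - β' * ∑ v, gib β' g v * g v with hK
  have h1 : ∀ z, Real.exp (-(β * ∑ v, gib β' g v * φ (v - σ z)) - β * ∑ v, gib β' g v * φ' (v - σ' z)) ≤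
      Real.exp K / Fintype.card G *
        ∑ v, Real.exp (-(β * φ (v - σ z))) * Real.exp (-(β * φ' (v - σ' z))) := by
    intro z
    have h2 := gibbs β' g fun v => -(β * φ (v - σ z)) + -(β * φ' (v - σ' z))
    have h3 : ∑ v, gib β' g v * (-(β * φ (v - σ z)) + -(β * φ' (v - σ' z))) =
        -(β * ∑ v, gib β' g v * φ (v - σ z)) - β * ∑ v, gib β' g v * φ' (v - σ' z) := by
      rw [mul_sum, mul_sum, ← sum_neg_distrib, ← sum_sub_distrib]
      exact sum_congr rfl fun a _ => by ring
    rw [h3] at h2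
    have h4 : -(β * ∑ v, gib β' g v * φ (v - σ z)) - β * ∑ v, gib β' g v * φ' (v - σ' z) ≤
        K + Real.log (avg fun v => Real.exp (-(β * φ (v - σ z)) + -(β * φ' (v - σ' z)))) := by
      linarith
    refine (Real.exp_le_exp.2 h4).trans (le_of_eq ?_)
    rw [Real.exp_add, Real.exp_log (ell_avg_exp_pos _)]
    simp only [avg, Real.exp_add]
    ring
  have hinj : Function.Injective fun x : G × G => (x.2 - σ x.1, x.2 - σ' x.1) := by
    rintro ⟨z, v⟩ ⟨z', v'⟩ h
    simp only [Prod.mk.injEq] at h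
    have hz : z = z' := by
      have e1 : (v - σ' z) - (v - σ z) = z - z₀ := by rw [← hσ]; abel
      have e2 : (v' - σ' z') - (v' - σ z') = z' - z₀ := by rw [← hσ]; abel
      rw [h.1, h.2, e2] at e1
      exact (sub_left_injective e1).symm
    subst hz
    exact Prod.ext rfl (sub_left_injective h.1)
  have h5 := (Finite.injective_iff_bijective.1 hinj).sum_comp
    fun x : G × G => Real.exp (-(β * φ x.1)) * Real.exp (-(β * φ' x.2))
  rw [Fintype.sum_prod_type, Fintype.sum_prod_type] at h5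
  dsimp only at h5
  rw [← sum_mul_sum, sum_exp_eq, sum_exp_eq] at h5
  refine (sum_le_sum fun z _ => h1 z).trans (le_of_eq ?_)
  rw [← mul_sum, h5, sub_eq_add_neg, sub_eq_add_neg K, Real.exp_add, Real.exp_add]
  field_simp

end Crest.Agent.R2
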