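import Crest.Agent.R2.Mertens

/-!
# Row 2: the family of primes of one range; class masses

Recipes.
* `log_le_of_mem_fam`: `nS y * log 100 ≤ log y / 250 * 4.61 ≤ 0.02 log y`.
* `wt_ge`: `mertens_one_mod_four` with `a = y`, `b = y * 100 ^ nS y`, `nS y ≥ log y / 250 - 1`,
  `log 100 ≥ 4.6`; `(log y / 250 - 1) * 2.3 - C ≥ log y / 200` for large `y`.
* `fam_ok`: `wt ≤ (2 log y / y) / (log y / 200)`; the sieve bound is `sum_log_le_log_norm` divided by `Wt`.
* `class_mass`: two times with the same residues are equal or `∏ Q ≤ N (γ s - γ s') ≤ 2 (D |s - s'|)²`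
  (`prod_le_norm`, `IsPath.add_sub_mem_box`, `norm_le_of_mem_box`), i.e. `|s - s'| ≥ ℓ := √(∏ Q) / (√2 D)`.
  A set of `ℓ`-separated naturals in a window of `G` consecutive ones has at most `G / ℓ + 1` elements
  (e.g. `s ↦ ⌊(s - t) / ℓ⌋₊` is injective on it). So the mass is `≤ 1 / ℓ + 1 / G ≤ 3 D / √(∏ Q)`
  for every base time; then `E_bind`, `E_le_const`.
-/

set_option autoImplicit false
open Finset Filter

noncomputable section
namespace Crest.Agent.R2
open Classical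

theorem mem_primesIn {a b : ℕ} {p : P1} : p ∈ primesIn a b ↔ a ≤ p.1 ∧ p.1 < b := by
  simp [primesIn]

theorem mem_fam {y : ℕ} {p : P1} : p ∈ fam y ↔ y ≤ p.1 ∧ p.1 < y * 100 ^ nS y := mem_primesIn

theorem log_hundred_le : Real.log 100 ≤ 5 := by
  rw [Real.log_le_iff_le_exp (by norm_num)]
  have h := Real.exp_one_gt_d9
  have e : Real.exp 5 = Real.exp 1 ^ 5 := by rw [← Real.exp_nat_mul]; norm_num
  rw [e]
  calc (100 : ℝ) ≤ 2.7182818283 ^ 5 := by norm_num
    _ ≤ Real.exp 1 ^ 5 := pow_le_pow_left₀ (by norm_num) h.le 5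

theorem le_log_hundred : 4 ≤ Real.log 100 := by
  rw [Real.le_log_iff_exp_le (by norm_num)]
  have h := Real.exp_one_lt_d9
  have e : Real.exp 4 = Real.exp 1 ^ 4 := by rw [← Real.exp_nat_mul]; norm_num
  rw [e]
  calc Real.exp 1 ^ 4 ≤ 2.7182818286 ^ 4 := pow_le_pow_left₀ (Real.exp_pos 1).le h.le 4
    _ ≤ 100 := by norm_num

theorem pow_nS_le {y : ℕ} (hy : 1 ≤ y) : (100 : ℝ) ^ nS y ≤ Real.exp (0.02 * Real.log y) := by
  have hL : 0 ≤ Real.log y := Real.log_nonneg (by exact_mod_cast hy)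
  have h1 : (nS y : ℝ) ≤ Real.log y / 250 := Nat.floor_le (by positivity)
  have h2 : (100 : ℝ) ^ nS y = Real.exp (nS y * Real.log 100) := by
    rw [Real.exp_nat_mul, Real.exp_log (by norm_num)]
  rw [h2, Real.exp_le_exp]
  have h3 := log_hundred_le
  have h4 : (0 : ℝ) ≤ nS y := Nat.cast_nonneg _
  nlinarith

theorem mul_pow_nS_le {y : ℕ} (hy : 1 ≤ y) : y * 100 ^ nS y ≤ y ^ 2 := by
  have hy' : (1 : ℝ) ≤ y := by exact_mod_cast hy
  have hL : 0 ≤ Real.log y := Real.log_nonneg hy'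
  have h1 : (100 : ℝ) ^ nS y ≤ y := by
    refine (pow_nS_le hy).trans ?_
    calc Real.exp (0.02 * Real.log y) ≤ Real.exp (Real.log y) := Real.exp_le_exp.2 (by linarith)
      _ = y := Real.exp_log (by linarith)
  have h2 : 100 ^ nS y ≤ y := by exact_mod_cast h1
  rw [sq]
  exact Nat.mul_le_mul_left y h2

theorem log_le_of_mem_fam {y : ℕ} (hy : 1 ≤ y) {p : P1} (hp : p ∈ fam y) :
    Real.log p.1 ≤ 1.02 * Real.log y := by
  have hy' : (1 : ℝ) ≤ y := by exact_mod_cast hy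
  have h1 : (p.1 : ℝ) ≤ y * 100 ^ nS y := by exact_mod_cast (mem_fam.1 hp).2.le
  have h2 : (p.1 : ℝ) ≤ Real.exp (1.02 * Real.log y) := by
    calc (p.1 : ℝ) ≤ y * Real.exp (0.02 * Real.log y) :=
          h1.trans (mul_le_mul_of_nonneg_left (pow_nS_le hy) (by linarith))
      _ = Real.exp (Real.log y) * Real.exp (0.02 * Real.log y) := by
          rw [Real.exp_log (by linarith)]
      _ = Real.exp (1.02 * Real.log y) := by rw [← Real.exp_add]; congr 1; ring
  have hp0 : (0 : ℝ) < p.1 := by exact_mod_cast p.2.1.pos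
  exact (Real.log_le_iff_le_exp hp0).2 h2

theorem wt_ge : ∀ᶠ y : ℕ in atTop, Real.log y / 200 ≤ Wt y := by
  obtain ⟨C, hC⟩ := mertens_one_mod_four
  have ht : Tendsto (fun y : ℕ => Real.log y) atTop atTop :=
    Real.tendsto_log_atTop.comp tendsto_natCast_atTop_atTop
  filter_upwards [ht.eventually_ge_atTop (1000 * (2 + |C|)), eventually_ge_atTop 1] with y hL hy
  have hy' : (0 : ℝ) < y := by exact_mod_cast hy
  have h1 := hC y (y * 100 ^ nS y) hy (Nat.le_mul_of_pos_right y (by positivity))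
  have h2 : Real.log ((y * 100 ^ nS y : ℕ) : ℝ) = Real.log y + nS y * Real.log 100 := by
    push_cast
    rw [Real.log_mul hy'.ne' (by positivity), Real.log_pow]
  have h3 : Real.log y / 250 < nS y + 1 := Nat.lt_floor_add_one _
  have h4 := le_log_hundred
  have h5 : (0 : ℝ) ≤ nS y := Nat.cast_nonneg _
  have h6 : (nS y : ℝ) * 4 ≤ nS y * Real.log 100 := mul_le_mul_of_nonneg_left h4 h5
  have h7 := le_abs_self C
  have h8 := abs_nonneg C
  rw [h2] at h1
  unfold Wt fam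
  linarith

theorem fam_ok {y : ℕ} (hy : 2 ≤ y) (hW : Real.log y / 200 ≤ Wt y) : Fam y (fam y) (wt y) := by
  have hy1 : 1 ≤ y := by omega
  have hy' : (1 : ℝ) < y := by exact_mod_cast hy
  have hL : 0 < Real.log y := Real.log_pos hy'
  have hW0 : 0 < Wt y := lt_of_lt_of_le (by positivity) hW
  have hinv : 1 / Wt y ≤ 200 / Real.log y := by
    rw [div_le_div_iff₀ hW0 hL]; linarith
  refine ⟨fun p => ?_, ?_, fun p hp => (mem_fam.1 hp).1,
    fun p hp => (mem_fam.1 hp).2.le.trans (mul_pow_nS_le hy1), fun p hp => ?_, fun d hd => ?_⟩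
  · exact div_nonneg (div_nonneg (Real.log_natCast_nonneg _) (Nat.cast_nonneg _)) hW0.le
  · simp only [wt]
    rw [← sum_div]
    exact div_self hW0.ne'
  · have h1 := log_le_of_mem_fam hy1 hp
    have h2 : (y : ℝ) ≤ p.1 := by exact_mod_cast (mem_fam.1 hp).1
    have h3 : Real.log p.1 / p.1 ≤ 2 * Real.log y / y :=
      div_le_div₀ (by positivity) (by linarith) (by linarith) h2
    calc wt y p = Real.log p.1 / p.1 * (1 / Wt y) := by rw [wt]; ring
      _ ≤ 2 * Real.log y / y * (200 / Real.log y) :=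
          mul_le_mul h3 hinv (by positivity) (by positivity)
      _ = 400 / (y : ℝ) := by field_simp; norm_num
  · have h1 := sum_log_le_log_norm (fam y) hd
    have h2 : 0 ≤ Real.log (d.norm : ℝ) := Real.log_nonneg (by exact_mod_cast one_le_norm hd)
    calc ∑ p ∈ fam y, wt y p * p.1 * ind (res p d = 0)
        = (∑ p ∈ fam y, Real.log p.1 * ind (res p d = 0)) * (1 / Wt y) := by
          rw [sum_mul]
          refine sum_congr rfl fun p _ => ?_
          have hp0 : (p.1 : ℝ) ≠ 0 := by exact_mod_cast p.2.1.ne_zero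
          rw [wt]; field_simp
      _ ≤ Real.log (d.norm : ℝ) * (200 / Real.log y) :=
          mul_le_mul h1 hinv (by positivity) h2
      _ = 200 * Real.log (d.norm : ℝ) / Real.log y := by ring

/-- The product of distinct primes `≤ n` is at most `4 ^ n` (`primorial_le_four_pow`). -/
theorem prod_le_four_pow {Q : Finset P1} {n : ℕ} (h : ∀ p ∈ Q, p.1 ≤ n) :
    ∏ p ∈ Q, p.1 ≤ 4 ^ n := by
  refine le_trans ?_ (primorial_le_four_pow n)
  have e : ∏ p ∈ Q, p.1 = ∏ p ∈ Q.image (fun p : P1 => p.1), p :=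
    (prod_image (f := fun p : ℕ => p) (fun p _ q _ hpq => Subtype.ext hpq)).symm
  rw [e, primorial]
  refine prod_le_prod_of_subset_of_one_le' (fun q hq => ?_) (fun q hq _ => ?_)
  · obtain ⟨p, hp, rfl⟩ := mem_image.1 hq
    exact mem_filter.2 ⟨mem_range.2 (Nat.lt_succ_of_le (h p hp)), p.2.1⟩
  · exact (mem_filter.1 hq).2.one_le

/-- The half bound: after a long uniform jump every residue class mod `∏ Q` has mass `≤ 3 D / √(∏ Q)`. -/
theorem class_mass {D : ℕ} {γ : ℕ → GI} (hγ : IsPath D γ) (Q : Finset P1) {G : ℕ}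
    (hG : ∏ p ∈ Q, p.1 ≤ G ^ 2) (ρ : FD ℕ) (a : (p : P1) → ZMod p.1) :
    (ρ.bind (Unif G)).E (fun t => ind (∀ p ∈ Q, xi γ p t = a p)) ≤
      3 * D / Real.sqrt ((∏ p ∈ Q, p.1 : ℕ) : ℝ) := by
  have hN : 0 < ∏ p ∈ Q, p.1 := prod_pos fun p _ => p.2.1.pos
  have hG0 : 0 < G := by
    rcases Nat.eq_zero_or_pos G with rfl | h
    · simp only [ne_eq, OfNat.ofNat_ne_zero, not_false_eq_true, zero_pow] at hG; omega
    · exact h
  have hD : (1 : ℝ) ≤ D := by exact_mod_cast hγ.one_le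
  set r : ℝ := Real.sqrt ((∏ p ∈ Q, p.1 : ℕ) : ℝ) with hr
  have hr0 : 0 < r := Real.sqrt_pos.2 (by exact_mod_cast hN)
  have hG' : (0 : ℝ) < G := by exact_mod_cast hG0
  have hrG : r ≤ G := Real.sqrt_le_iff.2 ⟨hG'.le, by exact_mod_cast hG⟩
  set l : ℝ := r / (2 * D) with hl
  have hl0 : 0 < l := by positivity
  have hsep : ∀ s k : ℕ, 0 < k → (∀ p ∈ Q, xi γ p s = a p) → (∀ p ∈ Q, xi γ p (s + k) = a p) →
      l ≤ k := by
    intro s k hk h1 h2
    have hd : γ (s + k) - γ s ≠ 0 := sub_ne_zero.2 fun e => by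
      have := hγ.inj e
      omega
    have h3 := prod_le_norm (Q := Q) hd fun p hp => by rw [← xi_sub, h1 p hp, h2 p hp, sub_self]
    have h4 := norm_le_of_mem_box (hγ.add_sub_mem_box s k)
    have h5 : ((∏ p ∈ Q, p.1 : ℕ) : ℝ) ≤ 2 * ((D : ℝ) * k) ^ 2 := by
      exact_mod_cast h3.trans h4
    have h6 : r ≤ 2 * D * k := by
      refine Real.sqrt_le_iff.2 ⟨by positivity, h5.trans ?_⟩
      nlinarith [sq_nonneg ((D : ℝ) * k)]
    rw [hl, div_le_iff₀ (by positivity)]
    linarith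
  rw [FD.E_bind]
  refine ρ.E_le_const fun t _ => ?_
  set S := (Ico t (t + G)).filter fun s => ∀ p ∈ Q, xi γ p s = a p with hS
  have hsum : ∑ s ∈ Ico t (t + G), ind (∀ p ∈ Q, xi γ p s = a p) = (S.card : ℝ) := by
    rw [sum_ind_eq_card, hS]
    congr
  rw [E_Unif hG0, hsum]
  have hlt : ∀ s ∈ S, ∀ s' ∈ S, s < s' → ⌊((s : ℝ) - t) / l⌋₊ < ⌊((s' : ℝ) - t) / l⌋₊ := by
    intro s hs s' hs' h
    obtain ⟨k, rfl⟩ := Nat.exists_eq_add_of_lt h
    have h1 := hsep s (k + 1) (Nat.succ_pos k) (mem_filter.1 hs).2 (mem_filter.1 hs').2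
    have h2 : (t : ℝ) ≤ s := by exact_mod_cast (mem_Ico.1 (mem_filter.1 hs).1).1
    have h3 : 0 ≤ ((s : ℝ) - t) / l := div_nonneg (by linarith) hl0.le
    have h4 : ((s : ℝ) - t) / l + 1 ≤ (((s + k + 1 : ℕ) : ℝ) - t) / l := by
      rw [div_add_one hl0.ne', div_le_div_iff_of_pos_right hl0]
      push_cast at h1 ⊢
      linarith
    have h5 := Nat.floor_le_floor h4
    rw [Nat.floor_add_one h3] at h5
    omega
  have hcard : S.card ≤ ⌊(G : ℝ) / l⌋₊ + 1 := by
    rw [← card_range (⌊(G : ℝ) / l⌋₊ + 1)]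
    refine card_le_card_of_injOn (fun s : ℕ => ⌊((s : ℝ) - t) / l⌋₊) (fun s hs => ?_) ?_
    · have h1 : (s : ℝ) ≤ t + G := by
        exact_mod_cast (mem_Ico.1 (mem_filter.1 (mem_coe.1 hs)).1).2.le
      refine mem_coe.2 (mem_range.2 (Nat.lt_succ_of_le (Nat.floor_le_floor ?_)))
      exact div_le_div_of_nonneg_right (by linarith) hl0.le
    · intro s hs s' hs' e
      rcases lt_trichotomy s s' with h | h | h
      · exact absurd e (hlt s hs s' hs' h).ne
      · exact h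
      · exact absurd e (hlt s' hs' s hs h).ne'
  have hcard' : (S.card : ℝ) ≤ G / l + 1 := by
    have h1 : (S.card : ℝ) ≤ (⌊(G : ℝ) / l⌋₊ : ℝ) + 1 := by exact_mod_cast hcard
    have h2 : (⌊(G : ℝ) / l⌋₊ : ℝ) ≤ G / l := Nat.floor_le (by positivity)
    linarith
  calc (S.card : ℝ) / G ≤ (G / l + 1) / G := div_le_div_of_nonneg_right hcard' hG'.le
    _ = 2 * D / r + 1 / G := by rw [hl]; field_simp
    _ ≤ 2 * D / r + D / r := by
        have : (1 : ℝ) / G ≤ D / r := div_le_div₀ (by linarith) hD hr0 hrG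
        linarith
    _ = 3 * D / r := by ring

end Crest.Agent.R2
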