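import Crest.Agent.R2.Basic

/-!
# Row 2: hitting probabilities of blocks and trees

Recipes.
* `hit_Blk`: `1 - ind (∃ τ ∈ ⋃ x i, _) = ∏ i, (1 - ind (∃ τ ∈ x i, _))` (`ind_not`, `ind_forall`), `FD.E_iid_pow`.
* `one_sub_pow_ge`: `(1 - x) ^ k ≤ 1 - k x + (k x)²` for `0 ≤ x ≤ 1` (induction on `k`, or
  `(1 - x) ^ k ≤ exp (-k x) ≤ 1 - k x + (k x)² / 2`); `one_add_mul_le_pow` for the other direction.
* `card = ∑_{τ ∈ Icc t (t + Sp)} ind (τ ∈ S)`, so `E card = ∑_τ hit id μ {τ}` (`E_card_eq`); apply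
  `hit_Blk` and `one_sub_pow_ge` termwise for `Good.blk`.
* `cert_tree`, `raw_tree`, `hit_tree_mono`, `good_tree`: induction on the level with `hit_bind`,
  `cert_blk`, `hit_Blk_le`. In `cert_tree` the quantity `x'` fed to `cert_blk` at level `i` is at most
  `n i / card * B.card * F` since the mixture of `min _ F` is `≤ F` and `(1 - η) ^ (i + 1) ≤ 1`; the size
  hypothesis passes down because `n i ≤ n (i + 1)`.
-/

set_option autoImplicit false
open Finset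

noncomputable section
namespace Crest.Agent.R2
open Classical

section
variable {G : Type}

theorem hit_nonneg (ξ : ℕ → G) (μ : FD (Finset ℕ)) (B : Finset G) : 0 ≤ hit ξ μ B :=
  μ.E_nonneg (fun _ _ => ind_nonneg _)

theorem hit_le_one (ξ : ℕ → G) (μ : FD (Finset ℕ)) (B : Finset G) : hit ξ μ B ≤ 1 :=
  μ.E_le_const (fun _ _ => ind_le_one _)

theorem hit_bind {α : Type} (ξ : ℕ → G) (ρ : FD α) (κ : α → FD (Finset ℕ)) (B : Finset G) :
    hit ξ (ρ.bind κ) B = ρ.E (fun s => hit ξ (κ s) B) := FD.E_bind _ _ _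

theorem hit_JK (ξ : ℕ → G) (J : ℕ → FD ℕ) (κ : Ker) (t : ℕ) (B : Finset G) :
    hit ξ (JK J κ t) B = (J t).E (fun s => hit ξ (κ s) B) := FD.E_bind _ _ _

theorem mem_supp_Blk {k : ℕ} {μ : FD (Finset ℕ)} {S : Finset ℕ} :
    S ∈ (Blk k μ).supp ↔ ∃ x : Fin k → Finset ℕ, (∀ i, x i ∈ μ.supp) ∧ univ.biUnion x = S := by
  simp only [Blk, FD.mem_supp_map, FD.mem_supp_iid]

theorem E_Blk (k : ℕ) (μ : FD (Finset ℕ)) (f : Finset ℕ → ℝ) :
    (Blk k μ).E f = (FD.iid k μ).E (fun x => f (univ.biUnion x)) := FD.E_map _ _ _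

theorem hit_Blk (ξ : ℕ → G) (k : ℕ) (μ : FD (Finset ℕ)) (B : Finset G) :
    hit ξ (Blk k μ) B = 1 - (1 - hit ξ μ B) ^ k := by
  have key : ∀ x : Fin k → Finset ℕ, ind (∃ τ ∈ univ.biUnion x, ξ τ ∈ B) =
      1 - ∏ i, (1 - ind (∃ τ ∈ x i, ξ τ ∈ B)) := by
    intro x
    have h1 : (¬ ∃ τ ∈ univ.biUnion x, ξ τ ∈ B) ↔ ∀ i, ¬ ∃ τ ∈ x i, ξ τ ∈ B := by
      constructor
      · rintro h i ⟨τ, hτ, hB⟩
        exact h ⟨τ, mem_biUnion.2 ⟨i, mem_univ _, hτ⟩, hB⟩
      · rintro h ⟨τ, hτ, hB⟩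
        obtain ⟨i, _, hi⟩ := mem_biUnion.1 hτ
        exact h i ⟨τ, hi, hB⟩
    have h2 := ind_congr h1
    rw [ind_not, ind_forall] at h2
    simp only [ind_not] at h2
    linarith
  unfold hit
  rw [E_Blk]
  simp only [key]
  rw [FD.E_sub, FD.E_const,
    FD.E_iid_pow k μ (fun S => 1 - ind (∃ τ ∈ S, ξ τ ∈ B)), FD.E_sub, FD.E_const]

/-- Union bound over the residues. -/
theorem hit_le_sum (ξ : ℕ → G) (μ : FD (Finset ℕ)) (B : Finset G) :
    hit ξ μ B ≤ ∑ v ∈ B, hit ξ μ {v} := by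
  unfold hit
  rw [← FD.E_sum]
  refine μ.E_mono (fun S _ => ?_)
  refine le_trans (ind_mono ?_) (ind_exists_le B (fun v => ∃ τ ∈ S, ξ τ ∈ ({v} : Finset G)))
  rintro ⟨τ, hτ, hB⟩
  exact ⟨ξ τ, hB, τ, hτ, mem_singleton_self _⟩

/-- For at most one point the union bound is an equality. -/
theorem hit_eq_sum (ξ : ℕ → G) (μ : FD (Finset ℕ)) (h : ∀ S ∈ μ.supp, S.card ≤ 1) (B : Finset G) :
    hit ξ μ B = ∑ v ∈ B, hit ξ μ {v} := by
  unfold hit
  rw [← FD.E_sum]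
  refine μ.E_congr (fun S hS => ?_)
  rcases S.eq_empty_or_nonempty with rfl | ⟨τ, hτ⟩
  · rw [ind_neg (by simp)]
    exact (sum_eq_zero (fun v _ => ind_neg (by simp))).symm
  · have hS1 : S = {τ} :=
      eq_singleton_iff_unique_mem.2 ⟨hτ, fun σ hσ => card_le_one.1 (h S hS) σ hσ τ hτ⟩
    subst hS1
    by_cases hB : ξ τ ∈ B
    · rw [ind_pos ⟨τ, mem_singleton_self _, hB⟩, sum_eq_single (ξ τ)]
      · rw [ind_pos ⟨τ, mem_singleton_self _, mem_singleton_self _⟩]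
      · intro v _ hv
        refine ind_neg ?_
        rintro ⟨σ, hσ, hv'⟩
        rw [mem_singleton] at hσ hv'
        exact hv (by rw [← hv', hσ])
      · intro h'; exact absurd hB h'
    · rw [ind_neg (by simpa using hB)]
      refine (sum_eq_zero (fun v hv => ind_neg ?_)).symm
      rintro ⟨σ, hσ, hv'⟩
      rw [mem_singleton] at hσ hv'
      exact hB (by rw [← hσ, hv']; exact hv)

theorem one_sub_pow_ge {x : ℝ} (h0 : 0 ≤ x) (h1 : x ≤ 1) (k : ℕ) :
    k * x * (1 - k * x) ≤ 1 - (1 - x) ^ k := by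
  induction k with
  | zero => simp
  | succ k ih =>
    have hk : (0 : ℝ) ≤ k := Nat.cast_nonneg k
    have h2 : (1 - x) ^ k * (1 - x) ≤ (1 - k * x * (1 - k * x)) * (1 - x) :=
      mul_le_mul_of_nonneg_right (by linarith) (by linarith)
    have h3 : 0 ≤ (k : ℝ) ^ 2 * x ^ 3 := by positivity
    have h4 : 0 ≤ ((k : ℝ) + 1) * x ^ 2 := by positivity
    rw [pow_succ]
    push_cast
    nlinarith

theorem hit_Blk_le (ξ : ℕ → G) (k : ℕ) (μ : FD (Finset ℕ)) (B : Finset G) :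
    hit ξ (Blk k μ) B ≤ k * hit ξ μ B := by
  rw [hit_Blk]
  have h1 := hit_le_one ξ μ B
  have h2 := one_add_mul_le_pow (a := -hit ξ μ B) (by linarith) k
  rw [← sub_eq_add_neg] at h2
  linarith

theorem hit_Blk_mono (ξ : ℕ → G) (k : ℕ) {μ μ' : FD (Finset ℕ)} {B : Finset G}
    (h : hit ξ μ B ≤ hit ξ μ' B) : hit ξ (Blk k μ) B ≤ hit ξ (Blk k μ') B := by
  rw [hit_Blk, hit_Blk]
  have h1 := hit_le_one ξ μ' B
  have h2 : (1 - hit ξ μ' B) ^ k ≤ (1 - hit ξ μ B) ^ k :=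
    pow_le_pow_left₀ (by linarith) (by linarith) k
  linarith

theorem cert_blk (ξ : ℕ → G) (k : ℕ) (μ : FD (Finset ℕ)) (B : Finset G) {x η : ℝ} (h0 : 0 ≤ x)
    (hx : x ≤ hit ξ μ B) (hη : k * x ≤ η) : (1 - η) * (k * x) ≤ hit ξ (Blk k μ) B := by
  rw [hit_Blk]
  have h1 := hit_le_one ξ μ B
  have h2 : (1 - hit ξ μ B) ^ k ≤ (1 - x) ^ k :=
    pow_le_pow_left₀ (by linarith) (by linarith) k
  have h3 := one_sub_pow_ge h0 (hx.trans h1) k
  have h4 : 0 ≤ (k : ℝ) * x := mul_nonneg (Nat.cast_nonneg k) h0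
  have h5 : (1 - η) * (k * x) ≤ (1 - k * x) * (k * x) :=
    mul_le_mul_of_nonneg_right (by linarith) h4
  linarith

theorem miss_scales (ξ : ℕ → G) (A : ℕ) (V : Ker) (s t : ℕ) (B : Finset G) :
    1 - hit ξ (scales A V s t) B = (1 - hit ξ (V t) B) ^ (A ^ s) := by
  induction s with
  | zero => simp [scales]
  | succ s ih =>
    change 1 - hit ξ (Blk A (scales A V s t)) B = _
    rw [hit_Blk, ih, ← pow_mul, pow_succ]
    ring

theorem lam_nonneg [Fintype G] (ξ : ℕ → G) (μ : FD (Finset ℕ)) {N : ℝ} (hN : 0 ≤ N) (v : G) :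
    0 ≤ lam ξ μ N v :=
  mul_nonneg (div_nonneg (Nat.cast_nonneg _) hN) (hit_nonneg _ _ _)

/-- Lower certificate for the thin tree: small residue sets are hit almost additively. -/
theorem cert_tree [Fintype G] [Nonempty G] (ξ : ℕ → G) (J : ℕ → ℕ → FD ℕ) (k n : ℕ → ℕ) (Pt : Ker)
    (hPt : Size Pt 1) (hk : ∀ i, 1 ≤ k i) (hn : ∀ i, n (i + 1) = k i * n i) {F η : ℝ} (hF : 0 ≤ F)
    (hη0 : 0 ≤ η) (hη1 : η ≤ 1) (B : Finset G) (i : ℕ)
    (hB : (B.card : ℝ) * n i * F ≤ η * Fintype.card G) (t : ℕ) :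
    (1 - η) ^ (i + 1) * ((n i : ℝ) / Fintype.card G) *
        ∑ v ∈ B, (chain J i t).E (fun s => min (lam ξ (Pt s) 1 v) F) ≤
      hit ξ (tree J k (BlkK (n 0) Pt) i t) B := by
  have hc : (0 : ℝ) < Fintype.card G := by exact_mod_cast Fintype.card_pos
  have hsum0 : ∀ j s, 0 ≤ ∑ v ∈ B, (chain J j s).E (fun s' => min (lam ξ (Pt s') 1 v) F) :=
    fun j s => sum_nonneg (fun v _ => FD.E_nonneg _ (fun s' _ =>
      le_min (lam_nonneg ξ _ zero_le_one v) hF))
  have hsumF : ∀ j s, ∑ v ∈ B, (chain J j s).E (fun s' => min (lam ξ (Pt s') 1 v) F) ≤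
      B.card * F := by
    intro j s
    have := sum_le_card_nsmul B (fun v => (chain J j s).E (fun s' => min (lam ξ (Pt s') 1 v) F)) F
      (fun v _ => FD.E_le_const _ (fun s' _ => min_le_right _ _))
    rwa [nsmul_eq_mul] at this
  have hsmall : ∀ j s, (B.card : ℝ) * n j * F ≤ η * Fintype.card G →
      (n j : ℝ) / Fintype.card G *
        ∑ v ∈ B, (chain J j s).E (fun s' => min (lam ξ (Pt s') 1 v) F) ≤ η := by
    intro j s hj
    have h1 : (n j : ℝ) / Fintype.card G *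
        ∑ v ∈ B, (chain J j s).E (fun s' => min (lam ξ (Pt s') 1 v) F) ≤
        (n j : ℝ) / Fintype.card G * (B.card * F) :=
      mul_le_mul_of_nonneg_left (hsumF j s) (by positivity)
    refine h1.trans ?_
    rw [div_mul_eq_mul_div, div_le_iff₀ hc]
    linarith
  induction i generalizing t with
  | zero =>
    have hx : (1 / (Fintype.card G : ℝ)) *
        ∑ v ∈ B, (chain J 0 t).E (fun s' => min (lam ξ (Pt s') 1 v) F) ≤ hit ξ (Pt t) B := by
      rw [hit_eq_sum ξ (Pt t) (hPt t) B, mul_sum]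
      refine sum_le_sum (fun v _ => ?_)
      have h1 : (chain J 0 t).E (fun s' => min (lam ξ (Pt s') 1 v) F) ≤ lam ξ (Pt t) 1 v := by
        change (FD.pure t).E _ ≤ _
        rw [FD.E_pure]
        exact min_le_left _ _
      refine (mul_le_mul_of_nonneg_left h1 (by positivity)).trans (le_of_eq ?_)
      unfold lam
      field_simp
    have h0 : 0 ≤ (1 / (Fintype.card G : ℝ)) *
        ∑ v ∈ B, (chain J 0 t).E (fun s' => min (lam ξ (Pt s') 1 v) F) :=
      mul_nonneg (by positivity) (hsum0 0 t)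
    have h2 := hsmall 0 t hB
    have h3 := cert_blk ξ (n 0) (Pt t) B (η := η) h0 hx (by
      refine le_trans (le_of_eq ?_) h2
      ring)
    change _ ≤ hit ξ (Blk (n 0) (Pt t)) B
    refine le_trans (le_of_eq ?_) h3
    ring
  | succ i ih =>
    have hni : (n (i + 1) : ℝ) = k i * n i := by rw [hn i]; push_cast; ring
    have hki : (1 : ℝ) ≤ k i := by exact_mod_cast hk i
    have hle : (n i : ℝ) ≤ n (i + 1) := by
      rw [hni]; exact le_mul_of_one_le_left (Nat.cast_nonneg _) hki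
    have hB' : (B.card : ℝ) * n i * F ≤ η * Fintype.card G :=
      le_trans (mul_le_mul_of_nonneg_right
        (mul_le_mul_of_nonneg_left hle (Nat.cast_nonneg _)) hF) hB
    have hp1 : (1 - η) ^ (i + 1) ≤ 1 := pow_le_one₀ (by linarith) (by linarith)
    have hp0 : 0 ≤ (1 - η) ^ (i + 1) := pow_nonneg (by linarith) _
    have hs : ∀ s, (1 - η) ^ (i + 1 + 1) * ((n (i + 1) : ℝ) / Fintype.card G) *
        ∑ v ∈ B, (chain J i s).E (fun s' => min (lam ξ (Pt s') 1 v) F) ≤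
        hit ξ (BlkK (k i) (tree J k (BlkK (n 0) Pt) i) s) B := by
      intro s
      have h0 : 0 ≤ (1 - η) ^ (i + 1) * ((n i : ℝ) / Fintype.card G) *
          ∑ v ∈ B, (chain J i s).E (fun s' => min (lam ξ (Pt s') 1 v) F) :=
        mul_nonneg (mul_nonneg hp0 (by positivity)) (hsum0 i s)
      have h1 : (n (i + 1) : ℝ) / Fintype.card G *
          ∑ v ∈ B, (chain J i s).E (fun s' => min (lam ξ (Pt s') 1 v) F) ≤ η := by
        have h2 : (n (i + 1) : ℝ) / Fintype.card G *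
            ∑ v ∈ B, (chain J i s).E (fun s' => min (lam ξ (Pt s') 1 v) F) ≤
            (n (i + 1) : ℝ) / Fintype.card G * (B.card * F) :=
          mul_le_mul_of_nonneg_left (hsumF i s) (by positivity)
        refine h2.trans ?_
        rw [div_mul_eq_mul_div, div_le_iff₀ hc]
        linarith
      have h1' : 0 ≤ (n (i + 1) : ℝ) / Fintype.card G *
          ∑ v ∈ B, (chain J i s).E (fun s' => min (lam ξ (Pt s') 1 v) F) :=
        mul_nonneg (by positivity) (hsum0 i s)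
      have h3 := cert_blk ξ (k i) (tree J k (BlkK (n 0) Pt) i s) B (η := η) h0 (ih hB' s) (by
        have h4 := mul_le_mul_of_nonneg_right hp1 h1'
        refine le_trans (le_of_eq ?_) (h4.trans (by rw [one_mul]; exact h1))
        rw [hni]; ring)
      change _ ≤ hit ξ (Blk (k i) (tree J k (BlkK (n 0) Pt) i s)) B
      refine le_trans (le_of_eq ?_) h3
      rw [hni]; ring
    change _ ≤ hit ξ (JK (J i) (BlkK (k i) (tree J k (BlkK (n 0) Pt) i)) t) B
    rw [hit_JK]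
    refine le_trans (le_of_eq ?_) ((J i t).E_mono (fun s _ => hs s))
    rw [FD.E_mul_left, FD.E_sum]
    congr 1
    refine sum_congr rfl (fun v _ => ?_)
    exact FD.E_bind _ _ _

/-- Union bound for the thin tree. -/
theorem raw_tree [Fintype G] [Nonempty G] (ξ : ℕ → G) (J : ℕ → ℕ → FD ℕ) (k n : ℕ → ℕ) (Pt : Ker)
    (hn : ∀ i, n (i + 1) = k i * n i) (i t : ℕ) (v : G) :
    hit ξ (tree J k (BlkK (n 0) Pt) i t) {v} ≤
      (n i : ℝ) / Fintype.card G * (chain J i t).E (fun s => lam ξ (Pt s) 1 v) := by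
  have hc : (0 : ℝ) < Fintype.card G := by exact_mod_cast Fintype.card_pos
  induction i generalizing t with
  | zero =>
    change hit ξ (Blk (n 0) (Pt t)) {v} ≤ _ * (FD.pure t).E _
    rw [FD.E_pure]
    refine (hit_Blk_le ξ _ _ _).trans (le_of_eq ?_)
    unfold lam
    field_simp
  | succ i ih =>
    have hni : (n (i + 1) : ℝ) = k i * n i := by rw [hn i]; push_cast; ring
    change hit ξ (JK (J i) (BlkK (k i) (tree J k (BlkK (n 0) Pt) i)) t) {v} ≤
      _ * ((J i t).bind (chain J i)).E _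
    rw [hit_JK, FD.E_bind, ← FD.E_mul_left]
    refine (J i t).E_mono (fun s _ => ?_)
    refine (hit_Blk_le ξ _ _ _).trans ?_
    refine (mul_le_mul_of_nonneg_left (ih s) (Nat.cast_nonneg _)).trans (le_of_eq ?_)
    rw [hni]; ring

theorem hit_tree_mono (ξ : ℕ → G) (J : ℕ → ℕ → FD ℕ) (k : ℕ → ℕ) {κ κ' : Ker} (B : Finset G)
    (h : ∀ t, hit ξ (κ t) B ≤ hit ξ (κ' t) B) (i t : ℕ) :
    hit ξ (tree J k κ i t) B ≤ hit ξ (tree J k κ' i t) B := by
  induction i generalizing t with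
  | zero => exact h t
  | succ i ih =>
    change hit ξ (JK (J i) (BlkK (k i) (tree J k κ i)) t) B ≤
      hit ξ (JK (J i) (BlkK (k i) (tree J k κ' i)) t) B
    rw [hit_JK, hit_JK]
    exact (J i t).E_mono (fun s _ => hit_Blk_mono ξ (k i) (ih s))

end

theorem jumpIn_chain (J : ℕ → ℕ → FD ℕ) (Gs : ℕ → ℕ) (i : ℕ) (h : ∀ l < i, JumpIn (J l) (Gs l)) :
    JumpIn (chain J i) (∑ l ∈ range i, Gs l) := by
  induction i with
  | zero =>
    intro t s hs
    have := FD.eq_of_mem_supp_pure (a := t) hs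
    omega
  | succ i ih =>
    intro t s hs
    obtain ⟨a, ha, hs'⟩ := FD.mem_supp_bind.1 (show s ∈ ((J i t).bind (chain J i)).supp from hs)
    have h1 := h i (Nat.lt_succ_self i) t a ha
    have h2 := ih (fun l hl => h l (Nat.lt_succ_of_lt hl)) a s hs'
    rw [sum_range_succ]
    omega

theorem E_Unif_le_window {G Sp : ℕ} (hG : 0 < G) (t τ : ℕ) (f : ℕ → ℝ)
    (hf : ∀ s, f s ≤ ind (s ≤ τ ∧ τ ≤ s + Sp)) : (Unif G t).E f ≤ ((Sp : ℝ) + 1) / G := by
  rw [E_Unif hG]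
  refine div_le_div_of_nonneg_right ?_ (Nat.cast_nonneg _)
  refine (sum_le_sum (fun s _ => hf s)).trans ?_
  rw [sum_ind_eq_card]
  have h1 : (Icc (τ - Sp) τ).card ≤ Sp + 1 := by rw [Nat.card_Icc]; omega
  have h2 : ((Icc (τ - Sp) τ).card : ℝ) ≤ (Sp : ℝ) + 1 := by exact_mod_cast h1
  refine le_trans ?_ h2
  refine Nat.cast_le.2 (card_le_card (fun s hs => ?_))
  simp only [mem_filter] at hs
  rw [mem_Icc]; omega

/-- After a uniform jump no time is likely (only base times in `[τ - Sp, τ]` can reach `τ`). -/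
theorem w_unif_bind_le {G Sp : ℕ} (hG : 0 < G) {R : ℕ → FD ℕ} (hR : JumpIn R Sp) (t τ : ℕ) :
    ((Unif G t).bind R).w τ ≤ ((Sp : ℝ) + 1) / G := by
  rw [FD.w_eq_E, FD.E_bind]
  refine E_Unif_le_window hG t τ _ (fun s => ?_)
  refine (R s).E_le_const (fun b hb => ind_mono (fun hbτ => ?_))
  have := hR s b hb
  omega

theorem atom_unif {G Sp : ℕ} (hG : 0 < G) {U : Ker} (hU : Span U Sp) :
    Atom (JK (Unif G) U) (((Sp : ℝ) + 1) / G) := by
  intro t τ
  rw [hit_JK]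
  refine E_Unif_le_window hG t τ _ (fun s => ?_)
  refine (U s).E_le_const (fun S hS => ind_mono ?_)
  rintro ⟨σ, hσ, hστ⟩
  have h1 := hU s S hS σ hσ
  have h2 : σ = τ := mem_singleton.1 hστ
  omega

theorem E_card_eq {κ : Ker} {Sp : ℕ} (h : Span κ Sp) (t : ℕ) :
    (κ t).E (fun S => (S.card : ℝ)) = ∑ τ ∈ Icc t (t + Sp), hit id (κ t) {τ} := by
  unfold hit
  rw [← FD.E_sum]
  refine (κ t).E_congr (fun S hS => ?_)
  rw [sum_ind_eq_card]
  congr 2
  ext τ
  simp only [mem_filter, mem_Icc]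
  constructor
  · intro hτ
    exact ⟨h t S hS τ hτ, τ, hτ, mem_singleton_self _⟩
  · rintro ⟨_, σ, hσ, hστ⟩
    have h2 : σ = τ := mem_singleton.1 hστ
    exact h2 ▸ hσ

theorem Good.jump {κ : Ker} {N Sp G : ℕ} {a θ : ℝ} (h : Good κ N Sp a θ) {J : ℕ → FD ℕ}
    (hJ : JumpIn J G) : Good (JK J κ) N (Sp + G) a θ := by
  refine ⟨fun t S hS => ?_, fun t S hS τ hτ => ?_, fun t τ => ?_, fun t => ?_⟩
  · obtain ⟨s, _, hS'⟩ := FD.mem_supp_bind.1 (show S ∈ ((J t).bind κ).supp from hS)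
    exact h.size s S hS'
  · obtain ⟨s, hs, hS'⟩ := FD.mem_supp_bind.1 (show S ∈ ((J t).bind κ).supp from hS)
    have h1 := h.span s S hS' τ hτ
    have h2 := hJ t s hs
    omega
  · rw [hit_JK]
    exact (J t).E_le_const (fun s _ => h.atom s τ)
  · change _ ≤ ((J t).bind κ).E _
    rw [FD.E_bind]
    exact (J t).const_le_E (fun s _ => h.mass s)

theorem Good.blk {κ : Ker} {N Sp : ℕ} {a θ ε : ℝ} (h : Good κ N Sp a θ) (k : ℕ) (hθ : θ ≤ 1)
    (hε : (k * N : ℕ) * a ≤ ε) (hε1 : ε ≤ 1) : Good (BlkK k κ) (k * N) Sp a (θ - ε) := by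
  have hspan : Span (BlkK k κ) Sp := by
    intro t S hS τ hτ
    obtain ⟨x, hx, rfl⟩ := mem_supp_Blk.1 (show S ∈ (Blk k (κ t)).supp from hS)
    obtain ⟨i, _, hi⟩ := mem_biUnion.1 hτ
    exact h.span t (x i) (hx i) τ hi
  have hk0 : (0 : ℝ) ≤ k := Nat.cast_nonneg k
  have hN0 : (0 : ℝ) ≤ N := Nat.cast_nonneg N
  have hNa : 0 ≤ (N : ℝ) * a := (hit_nonneg id (κ 0) {0}).trans (h.atom 0 0)
  have hε' : (k : ℝ) * (N * a) ≤ ε := by
    refine le_trans (le_of_eq ?_) hε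
    push_cast; ring
  have hε0 : 0 ≤ ε := (mul_nonneg hk0 hNa).trans hε'
  refine ⟨fun t S hS => ?_, hspan, fun t τ => ?_, fun t => ?_⟩
  · obtain ⟨x, hx, rfl⟩ := mem_supp_Blk.1 (show S ∈ (Blk k (κ t)).supp from hS)
    refine card_biUnion_le.trans ?_
    have := sum_le_card_nsmul univ (fun i => (x i).card) N (fun i _ => h.size t (x i) (hx i))
    simpa using this
  · refine (hit_Blk_le id k (κ t) {τ}).trans ?_
    refine (mul_le_mul_of_nonneg_left (h.atom t τ) hk0).trans (le_of_eq ?_)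
    push_cast; ring
  · rw [E_card_eq hspan]
    have h1 : ∀ τ, (1 - ε) * (k * hit id (κ t) {τ}) ≤ hit id (BlkK k κ t) {τ} := fun τ =>
      cert_blk id k (κ t) {τ} (hit_nonneg _ _ _) le_rfl
        ((mul_le_mul_of_nonneg_left (h.atom t τ) hk0).trans hε')
    refine le_trans ?_ (sum_le_sum (fun τ _ => h1 τ))
    rw [← mul_sum, ← mul_sum, ← E_card_eq h.span]
    have h2 := h.mass t
    have h3 : (1 - ε) * (k * (θ * N)) ≤ (1 - ε) * (k * (κ t).E (fun S => (S.card : ℝ))) :=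
      mul_le_mul_of_nonneg_left (mul_le_mul_of_nonneg_left h2 hk0) (by linarith)
    refine le_trans ?_ h3
    have h4 : 0 ≤ ε * (1 - θ) * (k * N) :=
      mul_nonneg (mul_nonneg hε0 (by linarith)) (mul_nonneg hk0 hN0)
    push_cast
    nlinarith

theorem Good.mono {κ : Ker} {N Sp Sp' : ℕ} {a θ θ' : ℝ} (h : Good κ N Sp a θ) (hs : Sp ≤ Sp')
    (hθ : θ' ≤ θ) : Good κ N Sp' a θ' := by
  refine ⟨h.size, fun t S hS τ hτ => ?_, h.atom, fun t => ?_⟩
  · have := h.span t S hS τ hτ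
    omega
  · exact (mul_le_mul_of_nonneg_right hθ (Nat.cast_nonneg _)).trans (h.mass t)

theorem good_tree {κ : Ker} {Sp : ℕ} {a θ ε : ℝ} (J : ℕ → ℕ → FD ℕ) (k n Gs : ℕ → ℕ)
    (h : Good κ (n 0) Sp a θ) (hn : ∀ i, n (i + 1) = k i * n i) (hθ : θ ≤ 1) (hε0 : 0 ≤ ε) (hε1 : ε ≤ 1)
    (i : ℕ) (hJ : ∀ l < i, JumpIn (J l) (Gs l)) (hε : ∀ l ≤ i, (n l : ℝ) * a ≤ ε) :
    Good (tree J k κ i) (n i) (Sp + ∑ l ∈ range i, Gs l) a (θ - i * ε) := by
  induction i with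
  | zero => simpa [tree] using h
  | succ i ih =>
    have h1 := ih (fun l hl => hJ l (Nat.lt_succ_of_lt hl)) (fun l hl => hε l (Nat.le_succ_of_le hl))
    have h2 : θ - i * ε ≤ 1 := by
      have : 0 ≤ (i : ℝ) * ε := mul_nonneg (Nat.cast_nonneg _) hε0
      linarith
    have h3 := (h1.blk (k i) h2 (by rw [← hn i]; exact hε (i + 1) le_rfl) hε1).jump
      (hJ i (Nat.lt_succ_self i))
    rw [← hn i] at h3
    have e1 : Sp + ∑ l ∈ range (i + 1), Gs l = Sp + ∑ l ∈ range i, Gs l + Gs i := by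
      rw [sum_range_succ, add_assoc]
    have e2 : θ - ((i + 1 : ℕ) : ℝ) * ε = θ - i * ε - ε := by push_cast; ring
    rw [e1, e2]
    exact h3

theorem good_scales {V : Ker} {N Sp : ℕ} {a θ ε : ℝ} (A : ℕ) (hA : 1 ≤ A) (h : Good V N Sp a θ)
    (ha : 0 ≤ a) (hθ : θ ≤ 1) (hε1 : ε ≤ 1) (s : ℕ) (hε : (A ^ s * N : ℕ) * a ≤ ε) :
    Good (scales A V s) (A ^ s * N) Sp a (θ - s * ε) := by
  have hε0 : 0 ≤ ε := (mul_nonneg (Nat.cast_nonneg _) ha).trans hε
  induction s with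
  | zero => simpa [scales] using h
  | succ s ih =>
    have e0 : A ^ (s + 1) * N = A * (A ^ s * N) := by ring
    have hle : ((A ^ s * N : ℕ) : ℝ) ≤ (A ^ (s + 1) * N : ℕ) := by
      rw [e0]; exact_mod_cast Nat.le_mul_of_pos_left _ hA
    have h1 := ih ((mul_le_mul_of_nonneg_right hle ha).trans hε)
    have h2 : θ - s * ε ≤ 1 := by
      have : 0 ≤ (s : ℝ) * ε := mul_nonneg (Nat.cast_nonneg _) hε0
      linarith
    have h3 := h1.blk A h2 (by rw [← e0]; exact hε) hε1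
    have e2 : θ - ((s + 1 : ℕ) : ℝ) * ε = θ - s * ε - ε := by push_cast; ring
    rw [e0, e2]
    exact h3

end Crest.Agent.R2
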