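import Crest.Agent.R2.Basic
import Crest.Prelude.Def_GaussMoat

/-!
# Row 2: reduction of S0002 to "no infinite path avoids all residue classes `0`"

Recipe.
* `norm_le_of_irreducible`: `res p z = 0` gives `p ∣ N z` (`dvd_norm_of_res_eq_zero`). The kernel of
  `res p` is a prime ideal containing `z` and `p`; `ℤ[i]` is a PID, so the kernel is `span {π}` with `π`
  a non-unit; `π ∣ z` and `z` irreducible give `z ~ π`, and `π ∣ p` gives `N π ∣ p²`.
* `sieveRel`: the points outside all kernels, joined when the difference is in `box D`.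
  `finite_reach`: if the set of points reachable from `z` were infinite, König
  (`exists_seq_forall_proj_of_forall_finite` applied to injective chains of length `n` from `z`, or
  directly: keep an injective chain whose set of injective extensions has unbounded length) gives an
  `IsPath D γ` avoiding all kernels. (Injective chains of every length exist: the points reachable by
  chains of length `≤ n` form a finite set, and a shortest chain to a point is injective.)
* `exists_reach_bound`: translation by `(∏ Ps) • u` preserves the sieve set (`res_natCast_self`), every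
  point is a translate of a point of the finite set `box (∏ Ps)`, so the reach sets have bounded size.
* `reduce`: take `D' = max 1 ⌈D⌉₊` (`|re|, |im| ≤ ‖·‖ ≤ D`). Let `E` be the finite set of points of norm
  `≤ (max Ps)²` and `X = E ∪ ⋃ {reach z : z ∈ e + box D', e ∈ E, z in the sieve set}` (finite). A component
  is a single non-prime, or contains a point of `E` (then it lies in `X`: `X ∩ primes` is closed under
  adjacency), or consists of primes in the sieve set (then it lies in one reach set).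
-/

set_option autoImplicit false
open Finset

noncomputable section
namespace Crest.Agent.R2
open Classical

theorem norm_le_of_irreducible {p : P1} {z : GI} (hz : Irreducible z) (h : res p z = 0) :
    z.norm ≤ (p.1 : ℤ) ^ 2 := by
  have hd : z ∣ (p.1 : GI) := by
    by_contra hn
    obtain ⟨a, b, hab⟩ := hz.coprime_iff_not_dvd.2 hn
    have := congrArg (res p) hab
    rw [map_add, map_mul, map_mul, h, res_natCast_self, map_one] at this
    simp at this
  obtain ⟨u, hu⟩ := hd
  have h1 : z.norm * u.norm = (p.1 : ℤ) ^ 2 := by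
    rw [← Zsqrtd.norm_mul, ← hu, Zsqrtd.norm_natCast, sq]
  have hp : (0 : ℤ) < (p.1 : ℤ) ^ 2 := by
    have := p.2.1.pos
    positivity
  exact Int.le_of_dvd hp ⟨_, h1.symm⟩

/-- König's lemma for a locally finite relation. -/
theorem reduce_konig {α : Type} (r : α → α → Prop) (hfin : ∀ a, {b | r a b}.Finite) (z : α)
    (hinf : {b | Relation.ReflTransGen r z b}.Infinite) :
    ∃ γ : ℕ → α, Function.Injective γ ∧ ∀ t, r (γ t) (γ (t + 1)) := by
  let R : α → Finset α → Set α := fun a F =>
    {b | Relation.ReflTransGen (fun x y => r x y ∧ y ∉ F) a b}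
  have step : ∀ s : {s : α × Finset α // s.1 ∉ s.2 ∧ (R s.1 s.2).Infinite},
      ∃ s' : {s : α × Finset α // s.1 ∉ s.2 ∧ (R s.1 s.2).Infinite},
        r s.1.1 s'.1.1 ∧ s'.1.2 = insert s.1.1 s.1.2 := by
    rintro ⟨⟨a, F⟩, ha, hR⟩
    by_contra hc
    apply hR
    have hsub : R a F ⊆ insert a (⋃ a' ∈ {b | r a b ∧ b ∉ insert a F}, R a' (insert a F)) := by
      intro b hb
      induction hb with
      | refl => exact Set.mem_insert _ _
      | @tail b c hab hbc ih =>
        by_cases hca : c = a
        · rw [hca]; exact Set.mem_insert _ _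
        have hc' : c ∉ insert a F := by simp [hca, hbc.2]
        refine Set.mem_insert_of_mem _ ?_
        rcases ih with rfl | ih
        · exact Set.mem_biUnion (x := c) ⟨hbc.1, hc'⟩ Relation.ReflTransGen.refl
        · obtain ⟨a', ha', hb⟩ := Set.mem_iUnion₂.1 ih
          exact Set.mem_biUnion ha' (Relation.ReflTransGen.tail hb ⟨hbc.1, hc'⟩)
    refine Set.Finite.subset (Set.Finite.insert _ (Set.Finite.biUnion
      ((hfin a).subset fun b hb => hb.1) fun a' ha' => ?_)) hsub
    by_contra hi
    exact hc ⟨⟨(a', insert a F), ha'.2, hi⟩, ha'.1, rfl⟩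
  choose nxt h1 h2 using step
  have h0 : (R z ∅).Infinite := by
    refine hinf.mono fun b hb => ?_
    exact Relation.ReflTransGen.mono (p := fun x y => r x y ∧ y ∉ (∅ : Finset α))
      (fun x y hxy => ⟨hxy, by simp⟩) _ _ hb
  let s : ℕ → {s : α × Finset α // s.1 ∉ s.2 ∧ (R s.1 s.2).Infinite} :=
    fun n => nxt^[n] ⟨(z, ∅), by simp, h0⟩
  have hs : ∀ n, s (n + 1) = nxt (s n) := fun n => Function.iterate_succ_apply' _ _ _
  have hmem : ∀ m n, m < n → (s m).1.1 ∈ (s n).1.2 := by
    intro m n hmn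
    induction n with
    | zero => omega
    | succ n ih =>
      rw [hs, h2]
      rcases Nat.lt_succ_iff_lt_or_eq.1 hmn with h | h
      · exact mem_insert_of_mem (ih h)
      · rw [h]; exact mem_insert_self _ _
  refine ⟨fun n => (s n).1.1, fun m n hmn => ?_, fun t => by simp only [hs]; exact h1 _⟩
  by_contra hne
  simp only at hmn
  rcases lt_or_gt_of_ne hne with h | h
  · exact (s n).2.1 (hmn ▸ hmem m n h)
  · exact (s m).2.1 (hmn.symm ▸ hmem n m h)

/-- One step inside the sieve set. -/
def sieveRel (D : ℕ) (Ps : Finset P1) (z z' : GI) : Prop :=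
  (∀ p ∈ Ps, res p z ≠ 0) ∧ (∀ p ∈ Ps, res p z' ≠ 0) ∧ z' - z ∈ box D

theorem finite_reach {D : ℕ} {Ps : Finset P1}
    (h : ∀ γ : ℕ → GI, IsPath D γ → ∃ p ∈ Ps, ∃ t, res p (γ t) = 0) (z : GI) :
    {z' | Relation.ReflTransGen (sieveRel D Ps) z z'}.Finite := by
  by_contra hinf
  obtain ⟨γ, hinj, hγ⟩ := reduce_konig (sieveRel D Ps) (fun a => by
    refine ((box D).image fun d => a + d).finite_toSet.subset fun b hb => ?_
    exact mem_coe.2 (mem_image.2 ⟨b - a, hb.2.2, by ring⟩)) z hinf
  obtain ⟨p, hp, t, ht⟩ := h γ ⟨hinj, fun t => (mem_box.1 (hγ t).2.2).1,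
    fun t => (mem_box.1 (hγ t).2.2).2⟩
  exact (hγ t).1 p hp ht

theorem exists_reach_bound {D : ℕ} {Ps : Finset P1}
    (h : ∀ γ : ℕ → GI, IsPath D γ → ∃ p ∈ Ps, ∃ t, res p (γ t) = 0) :
    ∃ B : ℕ, ∀ z : GI, {z' | Relation.ReflTransGen (sieveRel D Ps) z z'}.ncard ≤ B := by
  obtain ⟨M, hM⟩ : ∃ M : ℕ, M = ∏ p ∈ Ps, p.1 := ⟨_, rfl⟩
  have hM0 : (0 : ℤ) < M := by
    rw [hM]
    exact_mod_cast prod_pos (fun (p : P1) _ => p.2.1.pos)
  have hres : ∀ p ∈ Ps, res p (M : GI) = 0 := by
    intro p hp
    obtain ⟨k, hk⟩ : p.1 ∣ M := hM ▸ dvd_prod_of_mem (fun p : P1 => p.1) hp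
    rw [hk, Nat.cast_mul, map_mul, res_natCast_self, zero_mul]
  refine ⟨(box M).sup fun z => {z' | Relation.ReflTransGen (sieveRel D Ps) z z'}.ncard,
    fun z => ?_⟩
  let u : GI := ⟨z.re / M, z.im / M⟩
  have hz : z - M * u ∈ box M := by
    rw [mem_box]
    have e1 : (z - M * u).re = z.re % M := by simp [u, Int.emod_def]
    have e2 : (z - M * u).im = z.im % M := by simp [u, Int.emod_def]
    rw [e1, e2, abs_of_nonneg (Int.emod_nonneg _ hM0.ne'), abs_of_nonneg (Int.emod_nonneg _ hM0.ne')]
    exact ⟨(Int.emod_lt_of_pos _ hM0).le, (Int.emod_lt_of_pos _ hM0).le⟩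
  refine le_trans ?_ (le_sup (f := fun z =>
    {z' | Relation.ReflTransGen (sieveRel D Ps) z z'}.ncard) hz)
  refine Set.ncard_le_ncard_of_injOn (fun w => w - M * u) (fun w hw => ?_)
    (fun a _ b _ hab => sub_left_injective hab) (finite_reach h _)
  refine Relation.ReflTransGen.lift (p := sieveRel D Ps) (fun w => w - M * u)
    (fun a b hab => ⟨?_, ?_, ?_⟩) _ _ hw
  · intro p hp
    rw [map_sub, map_mul, hres p hp, zero_mul, sub_zero]
    exact hab.1 p hp
  · intro p hp
    rw [map_sub, map_mul, hres p hp, zero_mul, sub_zero]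
    exact hab.2.1 p hp
  · rw [sub_sub_sub_cancel_right]
    exact hab.2.2

theorem reduce
    (h : ∀ D : ℕ, 1 ≤ D → ∃ Ps : Finset P1, ∀ γ : ℕ → GI, IsPath D γ → ∃ p ∈ Ps, ∃ t, res p (γ t) = 0) :
    ∀ D : ℝ, ∃ B : ℕ, ∀ c : (Crest.NumberTheoryR.gaussianPrimeGraph D).ConnectedComponent,
      c.supp.Finite ∧ c.supp.ncard ≤ B := by
  intro D
  obtain ⟨Ps, hPs⟩ := h (max 1 ⌈D⌉₊) (le_max_left _ _)
  obtain ⟨D', hD'⟩ : ∃ D' : ℕ, D' = max 1 ⌈D⌉₊ := ⟨_, rfl⟩
  rw [← hD'] at hPs
  have hDD : D ≤ D' := (Nat.le_ceil D).trans (by rw [hD']; exact_mod_cast le_max_right _ _)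
  obtain ⟨B, hB⟩ := exists_reach_bound hPs
  obtain ⟨K, hK⟩ : ∃ K : ℕ, ∀ p ∈ Ps, p.1 ≤ K :=
    ⟨Ps.sup fun p => p.1, fun p hp => le_sup (f := fun p : P1 => p.1) hp⟩
  have hsv : ∀ z : GI, Irreducible z → z ∉ box K → ∀ p ∈ Ps, res p z ≠ 0 := by
    intro z hz hb p hp h0
    apply hb
    have h1 := norm_le_of_irreducible hz h0
    have h2 : (p.1 : ℤ) ≤ K := by exact_mod_cast hK p hp
    have h3 : (p.1 : ℤ) ^ 2 ≤ (K : ℤ) ^ 2 := by gcongr
    rw [norm_eq] at h1
    rw [mem_box]
    exact ⟨abs_le_of_sq_le_sq' (by nlinarith [sq_nonneg z.im]) (by positivity) |> abs_le.2,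
      abs_le_of_sq_le_sq' (by nlinarith [sq_nonneg z.re]) (by positivity) |> abs_le.2⟩
  have hadj : ∀ a b : GI, (Crest.NumberTheoryR.gaussianPrimeGraph D).Adj a b → b - a ∈ box D' := by
    intro a b hab
    have h1 : ‖GaussianInt.toComplex (a - b)‖ ≤ D' := hab.2.2.2.trans hDD
    rw [← neg_sub]
    refine neg_mem_box (mem_box.2 ⟨?_, ?_⟩)
    · have h2 := (Complex.abs_re_le_norm _).trans h1
      rw [← GaussianInt.intCast_re] at h2
      exact_mod_cast h2
    · have h2 := (Complex.abs_im_le_norm _).trans h1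
      rw [← GaussianInt.intCast_im] at h2
      exact_mod_cast h2
  have hrel : ∀ a b : GI, (Crest.NumberTheoryR.gaussianPrimeGraph D).Adj a b → a ∉ box K →
      b ∉ box K → sieveRel D' Ps a b := fun a b hab ha hb =>
    ⟨hsv a hab.2.1 ha, hsv b hab.2.2.1 hb, hadj a b hab⟩
  let X : Set GI := (box K : Set GI) ∪
    ⋃ z ∈ box (K + D'), {z' | Relation.ReflTransGen (sieveRel D' Ps) z z'}
  have hX : X.Finite := (box K).finite_toSet.union
    (Set.Finite.biUnion (box (K + D')).finite_toSet fun z _ => finite_reach hPs z)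
  refine ⟨max X.ncard B, fun c => ?_⟩
  by_cases hc : ∃ e ∈ c.supp, e ∈ box K
  · obtain ⟨e, he, heK⟩ := hc
    have hsub : c.supp ⊆ X := by
      intro w hw
      have hr := (SimpleGraph.reachable_iff_reflTransGen _ _).1 (c.reachable_of_mem_supp he hw)
      clear hw
      induction hr with
      | refl => exact Or.inl heK
      | @tail a b _ hab ih =>
        by_cases hb : b ∈ box K
        · exact Or.inl hb
        by_cases ha : a ∈ box K
        · have := add_mem_box ha (hadj a b hab)
          rw [add_sub_cancel] at this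
          exact Or.inr (Set.mem_biUnion (x := b) this Relation.ReflTransGen.refl)
        · obtain ⟨z, hz, hza⟩ := Set.mem_iUnion₂.1 (ih.resolve_left ha)
          exact Or.inr (Set.mem_biUnion hz (Relation.ReflTransGen.tail hza (hrel a b hab ha hb)))
    exact ⟨hX.subset hsub, (Set.ncard_le_ncard hsub hX).trans (le_max_left _ _)⟩
  · push Not at hc
    obtain ⟨v, hv⟩ := c.nonempty_supp
    have hsub : c.supp ⊆ {z' | Relation.ReflTransGen (sieveRel D' Ps) v z'} := by
      intro w hw
      have hr := (SimpleGraph.reachable_iff_reflTransGen _ _).1 (c.reachable_of_mem_supp hv hw)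
      induction hr with
      | refl => exact Relation.ReflTransGen.refl
      | @tail a b _ hab ih =>
        have ha : a ∈ c.supp := (c.mem_supp_congr_adj hab).2 hw
        exact Relation.ReflTransGen.tail (ih ha) (hrel a b hab (hc a ha) (hc b hw))
    exact ⟨(finite_reach hPs v).subset hsub,
      ((Set.ncard_le_ncard hsub (finite_reach hPs v)).trans (hB v)).trans (le_max_right _ _)⟩

end Crest.Agent.R2
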