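import Crest.Agent.R2.Range
import Crest.Agent.R2.Reduce

/-!
# Row 2: iteration of the ranges
-/

set_option autoImplicit false
open Finset Filter

noncomputable section
namespace Crest.Agent.R2
open Classical

/-- The starting points of the successive ranges. -/
def ys (y₀ : ℕ) : ℕ → ℕ
  | 0 => y₀
  | k + 1 => 2 ^ (ys y₀ k ^ 2)

theorem two_mul_le_two_pow_sq {y : ℕ} (hy : 1 ≤ y) : 2 * y ≤ 2 ^ (y ^ 2) := by
  have h1 : y ≤ y ^ 2 := by nlinarith
  have h2 : y - 1 < 2 ^ (y - 1) := Nat.lt_two_pow_self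
  calc 2 * y ≤ 2 * 2 ^ (y - 1) := by omega
    _ = 2 ^ y := by rw [← pow_succ']; congr 1; omega
    _ ≤ 2 ^ (y ^ 2) := Nat.pow_le_pow_right (by norm_num) h1

theorem le_ys {y₀ : ℕ} (h : 1 ≤ y₀) (k : ℕ) : y₀ ≤ ys y₀ k := by
  induction k with
  | zero => exact le_rfl
  | succ k ih =>
    have := two_mul_le_two_pow_sq (h.trans ih)
    show y₀ ≤ 2 ^ (ys y₀ k ^ 2)
    omega

theorem state_zero (γ : ℕ → GI) : State γ (fun t => FD.pure {t}) 1 0 0 1 0 where
  pos := le_rfl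
  size t S hS := by rw [FD.eq_of_mem_supp_pure hS]; simp
  span t S hS τ hτ := by
    rw [FD.eq_of_mem_supp_pure hS, mem_singleton] at hτ
    omega
  mass t := by simp
  code ρ G _ := by simpa using code_pure γ _

theorem no_path (D : ℕ) (hD : 1 ≤ D) :
    ∃ Ps : Finset P1, ∀ γ : ℕ → GI, IsPath D γ → ∃ p ∈ Ps, ∃ t, res p (γ t) = 0 := by
  obtain ⟨y₁, hy₁⟩ := eventually_atTop.1 (range_step D hD)
  set y₀ := max y₁ (10 ^ 9) with hy₀
  have hy₀1 : 10 ^ 9 ≤ y₀ := le_max_right _ _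
  have hys : ∀ k, 10 ^ 9 ≤ ys y₀ k := fun k => hy₀1.trans (le_ys (by omega) k)
  have hys1 : ∀ k, y₁ ≤ ys y₀ k := fun k => (le_max_left _ _).trans (le_ys (by omega) k)
  obtain ⟨K, hK⟩ := exists_nat_gt (30 * Real.log y₀ * (2 * 10 ^ 7))
  refine ⟨(range (K + 1)).biUnion (fun k => fam (ys y₀ k)), fun γ hγ => ?_⟩
  by_contra hcon
  push Not at hcon
  have hav : ∀ k ≤ K, ∀ p ∈ fam (ys y₀ k), ∀ t, res p (γ t) ≠ 0 := fun k hk p hp =>
    hcon p (mem_biUnion.2 ⟨k, mem_range.2 (by omega), hp⟩)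
  have key : ∀ k ≤ K, ∃ (U : Ker) (N : ℕ) (θ h : ℝ), ys y₀ k ^ 3 ≤ N ∧ N ≤ ys y₀ k ^ 5 ∧
      State γ U N (2 ^ ys y₀ k) (2 ^ (ys y₀ k ^ 2)) θ h ∧ 0.995 + 1 / (ys y₀ k : ℝ) ≤ θ ∧
      h ≤ 30 * Real.log y₀ - (k + 1) / (2 * 10 ^ 7) := by
    intro k
    induction k with
    | zero =>
      intro hk
      have hy : (10 : ℝ) ^ 9 ≤ y₀ := by exact_mod_cast hy₀1
      have hl : 1 ≤ Real.log y₀ := by
        rw [Real.le_log_iff_exp_le (by linarith)]
        linarith [Real.exp_one_lt_d9]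
      obtain ⟨U', N', h1, h2, h3⟩ := hy₁ (ys y₀ 0) (hys1 0) γ hγ (hav 0 hk) _ 1 0 0 1 0 (state_zero γ)
        (by simpa [ys] using one_le_pow₀ hl) (by simp) (by simp) (by norm_num)
      refine ⟨U', N', _, _, h1, h2, h3, ?_, ?_⟩
      · show 0.995 + 1 / (y₀ : ℝ) ≤ 1 - 1 / (y₀ : ℝ)
        have : 1 / (y₀ : ℝ) ≤ 1 / 10 ^ 9 := one_div_le_one_div_of_le (by norm_num) hy
        linarith
      · simp only [ys]; norm_num; linarith
    | succ k ih =>
      intro hk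
      obtain ⟨U, N, θ, h, h1, h2, h3, h4, h5⟩ := ih (by omega)
      set y := ys y₀ k with hy
      have hy9 : 10 ^ 9 ≤ y := hys k
      have hyR : (10 : ℝ) ^ 9 ≤ y := by exact_mod_cast hy9
      have hy' : ys y₀ (k + 1) = 2 ^ (y ^ 2) := rfl
      have hlog : Real.log (ys y₀ (k + 1) : ℝ) = (y : ℝ) ^ 2 * Real.log 2 := by
        rw [hy']; push_cast; rw [Real.log_pow]; push_cast; ring
      have hl2 := Real.log_two_gt_d9
      have hl2' := Real.log_two_lt_d9
      have hN1 : (y : ℝ) ^ 3 ≤ N := by exact_mod_cast h1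
      have hN2 : (N : ℝ) ≤ (y : ℝ) ^ 5 := by exact_mod_cast h2
      have hy0 : (0 : ℝ) < y := by linarith
      have h2y : 2 * (y : ℝ) ≤ (ys y₀ (k + 1) : ℝ) := by
        rw [hy']; exact_mod_cast two_mul_le_two_pow_sq (by omega)
      obtain ⟨U', N', g1, g2, g3⟩ := hy₁ (ys y₀ (k + 1)) (hys1 _) γ hγ (hav _ hk) U N _ _ θ h h3
        (by
          rw [hlog]
          refine hN2.trans ?_
          have : (1 : ℝ) ≤ y * Real.log 2 ^ 3 := by
            have : (1 / 2 : ℝ) ^ 3 ≤ Real.log 2 ^ 3 := pow_le_pow_left₀ (by norm_num) (by linarith) 3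
            nlinarith
          calc (y : ℝ) ^ 5 = y ^ 5 * 1 := by ring
            _ ≤ y ^ 5 * (y * Real.log 2 ^ 3) := by gcongr
            _ = _ := by ring)
        (by
          rw [hy', ← pow_mul]
          exact Nat.pow_le_pow_right (by norm_num) (by nlinarith))
        (by rw [hy']; exact Nat.le_self_pow (by norm_num) _)
        (by have : 0 < 1 / (y : ℝ) := by positivity
            linarith)
      refine ⟨U', N', _, _, g1, g2, g3, ?_, ?_⟩
      · have : 1 / (ys y₀ (k + 1) : ℝ) ≤ 1 / (2 * y) := one_div_le_one_div_of_le (by linarith) h2y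
        have e : 1 / (2 * (y : ℝ)) = 1 / y / 2 := by field_simp
        linarith
      · have : 30 * Real.log (ys y₀ (k + 1) : ℝ) / N ≤ 1 / (2 * 10 ^ 7) := by
          rw [hlog, div_le_iff₀ (by nlinarith [pow_pos hy0 3])]
          have : 30 * ((y : ℝ) ^ 2 * Real.log 2) ≤ 1 / (2 * 10 ^ 7) * y ^ 3 := by
            have h6 : 0 < (y : ℝ) ^ 2 := by positivity
            have : (y : ℝ) ^ 3 = y ^ 2 * y := by ring
            rw [this]; nlinarith
          linarith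
        push_cast
        have e : ((k : ℝ) + 1 + 1) / (2 * 10 ^ 7) = (k + 1) / (2 * 10 ^ 7) + 1 / (2 * 10 ^ 7) := by ring
        linarith
  obtain ⟨U, N, θ, h, h1, -, h3, -, h5⟩ := key K le_rfl
  have h6 := (h3.code (FD.pure 0) _ le_rfl).nonneg
  have hN : (0 : ℝ) < N := by exact_mod_cast h3.pos
  have h7 : h < 0 := by
    have : 30 * Real.log y₀ < K / (2 * 10 ^ 7) := by rw [lt_div_iff₀ (by norm_num)]; exact hK
    have e : ((K : ℝ) + 1) / (2 * 10 ^ 7) = K / (2 * 10 ^ 7) + 1 / (2 * 10 ^ 7) := by ring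
    linarith
  nlinarith

theorem moat : ∀ D : ℝ, ∃ B : ℕ, ∀ c : (Crest.NumberTheoryR.gaussianPrimeGraph D).ConnectedComponent,
    c.supp.Finite ∧ c.supp.ncard ≤ B := reduce no_path

end Crest.Agent.R2
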