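import Crest.Agent.R2.Basic
import Crest.Agent.R29.Primes

/-!
# Row 2: Mertens for primes `≡ 1 mod 4`

Recipe for `sum_chi_log_div_bound`. Let `χ = ZMod.χ₄` (as a real sequence `χ n`, completely
multiplicative, values `1, 0, -1, 0` for `n ≡ 1, 2, 3, 0`). Put `A u = ∑_{m ≤ u} χ m / m`; it is an
alternating sum, so `2/3 ≤ A u ≤ 1` for `u ≥ 1` and `|A u - A v| ≤ 2 / u` for `1 ≤ u ≤ v` (general lemma:
for antitone `a ≥ 0`, `|∑_{u < m ≤ v} χ m * a m| ≤ a (u+1)`; induction on `v` in steps, or Abel summation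
with `|∑_{m ≤ v} χ m| ≤ 1`). In the same way `|∑_{n ≤ x} χ n log n / n| ≤ C₁` (antitone from `n = 3`).
From `log n = ∑_{d ∣ n} Λ d` (`ArithmeticFunction.vonMangoldt_sum`):
`∑_{n ≤ x} χ n log n / n = ∑_{d ≤ x} χ d Λ d / d * A (x / d)`; replace `A (x / d)` by `A x`, the error is
`≤ ∑_{d ≤ x} Λ d / d * 2 / ⌊x / d⌋ ≤ 4 ψ x / x ≤ C₂` (`Chebyshev.psi_le_const_mul_self`, `⌊x/d⌋ ≥ x/(2d)`).
So `|∑_{d ≤ x} χ d Λ d / d| ≤ (C₁ + C₂) * 3 / 2`. Prime powers `p^k, k ≥ 2` contribute at most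
`∑_p log p / (p (p - 1)) ≤ C₃` (see `R29.primes_sum_term_le`; or avoid them by using
`log n = ∑_{p ∣ n} v_p(n) log p` directly).
`mertens_one_mod_four`: for odd primes `ind (p ≡ 1) = (1 + χ p) / 2`; use `R29.mertens_lower` at `b - 1`
and `R29.mertens_upper` at `a - 1` (or the `_nat` versions).
-/

set_option autoImplicit false
open Finset

noncomputable section
namespace Crest.Agent.R2
open Classical

/-- The character mod 4 as a real sequence. -/
def chi4 (n : ℕ) : ℝ := ((ZMod.χ₄ (n : ZMod 4) : ℤ) : ℝ)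

lemma chi4_eq (n : ℕ) : chi4 n = if n % 2 = 0 then 0 else if n % 4 = 1 then 1 else -1 := by
  unfold chi4
  rw [ZMod.χ₄_nat_eq_if_mod_four]
  split_ifs <;> simp

lemma chi4_mul (m n : ℕ) : chi4 (m * n) = chi4 m * chi4 n := by
  unfold chi4
  rw [Nat.cast_mul, map_mul, Int.cast_mul]

lemma abs_chi4_le (n : ℕ) : |chi4 n| ≤ 1 := by
  rw [chi4_eq]
  split_ifs <;> simp

lemma chi4_zero : chi4 0 = 0 := by rw [chi4_eq]; simp

lemma chi4_one : chi4 1 = 1 := by rw [chi4_eq]; simp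

lemma chi4_two : chi4 2 = 0 := by rw [chi4_eq]; simp

lemma sum_range_chi4 (v : ℕ) :
    ∑ m ∈ range v, chi4 m = if v % 4 = 2 ∨ v % 4 = 3 then 1 else 0 := by
  induction v with
  | zero => simp
  | succ v ih =>
    rw [sum_range_succ, ih, chi4_eq]
    have h : v % 4 = 0 ∨ v % 4 = 1 ∨ v % 4 = 2 ∨ v % 4 = 3 := by omega
    rcases h with h | h | h | h
    · rw [if_neg (by omega), if_pos (by omega), if_neg (by omega)]; simp
    · rw [if_neg (by omega), if_neg (by omega), if_pos (by omega), if_pos (by omega)]; simp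
    · rw [if_pos (by omega), if_pos (by omega), if_pos (by omega)]; simp
    · rw [if_pos (by omega), if_neg (by omega), if_neg (by omega), if_neg (by omega)]; simp

lemma abs_sum_range_chi4_sub (u v : ℕ) :
    |∑ m ∈ range v, chi4 m - ∑ m ∈ range u, chi4 m| ≤ 1 := by
  rw [sum_range_chi4, sum_range_chi4]
  split_ifs <;> simp

lemma chi4_abel_aux (a : ℕ → ℝ) (u : ℕ) (ha : ∀ m, u ≤ m → a (m + 1) ≤ a m) (v : ℕ)
    (huv : u ≤ v) :
    |∑ m ∈ Ico u v, chi4 m * a m -
      (∑ m ∈ range v, chi4 m - ∑ m ∈ range u, chi4 m) * a v| ≤ a u - a v := by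
  induction v, huv using Nat.le_induction with
  | base => simp
  | succ v huv ih =>
    have h1 := abs_sum_range_chi4_sub u (v + 1)
    have h2 := ha v huv
    have e : ∑ m ∈ Ico u (v + 1), chi4 m * a m -
        (∑ m ∈ range (v + 1), chi4 m - ∑ m ∈ range u, chi4 m) * a (v + 1) =
        (∑ m ∈ Ico u v, chi4 m * a m -
          (∑ m ∈ range v, chi4 m - ∑ m ∈ range u, chi4 m) * a v) +
        (∑ m ∈ range (v + 1), chi4 m - ∑ m ∈ range u, chi4 m) * (a v - a (v + 1)) := by
      rw [sum_Ico_succ_top huv, sum_range_succ]; ring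
    rw [e]
    refine (abs_add_le _ _).trans ?_
    have h3 : |(∑ m ∈ range (v + 1), chi4 m - ∑ m ∈ range u, chi4 m) * (a v - a (v + 1))| ≤
        a v - a (v + 1) := by
      rw [abs_mul, abs_of_nonneg (sub_nonneg.2 h2)]
      exact mul_le_of_le_one_left (sub_nonneg.2 h2) h1
    linarith

lemma chi4_abel (a : ℕ → ℝ) (u : ℕ) (ha : ∀ m, u ≤ m → a (m + 1) ≤ a m) (h0 : ∀ m, 0 ≤ a m)
    (v : ℕ) : |∑ m ∈ Ico u v, chi4 m * a m| ≤ a u := by
  rcases le_total u v with huv | huv
  · have h1 := chi4_abel_aux a u ha v huv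
    have h2 := abs_sum_range_chi4_sub u v
    have h3 : |(∑ m ∈ range v, chi4 m - ∑ m ∈ range u, chi4 m) * a v| ≤ a v := by
      rw [abs_mul, abs_of_nonneg (h0 v)]
      exact mul_le_of_le_one_left (h0 v) h2
    have h4 := abs_add_le (∑ m ∈ Ico u v, chi4 m * a m -
      (∑ m ∈ range v, chi4 m - ∑ m ∈ range u, chi4 m) * a v)
      ((∑ m ∈ range v, chi4 m - ∑ m ∈ range u, chi4 m) * a v)
    rw [sub_add_cancel] at h4
    linarith
  · rw [Ico_eq_empty_of_le huv]; simpa using h0 u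

/-- Partial sums of `L(1, χ)`. -/
def chiA (u : ℕ) : ℝ := ∑ m ∈ Ioc 0 u, chi4 m * (1 / (m : ℝ))

lemma chi4_inv_abel (u v : ℕ) (hu : 1 ≤ u) :
    |∑ m ∈ Ico u v, chi4 m * (1 / (m : ℝ))| ≤ 1 / (u : ℝ) := by
  refine chi4_abel (fun m => 1 / (m : ℝ)) u (fun m hm => ?_) (fun m => by positivity) v
  have : (0 : ℝ) < m := by exact_mod_cast (by omega : 0 < m)
  push_cast
  exact one_div_le_one_div_of_le this (by linarith)

lemma Ioc_eq_Ico_succ (u v : ℕ) : Ioc u v = Ico (u + 1) (v + 1) := by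
  ext m; simp only [mem_Ioc, mem_Ico]; omega

lemma chiA_sub (u v : ℕ) (huv : u ≤ v) : |chiA v - chiA u| ≤ 1 / ((u : ℝ) + 1) := by
  have e : chiA v - chiA u = ∑ m ∈ Ico (u + 1) (v + 1), chi4 m * (1 / (m : ℝ)) := by
    unfold chiA
    rw [← Ioc_eq_Ico_succ, ← sum_Ioc_consecutive _ (Nat.zero_le u) huv]; ring
  rw [e]
  have := chi4_inv_abel (u + 1) (v + 1) (by omega)
  exact_mod_cast this

lemma chiA_ge (u : ℕ) (hu : 1 ≤ u) : 1 / 2 ≤ chiA u := by
  have h := chiA_sub 1 u hu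
  have h1 : chiA 1 = 1 := by simp [chiA, chi4_one]
  rw [h1] at h
  have := (abs_le.1 h).1
  norm_num at this ⊢
  linarith

lemma chi4_log_bound (x : ℕ) : |∑ n ∈ Ioc 0 x, chi4 n * (Real.log n / n)| ≤ 1 := by
  have key : ∑ n ∈ Ioc 0 x, chi4 n * (Real.log n / n) =
      ∑ n ∈ Ico 3 (x + 1), chi4 n * (Real.log n / n) := by
    symm
    refine sum_subset (fun n hn => ?_) (fun n hn hn' => ?_)
    · simp only [mem_Ico, mem_Ioc] at hn ⊢; omega
    · simp only [mem_Ico, mem_Ioc] at hn hn'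
      have : n = 1 ∨ n = 2 := by omega
      rcases this with rfl | rfl
      · simp
      · rw [chi4_two]; simp
  rw [key]
  have h := chi4_abel (fun n => Real.log n / n) 3 (fun m hm => ?_)
    (fun m => div_nonneg (Real.log_natCast_nonneg m) (Nat.cast_nonneg m)) (x + 1)
  · refine h.trans ?_
    have : Real.log ((3 : ℕ) : ℝ) ≤ ((3 : ℕ) : ℝ) - 1 := Real.log_le_sub_one_of_pos (by norm_num)
    rw [div_le_one (by norm_num)]
    linarith
  · have h3 : Real.exp 1 ≤ (m : ℝ) := by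
      have h1 : (3 : ℝ) ≤ m := by exact_mod_cast hm
      have := Real.exp_one_lt_d9
      linarith
    refine Real.log_div_self_antitoneOn h3 ?_ (by push_cast; linarith)
    simp only [Set.mem_Ici]
    push_cast; linarith

open ArithmeticFunction in
lemma chi4_log_conv (x : ℕ) :
    ∑ n ∈ Ioc 0 x, chi4 n * (Real.log n / n) =
      ∑ d ∈ Ioc 0 x, chi4 d * (vonMangoldt d / d) * chiA (x / d) := by
  let f : ArithmeticFunction ℝ := ⟨fun d => chi4 d * (vonMangoldt d / d), by simp⟩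
  let g : ArithmeticFunction ℝ := ⟨fun m => chi4 m * (1 / (m : ℝ)), by simp⟩
  have h := sum_Ioc_mul_eq_sum_sum f g x
  have e : ∀ n ∈ Ioc 0 x, chi4 n * (Real.log n / n) = (f * g) n := by
    intro n hn
    rw [mul_apply, ← vonMangoldt_sum, ← Nat.sum_divisorsAntidiagonal (fun d _ => vonMangoldt d),
      sum_div, mul_sum]
    refine sum_congr rfl (fun y hy => ?_)
    obtain ⟨h1, h2⟩ := Nat.mem_divisorsAntidiagonal.1 hy
    have ha : (y.1 : ℝ) ≠ 0 := by
      have : y.1 ≠ 0 := fun h0 => h2 (by rw [← h1, h0, zero_mul])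
      exact_mod_cast this
    have hb : (y.2 : ℝ) ≠ 0 := by
      have : y.2 ≠ 0 := fun h0 => h2 (by rw [← h1, h0, mul_zero])
      exact_mod_cast this
    change chi4 n * (vonMangoldt y.1 / n) =
      chi4 y.1 * (vonMangoldt y.1 / y.1) * (chi4 y.2 * (1 / (y.2 : ℝ)))
    rw [← h1, chi4_mul]
    push_cast
    field_simp
  rw [sum_congr rfl e, h]
  rfl

open ArithmeticFunction in
lemma chi4_vm_bound (x : ℕ) :
    |∑ d ∈ Ioc 0 x, chi4 d * (vonMangoldt d / d)| ≤ 2 * (1 + (Real.log 4 + 4)) := by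
  have hl : 0 ≤ Real.log 4 := Real.log_nonneg (by norm_num)
  rcases Nat.eq_zero_or_pos x with rfl | hx
  · simp; positivity
  have hx' : (0 : ℝ) < x := by exact_mod_cast hx
  set S := ∑ d ∈ Ioc 0 x, chi4 d * (vonMangoldt d / d) with hS
  have e : S * chiA x = ∑ n ∈ Ioc 0 x, chi4 n * (Real.log n / n) +
      ∑ d ∈ Ioc 0 x, chi4 d * (vonMangoldt d / d) * (chiA x - chiA (x / d)) := by
    rw [chi4_log_conv, hS, sum_mul, ← sum_add_distrib]
    exact sum_congr rfl (fun d _ => by ring)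
  have herr : |∑ d ∈ Ioc 0 x, chi4 d * (vonMangoldt d / d) * (chiA x - chiA (x / d))| ≤
      Real.log 4 + 4 := by
    refine (abs_sum_le_sum_abs _ _).trans ?_
    have h1 : ∀ d ∈ Ioc 0 x, |chi4 d * (vonMangoldt d / d) * (chiA x - chiA (x / d))| ≤
        vonMangoldt d / x := by
      intro d hd
      obtain ⟨hd0, hdx⟩ := mem_Ioc.1 hd
      have hd' : (0 : ℝ) < d := by exact_mod_cast hd0
      have hv : 0 ≤ vonMangoldt d := vonMangoldt_nonneg
      have h2 := chiA_sub (x / d) x (Nat.div_le_self _ _)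
      have h3 : (x : ℝ) ≤ d * (((x / d : ℕ) : ℝ) + 1) := by
        have := Nat.lt_mul_div_succ x hd0
        exact_mod_cast this.le
      have h4 : 1 / (((x / d : ℕ) : ℝ) + 1) ≤ d / x := by
        rw [div_le_div_iff₀ (by positivity) hx']
        linarith
      rw [abs_mul, abs_mul, abs_of_nonneg (div_nonneg hv hd'.le)]
      calc |chi4 d| * (vonMangoldt d / d) * |chiA x - chiA (x / d)|
          ≤ 1 * (vonMangoldt d / d) * (d / x) := by
            gcongr
            · exact abs_chi4_le d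
            · exact h2.trans h4
        _ = vonMangoldt d / x := by field_simp
    refine (sum_le_sum h1).trans ?_
    rw [← sum_div, div_le_iff₀ hx']
    have := Chebyshev.psi_le_const_mul_self hx'.le
    unfold Chebyshev.psi at this
    rwa [Nat.floor_natCast] at this
  have hA := chiA_ge x hx
  have h5 : |S * chiA x| ≤ 1 + (Real.log 4 + 4) := by
    rw [e]
    exact (abs_add_le _ _).trans (add_le_add (chi4_log_bound x) herr)
  rw [abs_mul, abs_of_nonneg (by linarith : 0 ≤ chiA x)] at h5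
  nlinarith [abs_nonneg S]

open ArithmeticFunction in
lemma nonprime_vm_bound : ∃ C : ℝ, ∀ S : Finset ℕ,
    ∑ n ∈ S, (if n.Prime then 0 else vonMangoldt n) / n ≤ C := by
  have h := vonMangoldt.summable_residueClass_non_primes_div (q := 1) (0 : ZMod 1)
  have e : (fun n : ℕ => (if n.Prime then 0 else vonMangoldt.residueClass (0 : ZMod 1) n) / n) =
      fun n : ℕ => (if n.Prime then 0 else vonMangoldt n) / (n : ℝ) := by
    funext n
    have : vonMangoldt.residueClass (0 : ZMod 1) n = vonMangoldt n := by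
      have h0 : ((n : ℕ) : ZMod 1) = 0 := Subsingleton.elim _ _
      simp [vonMangoldt.residueClass, Set.indicator, h0]
    rw [this]
  rw [e] at h
  refine ⟨_, fun S => h.sum_le_tsum S (fun n _ => ?_)⟩
  have : 0 ≤ vonMangoldt n := vonMangoldt_nonneg
  split_ifs <;> positivity

open ArithmeticFunction in
theorem sum_chi_log_div_bound : ∃ C : ℝ, ∀ x : ℕ,
    |∑ p ∈ (range x).filter Nat.Prime, ((ZMod.χ₄ (p : ZMod 4) : ℤ) : ℝ) * (Real.log p / p)| ≤ C := by
  obtain ⟨C, hC⟩ := nonprime_vm_bound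
  refine ⟨2 * (1 + (Real.log 4 + 4)) + C, fun x => ?_⟩
  have e1 : ∑ p ∈ (range x).filter Nat.Prime,
      ((ZMod.χ₄ (p : ZMod 4) : ℤ) : ℝ) * (Real.log p / p) =
      ∑ d ∈ Ioc 0 (x - 1), chi4 d * (vonMangoldt d / d) -
        ∑ d ∈ Ioc 0 (x - 1), chi4 d * ((if d.Prime then 0 else vonMangoldt d) / d) := by
    have e2 : (range x).filter Nat.Prime = (Ioc 0 (x - 1)).filter Nat.Prime := by
      ext p
      simp only [mem_filter, mem_range, mem_Ioc]
      constructor
      · rintro ⟨h1, h2⟩; exact ⟨⟨h2.pos, by omega⟩, h2⟩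
      · rintro ⟨⟨h1, h3⟩, h2⟩; exact ⟨by omega, h2⟩
    rw [e2, sum_filter, ← sum_sub_distrib]
    refine sum_congr rfl (fun d _ => ?_)
    split_ifs with hd
    · rw [vonMangoldt_apply_prime hd]; simp [chi4]
    · simp
  rw [e1]
  refine (abs_sub _ _).trans (add_le_add (chi4_vm_bound _) ?_)
  refine (abs_sum_le_sum_abs _ _).trans (le_trans (sum_le_sum (fun d _ => ?_)) (hC _))
  have hv : 0 ≤ (if d.Prime then 0 else vonMangoldt d) / (d : ℝ) := by
    have : 0 ≤ vonMangoldt d := vonMangoldt_nonneg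
    split_ifs <;> positivity
  rw [abs_mul, abs_of_nonneg hv]
  exact mul_le_of_le_one_left hv (abs_chi4_le d)

lemma sum_range_primes_le (a : ℕ) (ha : 1 ≤ a) :
    ∑ p ∈ (range a).filter Nat.Prime, Real.log p / p ≤ Real.log a + 10 := by
  refine le_trans (sum_le_sum_of_subset_of_nonneg (fun p hp => ?_) (fun p _ _ => ?_))
    (R29.mertens_upper (y := (a : ℝ)) (by exact_mod_cast ha))
  · rw [R29.mem_primesUpTo (Nat.cast_nonneg a)]
    rw [mem_filter, mem_range] at hp
    exact ⟨hp.2, by exact_mod_cast hp.1.le⟩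
  · exact div_nonneg (Real.log_natCast_nonneg p) (Nat.cast_nonneg p)

lemma sum_range_primes_ge (b : ℕ) (hb : 1 ≤ b) :
    Real.log b - 11 ≤ ∑ p ∈ (range b).filter Nat.Prime, Real.log p / p := by
  have h := R29.mertens_lower (y := (b : ℝ)) (by exact_mod_cast hb)
  unfold R29.primesUpTo at h
  rw [Nat.floor_natCast, sum_filter, sum_range_succ, ← sum_filter] at h
  have hb' : (0 : ℝ) < b := by exact_mod_cast hb
  have h1 : Real.log b / b ≤ 1 := by
    rw [div_le_one hb']
    have := Real.log_le_sub_one_of_pos hb'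
    linarith
  split_ifs at h <;> linarith

theorem mertens_one_mod_four : ∃ C : ℝ, ∀ a b : ℕ, 1 ≤ a → a ≤ b →
    (Real.log b - Real.log a) / 2 - C ≤ ∑ p ∈ primesIn a b, Real.log p.1 / p.1 := by
  obtain ⟨C, hC⟩ := sum_chi_log_div_bound
  refine ⟨C + 12, fun a b ha hab => ?_⟩
  have e1 : ∑ p ∈ primesIn a b, Real.log p.1 / p.1 =
      ∑ p ∈ Ico a b, if p.Prime ∧ p % 4 = 1 then Real.log p / p else 0 := by
    unfold primesIn
    rw [sum_subtype_eq_sum_filter (fun p : ℕ => Real.log p / (p : ℝ)), sum_filter]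
  have e2 : ∀ f : ℕ → ℝ, ∑ p ∈ Ico a b, (if p.Prime then f p else 0) =
      ∑ p ∈ (range b).filter Nat.Prime, f p - ∑ p ∈ (range a).filter Nat.Prime, f p := by
    intro f
    rw [sum_filter, sum_filter, sum_Ico_eq_sub _ hab]
  have h1 : ∀ p ∈ Ico a b,
      ((if p.Prime then Real.log p / p else 0) +
        (if p.Prime then chi4 p * (Real.log p / p) else 0)) / 2 - (if p = 2 then 1 else 0) ≤
      (if p.Prime ∧ p % 4 = 1 then Real.log p / p else 0 : ℝ) := by
    intro p _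
    have h0 : 0 ≤ Real.log p / p := div_nonneg (Real.log_natCast_nonneg p) (Nat.cast_nonneg p)
    by_cases hp : p.Prime
    · rw [if_pos hp, if_pos hp, chi4_eq]
      rcases hp.eq_two_or_odd with rfl | hodd
      · have : Real.log ((2 : ℕ) : ℝ) ≤ ((2 : ℕ) : ℝ) - 1 :=
          Real.log_le_sub_one_of_pos (by norm_num)
        rw [if_pos rfl, if_pos rfl, if_neg (by norm_num)]
        push_cast at this ⊢
        linarith
      · rw [if_neg (by omega), if_neg (show ¬ p = 2 by omega)]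
        by_cases h4 : p % 4 = 1
        · rw [if_pos h4, if_pos ⟨hp, h4⟩]; linarith
        · rw [if_neg h4, if_neg (fun h => h4 h.2)]; linarith
    · rw [if_neg hp, if_neg hp, if_neg (fun h : p.Prime ∧ p % 4 = 1 => hp h.1)]
      split_ifs <;> norm_num
  have h2 := sum_le_sum h1
  rw [sum_sub_distrib, ← sum_div, sum_add_distrib, e2, e2] at h2
  have h3 : ∑ p ∈ Ico a b, (if p = 2 then (1 : ℝ) else 0) ≤ 1 := by
    rw [sum_ite_eq']
    split_ifs <;> norm_num
  have h4 := sum_range_primes_le a ha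
  have h5 := sum_range_primes_ge b (ha.trans hab)
  have h6 := abs_le.1 (hC a)
  have h7 := abs_le.1 (hC b)
  rw [e1]
  unfold chi4 at h2
  linarith [h6.1, h6.2, h7.1, h7.2]

end Crest.Agent.R2
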