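import Crest.Agent.R2.Fam

/-!
# Row 2: numerical consequences of `Prm.OK`, part 1 (basic facts and the doubling steps)

Everything follows from `L ≥ 10¹²`, `L⁶ ≤ Γ ≤ exp (L / 100)`, `10⁻⁶ ≤ c 0 ≤ 2·10⁻⁶`,
`(m + 5)(m + 2) ≤ L / 2`, `n (m + 2) ≤ exp (0.56 L)`, `y = exp L`. Useful: `Γ * g i = n (i + 1)`,
`Real.pow_div_factorial_le_exp` (polynomials against `exp (ε L)`), `one_add_mul_le_pow` (Bernoulli) for `χ`,
`Real.log_two_gt_d9`, `Real.log_two_lt_d9`.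
* `exp_c_le`: induction, `exp (c (i+1)) = exp (c i)² ≤ e i * (Γ * n i)`.
* `step_h5`: `2 j L ≤ g / 4 ≤ (g / 2 - 5 / 2) log 2` since `g ≥ Γ³`; `y ^ (2 j) = exp (2 j L)`.
* `step_h6`: `j ≥ g / (8 L) - 1 ≥ g / (16 L)`; the left side is `≤ 47 L Γ² e n`, and `Γ ≥ 752 L³`.
* `step_h7`: `j ≤ g`, `log (2 (D 2^g)²) ≤ 1 + L / 50 + 2 g`, `g ≤ n (m + 2) ≤ exp (0.56 L)`, `2 c ≤ L`.
-/

set_option autoImplicit false
open Finset Filter

noncomputable section
namespace Crest.Agent.R2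
namespace Prm.OK
variable {P : Prm} (hP : P.OK)
include hP

theorem L_pos : 0 < P.L := by
  have := hP.hL
  exact lt_of_lt_of_le (by norm_num) this
theorem two_le_y : 2 ≤ P.y := by
  by_contra h
  have h1 : (P.y : ℝ) ≤ 1 := by exact_mod_cast (by omega : P.y ≤ 1)
  have h2 : P.L ≤ 0 := Real.log_nonpos (Nat.cast_nonneg _) h1
  exact absurd hP.L_pos (not_lt.2 h2)
theorem exp_L : Real.exp P.L = P.y := by
  have : (0 : ℝ) < P.y := by exact_mod_cast (lt_of_lt_of_le (by norm_num) hP.two_le_y)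
  exact Real.exp_log this
theorem η_pos : 0 < P.η := by
  have := hP.L_pos
  unfold Prm.η; positivity
theorem η_le : P.η ≤ 1 / 2 := by
  have := hP.hL
  unfold Prm.η
  exact one_div_le_one_div_of_le (by norm_num) (by linarith)
theorem Γ_pos : 1 ≤ P.Γ := by
  have h1 : (1 : ℝ) ≤ P.L ^ 6 := one_le_pow₀ (by have := hP.hL; linarith)
  exact_mod_cast h1.trans hP.hΓ
theorem c_pos (i : ℕ) : 0 < P.c i := by
  have := hP.L_pos
  unfold Prm.c; positivity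
omit hP in
theorem c_succ (i : ℕ) : P.c (i + 1) = 2 * P.c i := by
  unfold Prm.c; ring
omit hP in
theorem c_top : P.c (P.m + 1) = 0.55 * P.L := by
  unfold Prm.c; field_simp
omit hP in
theorem e_pos (i : ℕ) : 1 ≤ P.e i := by
  unfold Prm.e
  split_ifs
  · exact Nat.ceil_pos.2 (Real.exp_pos _)
  · exact le_rfl
omit hP in
theorem e_top : P.e (P.m + 1) = 1 := by
  unfold Prm.e
  rw [if_neg (by omega)]
omit hP in
theorem exp_c_le_e {i : ℕ} (hi : i ≤ P.m) : Real.exp (P.c i) ≤ P.e i := by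
  unfold Prm.e
  rw [if_pos hi]
  exact Nat.le_ceil _
theorem k_pos (i : ℕ) : 1 ≤ P.k i := by
  unfold Prm.k
  exact Nat.mul_pos (pow_pos hP.Γ_pos 4) (e_pos i)
omit hP in
theorem n_succ (i : ℕ) : P.n (i + 1) = P.k i * P.n i := rfl
omit hP in
theorem Γ_mul_g (i : ℕ) : P.Γ * P.g i = P.n (i + 1) := by
  rw [n_succ]; unfold Prm.g Prm.k; ring
theorem n_pos (i : ℕ) : 1 ≤ P.n i := by
  induction i with
  | zero => exact hP.hNU
  | succ i ih => exact Nat.mul_pos (hP.k_pos i) ih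
theorem n_mono : Monotone P.n := by
  refine monotone_nat_of_le_succ fun i => ?_
  rw [n_succ]
  exact Nat.le_mul_of_pos_left _ (hP.k_pos i)
theorem e_mul_n_le (i : ℕ) : P.e i * P.n i ≤ P.n (i + 1) := by
  rw [n_succ]; unfold Prm.k
  rw [mul_assoc]
  exact Nat.le_mul_of_pos_left _ (pow_pos hP.Γ_pos 4)
theorem num_one_le_L : 1 ≤ P.L := by
  have := hP.hL; linarith
theorem num_pow_le_Γ {k : ℕ} (hk : k ≤ 5) : 10 ^ 12 * P.L ^ k ≤ P.Γ := by
  have h1 := hP.hL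
  have h2 : P.L ^ k ≤ P.L ^ 5 := pow_le_pow_right₀ hP.num_one_le_L hk
  have h3 : 0 ≤ P.L ^ k := pow_nonneg hP.L_pos.le _
  calc 10 ^ 12 * P.L ^ k ≤ P.L * P.L ^ 5 := mul_le_mul h1 h2 h3 hP.L_pos.le
    _ = P.L ^ 6 := by ring
    _ ≤ _ := hP.hΓ
theorem num_Γ_ge : 10 ^ 12 * P.L ≤ P.Γ := by
  simpa using hP.num_pow_le_Γ (k := 1) (by norm_num)
theorem num_Γ_pos : (0 : ℝ) < P.Γ := by
  exact_mod_cast hP.Γ_pos
theorem num_η_mul : P.η * P.L = 1 := by
  have := hP.L_pos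
  unfold Prm.η; field_simp
theorem num_bern {N : ℕ} (hN : (N : ℝ) ≤ P.L / 2) : 1 / 2 ≤ (1 - P.η) ^ N := by
  have h1 := one_add_mul_le_pow (a := -P.η) (by have := hP.η_le; linarith) N
  have h2 := hP.num_η_mul
  have h3 := mul_le_mul_of_nonneg_right hN hP.η_pos.le
  rw [← sub_eq_add_neg] at h1
  nlinarith
theorem num_g_ge (i : ℕ) : 10 ^ 12 * P.L ≤ P.g i := by
  refine hP.num_Γ_ge.trans ?_
  have h1 : P.Γ ≤ P.g i := by
    unfold Prm.g
    rw [mul_assoc]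
    exact (Nat.le_self_pow (by norm_num) _).trans
      (Nat.le_mul_of_pos_right _ (Nat.mul_pos (e_pos i) (hP.n_pos i)))
  exact_mod_cast h1
theorem num_c_mono : Monotone P.c := by
  refine monotone_nat_of_le_succ fun i => ?_
  rw [c_succ]
  have := hP.c_pos i
  linarith
omit hP in
theorem num_c_eq (i : ℕ) : P.c i = 2 ^ i * P.c 0 := by
  unfold Prm.c; ring
theorem num_n_le {i : ℕ} (hi : i ≤ P.m + 2) : (P.n i : ℝ) ≤ Real.exp (0.56 * P.L) :=
  le_trans (by exact_mod_cast hP.n_mono hi) hP.htop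
theorem num_exp_ge : 2000 * P.L ^ 2 * Real.exp (0.56 * P.L) ≤ P.y := by
  have h1 := Real.pow_div_factorial_le_exp (0.44 * P.L) (by have := hP.L_pos; positivity) 3
  have h2 : Real.exp (0.44 * P.L) * Real.exp (0.56 * P.L) = P.y := by
    rw [← Real.exp_add, ← hP.exp_L]; congr 1; ring
  rw [← h2]
  refine mul_le_mul_of_nonneg_right (le_trans ?_ h1) (Real.exp_pos _).le
  have h3 := hP.hL
  have h4 : 0 ≤ P.L ^ 2 := sq_nonneg _
  norm_num [Nat.factorial]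
  nlinarith
theorem exp_c_le {i : ℕ} (hi : i ≤ P.m + 1) : Real.exp (P.c i) ≤ P.Γ * P.n i := by
  induction i with
  | zero =>
    have h1 : Real.exp (P.c 0) ≤ Real.exp 1 :=
      Real.exp_le_exp.2 (by have := hP.hc0'; linarith)
    have h2 := Real.exp_one_lt_d9
    have h3 := hP.num_Γ_ge
    have h4 := hP.hL
    have h5 : (1 : ℝ) ≤ P.n 0 := by exact_mod_cast hP.n_pos 0
    nlinarith
  | succ i ih =>
    have h1 := ih (by omega)
    have h2 := exp_c_le_e (P := P) (i := i) (by omega)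
    have h3 : (P.e i : ℝ) * P.n i ≤ P.n (i + 1) := by exact_mod_cast hP.e_mul_n_le i
    rw [c_succ, two_mul, Real.exp_add]
    calc _ ≤ (P.e i : ℝ) * (P.Γ * P.n i) := mul_le_mul h2 h1 (Real.exp_pos _).le (Nat.cast_nonneg _)
      _ = P.Γ * (P.e i * P.n i) := by ring
      _ ≤ _ := mul_le_mul_of_nonneg_left h3 (Nat.cast_nonneg _)
theorem χ_ge : 1 / 2 ≤ P.χ := by
  refine hP.num_bern ?_
  have h1 := hP.hm
  have h2 : (0 : ℝ) ≤ P.m := Nat.cast_nonneg _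
  push_cast
  nlinarith
theorem χ_le {i : ℕ} (hi : i ≤ P.m + 5) : P.χ ≤ (1 - P.η) ^ i := by
  have h1 := hP.η_le
  have h2 := hP.η_pos
  exact pow_le_pow_of_le_one (by linarith) (by linarith) hi
omit hP in
theorem β_zero : P.β 0 = P.c 0 := by
  simp [Prm.β]
theorem β_pos (i : ℕ) : 0 < P.β i := by
  have h1 := hP.χ_ge
  have h2 := hP.c_pos 0
  have h3 : 0 < P.χ := by linarith
  unfold Prm.β; positivity
theorem c_le_β (i : ℕ) : P.c i ≤ P.β i := by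
  have h1 := hP.χ_ge
  have h2 : P.χ ≤ 1 := by simpa using hP.χ_le (i := 0) (by omega)
  rw [num_c_eq]
  unfold Prm.β
  refine mul_le_mul_of_nonneg_right (pow_le_pow_left₀ (by norm_num) ?_ _) (hP.c_pos 0).le
  rw [le_div_iff₀ (by linarith)]
  linarith
theorem β_le {i : ℕ} (hi : i ≤ P.m + 1) : P.β i ≤ 1.1 * P.L := by
  have h1 := hP.χ_ge
  have h2 : P.χ ≤ 1 := by simpa using hP.χ_le (i := 0) (by omega)
  have h3 : 1 / 2 ≤ P.χ ^ i := by
    refine le_trans ?_ (pow_le_pow_of_le_one (by linarith) h2 hi)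
    unfold Prm.χ
    rw [← pow_mul]
    refine hP.num_bern ?_
    have h1 := hP.hm
    have h2 : (0 : ℝ) ≤ P.m := Nat.cast_nonneg _
    push_cast
    nlinarith
  have h4 : P.β i * P.χ ^ i = P.c i := by
    have : P.χ ≠ 0 := by linarith [h1] |> fun (h : 0 < P.χ) => h.ne'
    rw [num_c_eq]; unfold Prm.β; rw [div_pow]; field_simp
  have h5 := hP.num_c_mono hi
  rw [c_top] at h5
  have h6 := mul_le_mul_of_nonneg_left h3 (hP.β_pos i).le
  linarith

theorem step_h1 {i : ℕ} (hi : i ≤ P.m + 1) :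
    Real.exp (2 * P.c (min i P.m)) ≤ (P.n i : ℝ) * (P.Γ * P.e i) := by
  rcases Nat.lt_or_ge P.m i with h | h
  · obtain rfl : i = P.m + 1 := by omega
    rw [min_eq_right (by omega), ← c_succ, e_top]
    have := hP.exp_c_le (i := P.m + 1) le_rfl
    push_cast
    linarith
  · rw [min_eq_left h, two_mul, Real.exp_add]
    calc _ ≤ (P.Γ * P.n i : ℝ) * P.e i :=
          mul_le_mul (hP.exp_c_le hi) (exp_c_le_e h) (Real.exp_pos _).le (by positivity)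
      _ = _ := by ring
theorem step_h2 {i : ℕ} (hi : i ≤ P.m + 1) : (P.n i : ℝ) * (P.Γ * P.e i) ≤ P.η * P.y := by
  have h1 : P.n i * (P.Γ * P.e i) ≤ P.n (i + 1) := by
    rw [n_succ]; unfold Prm.k
    rw [mul_comm]
    exact Nat.mul_le_mul_right _ (Nat.mul_le_mul_right _ (Nat.le_self_pow (by norm_num) _))
  have h2 : (P.n i : ℝ) * (P.Γ * P.e i) ≤ P.n (i + 1) := by exact_mod_cast h1
  refine h2.trans ((hP.num_n_le (by omega)).trans ?_)
  have h3 := hP.num_exp_ge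
  have h4 := hP.num_one_le_L
  have h5 := Real.exp_pos (0.56 * P.L)
  unfold Prm.η
  rw [one_div, inv_mul_eq_div, le_div_iff₀ hP.L_pos]
  have h6 : P.L ≤ 2000 * P.L ^ 2 := by nlinarith
  nlinarith
theorem step_h3 {i : ℕ} (hi : i ≤ P.m + 1) :
    8 * P.β (min i P.m) * Real.log P.y * (P.Γ * P.e i) ≤
      P.η ^ 3 * (1 - P.η) ^ 2 * (1 - P.η) ^ (i + 1) * (P.Γ ^ 2 * P.e i : ℕ) := by
  have h1 : 1 / 2 ≤ (1 - P.η) ^ 2 * (1 - P.η) ^ (i + 1) := by
    rw [← pow_add]; exact hP.χ_ge.trans (hP.χ_le (by omega))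
  have h2 := hP.β_le (i := min i P.m) (by omega)
  have h3 := hP.num_pow_le_Γ (k := 5) le_rfl
  have h4 := hP.L_pos
  have h5 := hP.η_pos
  have h6 := hP.num_η_mul
  have h7 : (0 : ℝ) ≤ P.Γ * P.e i := by positivity
  have h8 : 8 * P.β (min i P.m) * P.L ≤ P.η ^ 3 * (1 / 2) * P.Γ := by
    have h9 : P.η ^ 3 * (1 / 2) * (10 ^ 12 * P.L ^ 5) = (P.η * P.L) ^ 3 * (10 ^ 12 / 2 * P.L ^ 2) := by
      ring
    rw [h6] at h9
    have h10 := mul_le_mul_of_nonneg_left h3 (show 0 ≤ P.η ^ 3 * (1 / 2) by positivity)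
    nlinarith
  change 8 * P.β (min i P.m) * P.L * _ ≤ _
  push_cast
  calc _ ≤ P.η ^ 3 * (1 / 2) * P.Γ * (P.Γ * P.e i) := mul_le_mul_of_nonneg_right h8 h7
    _ = P.η ^ 3 * (1 / 2) * (P.Γ ^ 2 * P.e i) := by ring
    _ ≤ P.η ^ 3 * ((1 - P.η) ^ 2 * (1 - P.η) ^ (i + 1)) * (P.Γ ^ 2 * P.e i) := by gcongr
    _ = _ := by ring
theorem step_h4 {i : ℕ} (hi : i ≤ P.m + 1) :
    2 * P.β (min i P.m) ≤
      P.β (min i P.m + 1) * (1 - P.η) ^ (i + 1) * (1 - P.η) * (1 - P.η) ^ 2 := by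
  have h1 : P.χ ≤ (1 - P.η) ^ (i + 4) := hP.χ_le (by omega)
  have h2 : 0 < P.χ := by have := hP.χ_ge; linarith
  have h3 : P.β (min i P.m + 1) * P.χ = 2 * P.β (min i P.m) := by
    unfold Prm.β; rw [pow_succ]; field_simp
  rw [← h3]
  calc _ ≤ P.β (min i P.m + 1) * (1 - P.η) ^ (i + 4) :=
        mul_le_mul_of_nonneg_left h1 (hP.β_pos _).le
    _ = _ := by ring
theorem step_h5 (i : ℕ) :
    1 ≤ P.j i ∧ P.y ^ (2 * P.j i) ≤ P.N0 i ∧ 1 ≤ P.N0 i ∧ (2 * P.N0 i + 1) ^ 2 < 2 ^ P.g i := by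
  have h1 := hP.num_g_ge i
  have h2 := hP.num_one_le_L
  have h3 : 100 ≤ P.g i := by
    have : (100 : ℝ) ≤ P.g i := by linarith
    exact_mod_cast this
  refine ⟨?_, ?_, Nat.one_le_two_pow, ?_⟩
  · unfold Prm.j
    rw [Nat.one_le_floor_iff, le_div_iff₀ (by linarith)]
    linarith
  · have h4 : (P.j i : ℝ) ≤ P.g i / (8 * P.L) := Nat.floor_le (by positivity)
    rw [le_div_iff₀ (by linarith)] at h4
    have h5 : P.g i ≤ 2 * (P.g i / 2 - 2) + 5 := by omega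
    have h6 : (P.g i : ℝ) ≤ 2 * ((P.g i / 2 - 2 : ℕ) : ℝ) + 5 := by exact_mod_cast h5
    have h7 := Real.log_two_gt_d9
    have h8 : ((P.y ^ (2 * P.j i) : ℕ) : ℝ) ≤ (P.N0 i : ℝ) := by
      unfold Prm.N0
      rw [Nat.cast_pow, Nat.cast_pow, ← hP.exp_L, ← Real.exp_nat_mul, Nat.cast_ofNat,
        ← Real.exp_log (show (0 : ℝ) < 2 by norm_num), ← Real.exp_nat_mul, Real.exp_le_exp]
      have h9 : (0 : ℝ) ≤ ((P.g i / 2 - 2 : ℕ) : ℝ) := Nat.cast_nonneg _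
      have h10 := mul_le_mul_of_nonneg_left h7.le h9
      rw [Nat.cast_mul, Nat.cast_ofNat]
      linarith
    exact_mod_cast h8
  · have h4 : 2 * P.N0 i + 1 < 2 ^ (P.g i / 2) := by
      unfold Prm.N0
      obtain ⟨a, ha⟩ : ∃ a, P.g i / 2 = a + 2 := ⟨P.g i / 2 - 2, by omega⟩
      rw [ha, Nat.add_sub_cancel, pow_add]
      have : 1 ≤ 2 ^ a := Nat.one_le_two_pow
      omega
    calc _ < (2 ^ (P.g i / 2)) ^ 2 := Nat.pow_lt_pow_left h4 (by norm_num)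
      _ = 2 ^ (P.g i / 2 * 2) := by rw [← pow_mul]
      _ ≤ _ := Nat.pow_le_pow_right (by norm_num) (by omega)
theorem step_h6 (i : ℕ) :
    Real.log P.C + 2 * (P.Γ ^ 2 * P.e i : ℕ) * (23 * P.L * P.n i) ≤ P.j i * P.η := by
  have h1 := hP.num_g_ge i
  have h2 := hP.num_one_le_L
  have h3 : (P.g i : ℝ) / (8 * P.L) < P.j i + 1 := Nat.lt_floor_add_one _
  rw [div_lt_iff₀ (by linarith)] at h3
  have h4 : (P.g i : ℝ) ≤ 16 * P.L * P.j i := by linarith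
  have h5 := hP.num_pow_le_Γ (k := 3) (by norm_num)
  set X : ℝ := (P.Γ ^ 2 * P.e i : ℕ) * P.n i with hX
  have h6 : (P.g i : ℝ) = P.Γ * X := by
    rw [hX]; unfold Prm.g; push_cast; ring
  have h7 : 1 ≤ X := by
    rw [hX]
    exact_mod_cast Nat.mul_pos (Nat.mul_pos (pow_pos hP.Γ_pos 2) (e_pos i)) (hP.n_pos i)
  have h8 := hP.hLC
  have h9 : Real.log P.C + 2 * (P.Γ ^ 2 * P.e i : ℕ) * (23 * P.L * P.n i) ≤ 47 * P.L * X := by
    have : 2 * ((P.Γ ^ 2 * P.e i : ℕ) : ℝ) * (23 * P.L * P.n i) = 46 * P.L * X := by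
      rw [hX]; ring
    rw [this]
    nlinarith
  refine h9.trans ?_
  unfold Prm.η
  rw [mul_one_div, le_div_iff₀ hP.L_pos]
  have h10 : 10 ^ 12 * P.L ^ 3 * X ≤ 16 * P.L * P.j i :=
    (mul_le_mul_of_nonneg_right h5 (by linarith)).trans (h6 ▸ h4)
  refine le_of_mul_le_mul_left ?_ (show 0 < 16 * P.L by linarith)
  refine le_trans ?_ h10
  have h11 : 0 ≤ P.L ^ 3 * X := by positivity
  nlinarith
theorem step_h7 {i : ℕ} (hi : i ≤ P.m + 1) :
    (P.j i + Real.log (2 * ((P.D : ℝ) * (2 ^ P.g i : ℕ)) ^ 2) / Real.log P.y) * (400 / P.y) *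
      (2 * P.c (min i P.m)) ≤ P.η := by
  have h1 := hP.num_g_ge i
  have h2 := hP.num_one_le_L
  have h3 : (P.j i : ℝ) ≤ P.g i :=
    (Nat.floor_le (by positivity)).trans (div_le_self (Nat.cast_nonneg _) (by linarith))
  have hD : (1 : ℝ) ≤ P.D := by exact_mod_cast hP.hD
  have h4 : Real.log (2 * ((P.D : ℝ) * (2 ^ P.g i : ℕ)) ^ 2) ≤ 4 * P.g i := by
    have h5 : Real.log (P.D : ℝ) ≤ P.L / 100 :=
      (Real.log_le_log (by linarith) (by linarith)).trans hP.hLD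
    have h6 := Real.log_two_lt_d9
    rw [Real.log_mul (by norm_num) (by positivity), Real.log_pow,
      Real.log_mul (by positivity) (by positivity), Nat.cast_pow, Real.log_pow]
    have h7 := mul_le_mul_of_nonneg_left h6.le (Nat.cast_nonneg (α := ℝ) (P.g i))
    push_cast
    linarith
  have h5 : Real.log (2 * ((P.D : ℝ) * (2 ^ P.g i : ℕ)) ^ 2) / Real.log P.y ≤ 4 * P.g i := by
    change _ / P.L ≤ _
    rw [div_le_iff₀ hP.L_pos]
    refine h4.trans (le_mul_of_one_le_right (by positivity) h2)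
  have h6 : (P.g i : ℝ) ≤ Real.exp (0.56 * P.L) := by
    refine le_trans ?_ (hP.num_n_le (i := i + 1) (by omega))
    rw [← Γ_mul_g]
    exact_mod_cast Nat.le_mul_of_pos_left _ hP.Γ_pos
  have h7 : 2 * P.c (min i P.m) ≤ P.L := by
    rw [← c_succ]
    have := hP.num_c_mono (show min i P.m + 1 ≤ P.m + 1 by omega)
    rw [c_top] at this
    linarith
  have hy : (0 : ℝ) < P.y := by rw [← hP.exp_L]; exact Real.exp_pos _
  have h8 := (hP.c_pos (min i P.m)).le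
  calc _ ≤ (5 * Real.exp (0.56 * P.L)) * (400 / P.y) * P.L := by
        gcongr
        linarith
    _ ≤ _ := by
        unfold Prm.η
        have := hP.num_exp_ge
        rw [le_div_iff₀ hP.L_pos, show 5 * Real.exp (0.56 * P.L) * (400 / P.y) * P.L * P.L =
          2000 * P.L ^ 2 * Real.exp (0.56 * P.L) / P.y by ring, div_le_one hy]
        exact this
theorem log_box (i : ℕ) :
    Real.log ((2 * ((P.D : ℝ) * (2 ^ P.g i : ℕ)) + 1) ^ 2) ≤ 2 / P.Γ * P.n (i + 1) := by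
  have h1 := hP.num_g_ge i
  have h2 := hP.num_one_le_L
  have h3 := hP.num_Γ_pos
  have h4 : 2 / (P.Γ : ℝ) * P.n (i + 1) = 2 * P.g i := by
    rw [← Γ_mul_g]; push_cast; field_simp
  have hD : (1 : ℝ) ≤ P.D := by exact_mod_cast hP.hD
  have h5 : (1 : ℝ) ≤ (2 ^ P.g i : ℕ) := by exact_mod_cast Nat.one_le_two_pow
  have h6 : Real.log (2 * ((P.D : ℝ) * (2 ^ P.g i : ℕ)) + 1) ≤
      Real.log (10 * P.D * (2 ^ P.g i : ℕ)) :=
    Real.log_le_log (by positivity) (by nlinarith)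
  rw [Real.log_mul (x := 10 * P.D) (by positivity) (by positivity), Nat.cast_pow,
    Real.log_pow] at h6
  have h7 := mul_le_mul_of_nonneg_left Real.log_two_lt_d9.le (Nat.cast_nonneg (α := ℝ) (P.g i))
  have h8 := hP.hLD
  rw [h4, Real.log_pow]
  push_cast at h6 ⊢
  linarith
theorem eps_small : ((P.m : ℝ) + 2) * (2 / P.Γ) ≤ 1 / 10 ^ 8 := by
  have h1 := hP.hm
  have h2 : (0 : ℝ) ≤ P.m := Nat.cast_nonneg _
  have h3 : (P.m : ℝ) + 2 ≤ P.L := by nlinarith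
  have h4 := hP.num_Γ_ge
  rw [← mul_div_assoc, div_le_iff₀ hP.num_Γ_pos]
  linarith
theorem exc {i : ℕ} (hi : i < P.m) :
    P.β (i + 1) * Real.exp (2 * P.c i) * (5000 / (P.Γ * P.e (i + 1))) ≤ P.η := by
  have h1 := hP.β_le (i := i + 1) (by omega)
  have h2 := exp_c_le_e (P := P) (i := i + 1) hi
  rw [c_succ] at h2
  have h3 := hP.num_pow_le_Γ (k := 2) (by norm_num)
  have h4 := hP.num_Γ_pos
  have h5 : (0 : ℝ) < P.e (i + 1) := by exact_mod_cast e_pos (i + 1)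
  have h6 := hP.L_pos
  calc _ ≤ 1.1 * P.L * P.e (i + 1) * (5000 / (P.Γ * P.e (i + 1))) := by gcongr
    _ = 5500 * P.L / P.Γ := by field_simp; norm_num
    _ ≤ _ := by
        unfold Prm.η
        rw [div_le_div_iff₀ h4 h6]
        nlinarith
theorem trunc : Real.exp (P.c P.m - P.β P.m * P.Γ) ≤ P.η := by
  have h1 := hP.c_le_β P.m
  have h2 : 2 * P.c P.m = 0.55 * P.L := by rw [← c_succ, c_top]
  have h3 := hP.num_Γ_ge
  have h4 := hP.num_one_le_L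
  have h5 : P.c P.m * 5 ≤ P.β P.m * P.Γ :=
    mul_le_mul h1 (by linarith) (by norm_num) (hP.β_pos _).le
  calc _ ≤ Real.exp (-P.L) := Real.exp_le_exp.2 (by linarith)
    _ ≤ _ := by
        unfold Prm.η
        rw [Real.exp_neg, one_div]
        exact inv_anti₀ hP.L_pos (by have := Real.add_one_le_exp P.L; linarith)
theorem total {θ : ℝ} (hθ : 0.995 ≤ θ) :
    2 ^ (P.m + 1) * (P.c 0 * (1 - θ) + P.c 0 * 5000 / (P.Γ * P.e 0) + P.c 0 ^ 2 * 5000 / 2 + 7 * P.η) ≤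
      P.L / 100 := by
  have h1 : 2 ^ (P.m + 1) * P.c 0 = 0.55 * P.L := by rw [← num_c_eq, c_top]
  have h2 := hP.hc0
  have h3 := hP.hc0'
  have h4 := hP.hL
  have h5 := hP.num_Γ_ge
  have h6 := hP.num_η_mul
  have h7 := hP.η_pos
  have h8 : (1 : ℝ) ≤ P.e 0 := by exact_mod_cast e_pos 0
  have h9 : 5000 / ((P.Γ : ℝ) * P.e 0) ≤ 1 / 1000 := by
    rw [div_le_iff₀ (mul_pos hP.num_Γ_pos (by linarith))]
    nlinarith
  have h10 : (2 : ℝ) ^ (P.m + 1) ≤ 10 ^ 6 * P.L := by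
    have : (0 : ℝ) < 2 ^ (P.m + 1) := by positivity
    nlinarith
  have h11 : 2 ^ (P.m + 1) * P.η ≤ 10 ^ 6 := by
    have := mul_le_mul_of_nonneg_right h10 h7.le
    nlinarith
  have h12 : 2 ^ (P.m + 1) * (P.c 0 * (1 - θ) + P.c 0 * 5000 / (P.Γ * P.e 0) +
      P.c 0 ^ 2 * 5000 / 2 + 7 * P.η) = (2 ^ (P.m + 1) * P.c 0) *
      ((1 - θ) + 5000 / (P.Γ * P.e 0) + P.c 0 * 2500) + 7 * (2 ^ (P.m + 1) * P.η) := by ring
  rw [h12, h1]
  have h13 : (1 - θ) + 5000 / ((P.Γ : ℝ) * P.e 0) + P.c 0 * 2500 ≤ 11 / 1000 := by linarith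
  have h14 := mul_le_mul_of_nonneg_left h13 (show 0 ≤ 0.55 * P.L by linarith)
  linarith

end Prm.OK
end Crest.Agent.R2
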