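import Crest.Agent.R2.PairCount

/-!
# Row 2: the pair law

Recipe. `Z = diffs γ t G` is nonempty; choose `rep : GI → ℕ × ℕ` with `γ (rep z).1 - γ (rep z).2 = z` and both
times in the window for `z ∈ Z`; `Pr = (FD.unif Z _).map rep`, `C = 20 (4 D + 1)² + 4 D + 21`, `h` from
`exists_count`. Then `Pr.E (∏ F p (ξ s - ξ s')) = (∑_{z ∈ Z} ∏_{p ∈ Q} F p (res p z)) / |Z|` (`xi_sub`).
Group by the residue vector `z ↦ (fun p : Q => res p z) : (p : Q) → ZMod p.1.1` (`sum_fiberwise`-type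
lemma or `Finset.sum_comp`): each fibre `𝒞` satisfies the divisibility hypothesis of `exists_count` with
`N = ∏ Q` (`prod_dvd_of_res_zsmul`), so `|𝒞| ≤ C |Z| / N`; and
`∑_c ∏_{p : Q} F p (c p) = ∏_{p : Q} ∑_a F p a` (`Finset.prod_univ_sum`, `Fintype.piFinset_univ`;
`Finset.prod_coe_sort`/`prod_attach` to pass between `∏ p ∈ Q` and `∏ p : Q`).
-/

set_option autoImplicit false
open Finset

noncomputable section
namespace Crest.Agent.R2
open Classical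

/-- A sum over a finset of Gaussian integers whose residue classes mod `Q` are all small. -/
theorem sum_prod_res_le (Z : Finset GI) (Q : Finset P1) {K : ℝ}
    (hK : ∀ a : (p : P1) → ZMod p.1, ((Z.filter (fun z => ∀ p ∈ Q, res p z = a p)).card : ℝ) ≤ K)
    (F : (p : P1) → ZMod p.1 → ℝ) (hF : ∀ p a, 0 ≤ F p a) :
    ∑ z ∈ Z, ∏ p ∈ Q, F p (res p z) ≤ K * ∏ p ∈ Q, ∑ a, F p a := by
  let rv : GI → ((p : Q) → ZMod p.1.1) := fun z p => res p.1 z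
  have h1 : ∑ z ∈ Z, ∏ p ∈ Q, F p (res p z)
      = ∑ c : (p : Q) → ZMod p.1.1, ∑ z ∈ Z with rv z = c, ∏ p : Q, F p.1 (c p) := by
    rw [← Finset.sum_fiberwise (s := Z) (g := rv)]
    refine sum_congr rfl (fun c _ => sum_congr rfl (fun z hz => ?_))
    rw [← (mem_filter.1 hz).2, ← Finset.prod_coe_sort Q]
  have h2 : ∏ p ∈ Q, ∑ a, F p a = ∑ c : (p : Q) → ZMod p.1.1, ∏ p : Q, F p.1 (c p) := by
    rw [← Finset.prod_coe_sort Q, Finset.prod_univ_sum, Fintype.piFinset_univ]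
  rw [h1, h2, mul_sum]
  refine sum_le_sum (fun c _ => ?_)
  rw [sum_const, nsmul_eq_mul]
  refine mul_le_mul_of_nonneg_right ?_ (prod_nonneg (fun p _ => hF _ _))
  refine le_trans ?_ (hK (fun p => if hp : p ∈ Q then c ⟨p, hp⟩ else 0))
  refine Nat.cast_le.2 (card_le_card (fun z hz => ?_))
  rw [mem_filter] at hz ⊢
  refine ⟨hz.1, fun p hp => ?_⟩
  rw [dif_pos hp, ← hz.2]

theorem exists_pair (D : ℕ) : ∃ C : ℝ, 1 ≤ C ∧ ∀ γ : ℕ → GI, IsPath D γ → ∀ t G N₀ : ℕ, 1 ≤ N₀ →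
    (2 * N₀ + 1) ^ 2 < G → ∃ (Pr : FD (ℕ × ℕ)) (h : GI), PairOK γ D C t G N₀ Pr h := by
  refine ⟨((20 * (4 * D + 1) ^ 2 + 4 * D + 21 : ℕ) : ℝ), ?_, ?_⟩
  · exact_mod_cast (by omega : 1 ≤ 20 * (4 * D + 1) ^ 2 + 4 * D + 21)
  intro γ hγ t G N₀ hN₀ hG
  obtain ⟨h, hh0, hhb, hcount⟩ := exists_count (t := t) hγ hN₀ hG
  set C : ℕ := 20 * (4 * D + 1) ^ 2 + 4 * D + 21 with hC
  set Z := diffs γ t G with hZ
  have hG0 : 0 < G := lt_of_le_of_lt (Nat.zero_le _) hG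
  have hZc : 0 < Z.card := lt_of_lt_of_le hG0 (le_card_diffs hγ t G)
  have hZne : Z.Nonempty := card_pos.1 hZc
  have hrep : ∀ z : GI, ∃ x : ℕ × ℕ, z ∈ Z →
      (x.1 ∈ Ico t (t + G) ∧ x.2 ∈ Ico t (t + G)) ∧ γ x.1 - γ x.2 = z := by
    intro z
    by_cases hz : z ∈ Z
    · obtain ⟨x, hx, hxz⟩ := mem_image.1 hz
      exact ⟨x, fun _ => ⟨mem_product.1 hx, hxz⟩⟩
    · exact ⟨(0, 0), fun h' => absurd h' hz⟩
  choose rep hrep using hrep
  refine ⟨(FD.unif Z hZne).map rep, h, ?_, hh0, hhb, ?_⟩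
  · intro x hx
    obtain ⟨z, hz, rfl⟩ := FD.mem_supp_map.1 hx
    exact (hrep z (FD.supp_unif Z hZne hz)).1
  · intro Q hQ hQN F hF
    set N : ℕ := ∏ p ∈ Q, p.1 with hN
    have hN1 : 1 ≤ N := by
      have : 0 < ∏ p ∈ Q, p.1 := Finset.prod_pos (fun (p : P1) _ => p.2.1.pos)
      exact this
    have hNr : (0 : ℝ) < N := by exact_mod_cast hN1
    have hZr : (0 : ℝ) < Z.card := by exact_mod_cast hZc
    rw [FD.E_map, FD.E_unif]
    have e1 : ∑ z ∈ Z, ∏ p ∈ Q, F p (xi γ p (rep z).1 - xi γ p (rep z).2)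
        = ∑ z ∈ Z, ∏ p ∈ Q, F p (res p z) := by
      refine sum_congr rfl (fun z hz => prod_congr rfl (fun p _ => ?_))
      rw [xi_sub, (hrep z hz).2]
    rw [e1]
    have hK : ∀ a : (p : P1) → ZMod p.1,
        ((Z.filter (fun z => ∀ p ∈ Q, res p z = a p)).card : ℝ) ≤ (C : ℝ) * Z.card / N := by
      intro a
      rw [le_div_iff₀ hNr]
      have := hcount N hN1 hQN (Z.filter (fun z => ∀ p ∈ Q, res p z = a p)) (filter_subset _ _) (by
        intro z hz z' hz' k hk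
        refine prod_dvd_of_res_zsmul hQ (fun p hp => ?_)
        rw [← hk, map_sub, (mem_filter.1 hz).2 p hp, (mem_filter.1 hz').2 p hp, sub_self])
      exact_mod_cast this
    have h2 := sum_prod_res_le Z Q hK F hF
    have e2 : ∏ p ∈ Q, avg (F p) = (∏ p ∈ Q, ∑ a, F p a) / N := by
      rw [hN, Nat.cast_prod, ← prod_div_distrib]
      refine prod_congr rfl (fun p _ => ?_)
      rw [avg, card_zmod]
    rw [e2, div_le_iff₀ hZr]
    refine h2.trans (le_of_eq ?_)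
    field_simp

theorem PairOK.jump {γ : ℕ → GI} {D : ℕ} {C : ℝ} {t G N₀ : ℕ} {Pr : FD (ℕ × ℕ)} {h : GI}
    (hP : PairOK γ D C t G N₀ Pr h) : ∀ s ∈ (Geo Pr).supp, t ≤ s ∧ s ≤ t + G := by
  intro s hs
  obtain ⟨x, hx, h | h⟩ := mem_supp_Geo hs
  · have := mem_Ico.1 (hP.win x hx).1; omega
  · have := mem_Ico.1 (hP.win x hx).2; omega

end Crest.Agent.R2
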