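import Crest.Agent.R2.Cross

/-!
# Row 2: counting differences in a residue class

Setting: `Z = diffs γ t G`, `d₀ ∈ Z` of maximal norm `ρ = N d₀ > 0`, `dot a b = a.re * b.re + a.im * b.im`,
`u z = dot d₀ z`, `v z = det d₀ z`, `Δ = max_{z ∈ Z} |v z|`, `Δ₁ = Δ + 1`. For `z ∈ Z`: `|u z| ≤ ρ`
(`u² + v² = N d₀ * N z ≤ ρ²`) and `|v z| ≤ Δ ≤ (4 D + 1)² |Z|` (`area_le`). Also `G ≤ |Z|`
(`s ↦ γ s - γ t` is injective).

* `exists_short`: pigeonhole on the `G` points `γ s - γ t` with the cells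
  `((N₀ * u + N₀ * ρ) / ρ, (N₀ * v + N₀ * Δ₁) / Δ₁) ∈ [0, 2 N₀]²` (`Int.ediv`); two points of one cell differ by
  `h'` with `N₀ |u h'| < ρ`, `N₀ |v h'| < Δ₁`, `h' ∈ Z`, `h' ≠ 0`. Divide by `gcd (re, im)` to get a
  primitive `h` (`exists_primitive`).
* `count_lines`: the integer identity `ρ * det h z = u h * v z - v h * u z`. Put
  `α = max (|u h| / ρ) (|v h| / Δ₁)`, `0 < α ≤ 1 / N₀` (`u h = v h = 0` forces `h = 0`). Then
  `|det h z| ≤ 2 α Δ₁` on `Z`, so `𝒞` meets at most `4 α Δ₁ + 1` lines `det h · = const`. Two points of `𝒞`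
  on one line differ by `N k • h` with `N |k| α ≤ 2` and `N |k| ≤ 2 D G`; so a line carries at most
  `min (4 / (N α)) (4 D G / N) + 1` points (fix a base point `z₀` of the fibre, `z ↦ k` is injective into
  `Icc (-K) K`). Multiply: `|𝒞| ≤ 4 α Δ₁ (4 / (N α) + 1) + (4 D G / N + 1) ≤ (20 Δ₁ + 4 D G + G) / N`
  using `α ≤ 1 / N₀ ≤ 1 / N` and `N ≤ N₀ ≤ G` (`card_le_mul_card_image`).
-/

set_option autoImplicit false
open Finset

noncomputable section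
namespace Crest.Agent.R2
open Classical

def dot (a b : GI) : ℤ := a.re * b.re + a.im * b.im

theorem pc_zsmul_re (k : ℤ) (z : GI) : (k • z).re = k * z.re := by
  rw [zsmul_eq_mul]; simp

theorem pc_zsmul_im (k : ℤ) (z : GI) : (k • z).im = k * z.im := by
  rw [zsmul_eq_mul]; simp

theorem pc_dot_sub (d a b : GI) : dot d (a - b) = dot d a - dot d b := by
  simp only [dot, Zsqrtd.re_sub, Zsqrtd.im_sub]; ring

theorem pc_det_sub (d a b : GI) : det d (a - b) = det d a - det d b := by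
  simp only [det, Zsqrtd.re_sub, Zsqrtd.im_sub]; ring

theorem pc_dot_zsmul (d : GI) (k : ℤ) (a : GI) : dot d (k • a) = k * dot d a := by
  simp only [dot, pc_zsmul_re, pc_zsmul_im]; ring

theorem pc_det_zsmul (d : GI) (k : ℤ) (a : GI) : det d (k • a) = k * det d a := by
  simp only [det, pc_zsmul_re, pc_zsmul_im]; ring

theorem pc_dot_sq_add_det_sq (d z : GI) : dot d z ^ 2 + det d z ^ 2 = d.norm * z.norm := by
  simp only [dot, det, norm_eq]; ring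

theorem pc_norm_mul_det (d h z : GI) :
    d.norm * det h z = dot d h * det d z - det d h * dot d z := by
  simp only [dot, det, norm_eq]; ring

theorem pc_cell_mem {ρ u : ℤ} (N₀ : ℕ) (hρ : 0 < ρ) (hu : |u| ≤ ρ) :
    (N₀ * u + N₀ * ρ) / ρ ∈ Icc (0 : ℤ) (2 * N₀) := by
  have h1 := abs_le.1 hu
  have h0 : (0 : ℤ) ≤ N₀ := Nat.cast_nonneg _
  rw [mem_Icc]
  refine ⟨Int.ediv_nonneg (by nlinarith) hρ.le, Int.ediv_le_of_le_mul hρ (by nlinarith)⟩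

theorem pc_cell_close {ρ u u' : ℤ} (N₀ : ℕ) (hρ : 0 < ρ)
    (h : (N₀ * u + N₀ * ρ) / ρ = (N₀ * u' + N₀ * ρ) / ρ) : N₀ * |u - u'| ≤ ρ := by
  have h1 := Int.mul_ediv_add_emod (N₀ * u + N₀ * ρ) ρ
  have h2 := Int.mul_ediv_add_emod (N₀ * u' + N₀ * ρ) ρ
  have h3 := Int.emod_nonneg (N₀ * u + N₀ * ρ) hρ.ne'
  have h4 := Int.emod_nonneg (N₀ * u' + N₀ * ρ) hρ.ne'
  have h5 := Int.emod_lt_of_pos (N₀ * u + N₀ * ρ) hρ
  have h6 := Int.emod_lt_of_pos (N₀ * u' + N₀ * ρ) hρ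
  rw [h] at h1
  rw [← abs_of_nonneg (Nat.cast_nonneg N₀ : (0 : ℤ) ≤ N₀), ← abs_mul, abs_le]
  constructor <;> linarith

theorem pc_sub_mem_diffs {γ : ℕ → GI} {t G s s' : ℕ} (hs : s ∈ Ico t (t + G))
    (hs' : s' ∈ Ico t (t + G)) : γ s - γ s' ∈ diffs γ t G :=
  mem_image.2 ⟨(s, s'), mem_product.2 ⟨hs, hs'⟩, rfl⟩

/-- Every nonzero vector is a positive multiple of a primitive one. -/
theorem exists_primitive {h' : GI} (h0 : h' ≠ 0) :
    ∃ (h : GI) (g : ℕ), 1 ≤ g ∧ h' = (g : ℤ) • h ∧ ∀ z : GI, det h z = 0 → ∃ k : ℤ, z = k • h := by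
  have hg : 0 < Int.gcd h'.re h'.im := by
    rw [Int.gcd_pos_iff]
    by_contra hc
    push Not at hc
    exact h0 (Zsqrtd.ext hc.1 hc.2)
  obtain ⟨a, b, hab, ha, hb⟩ := Int.exists_gcd_one hg
  obtain ⟨u, v, huv⟩ := Int.isCoprime_iff_gcd_eq_one.2 hab
  refine ⟨⟨a, b⟩, Int.gcd h'.re h'.im, hg, ?_, fun z hz => ⟨u * z.re + v * z.im, ?_⟩⟩
  · ext
    · rw [pc_zsmul_re]; linarith
    · rw [pc_zsmul_im]; linarith
  · simp only [det] at hz
    ext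
    · rw [pc_zsmul_re]; linear_combination (-z.re) * huv - v * hz
    · rw [pc_zsmul_im]; linear_combination (-z.im) * huv + u * hz

theorem le_card_diffs {D : ℕ} {γ : ℕ → GI} (hγ : IsPath D γ) (t G : ℕ) :
    G ≤ (diffs γ t G).card := by
  have : (Ico t (t + G)).card ≤ (diffs γ t G).card := by
    refine card_le_card_of_injOn (fun s => γ s - γ t) (fun s hs => ?_) fun s _ s' _ h => ?_
    · have hs' : s ∈ Ico t (t + G) := hs
      refine pc_sub_mem_diffs hs' ?_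
      rw [mem_Ico] at hs' ⊢
      omega
    · exact hγ.inj (sub_left_injective h)
  simpa using this

theorem mem_box_of_mem_diffs {D : ℕ} {γ : ℕ → GI} (hγ : IsPath D γ) {t G : ℕ} {z : GI}
    (hz : z ∈ diffs γ t G) : z ∈ box (D * G) := by
  obtain ⟨x, hx, rfl⟩ := mem_image.1 hz
  rw [mem_product, mem_Ico, mem_Ico] at hx
  exact hγ.sub_mem_box hx.1.1 hx.1.2.le hx.2.1 hx.2.2.le

theorem exists_short {D : ℕ} {γ : ℕ → GI} (hγ : IsPath D γ) {t G N₀ : ℕ} (hG : (2 * N₀ + 1) ^ 2 < G)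
    {d₀ : GI} {Δ₁ : ℤ} (hd : d₀ ≠ 0) (hΔ : 0 < Δ₁)
    (hu : ∀ z ∈ diffs γ t G, |dot d₀ z| ≤ d₀.norm) (hv : ∀ z ∈ diffs γ t G, |det d₀ z| ≤ Δ₁) :
    ∃ h : GI, h ≠ 0 ∧ h ∈ box (D * G) ∧ N₀ * |dot d₀ h| ≤ d₀.norm ∧ N₀ * |det d₀ h| ≤ Δ₁ ∧
      ∀ z : GI, det h z = 0 → ∃ k : ℤ, z = k • h := by
  have hρ : 0 < d₀.norm := one_le_norm hd
  have ht : t ∈ Ico t (t + G) := by
    rw [mem_Ico]; omega
  obtain ⟨s, hs, s', hs', hne, he⟩ := exists_ne_map_eq_of_card_lt_of_maps_to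
    (s := Ico t (t + G)) (t := Icc (0 : ℤ) (2 * N₀) ×ˢ Icc (0 : ℤ) (2 * N₀))
    (f := fun s => ((N₀ * dot d₀ (γ s - γ t) + N₀ * d₀.norm) / d₀.norm,
      (N₀ * det d₀ (γ s - γ t) + N₀ * Δ₁) / Δ₁))
    (by
      rw [card_product, Int.card_Icc, Nat.card_Ico, add_tsub_cancel_left]
      have : ((2 * N₀ : ℤ) + 1 - 0).toNat = 2 * N₀ + 1 := by omega
      rw [this, ← sq]; exact hG)
    (fun s hs => mem_coe.2 (mem_product.2
      ⟨pc_cell_mem N₀ hρ (hu _ (pc_sub_mem_diffs hs ht)), pc_cell_mem N₀ hΔ (hv _ (pc_sub_mem_diffs hs ht))⟩))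
  have e1 := pc_cell_close N₀ hρ (congrArg Prod.fst he)
  have e2 := pc_cell_close N₀ hΔ (congrArg Prod.snd he)
  rw [← pc_dot_sub, sub_sub_sub_cancel_right] at e1
  rw [← pc_det_sub, sub_sub_sub_cancel_right] at e2
  have h0 : γ s - γ s' ≠ 0 := sub_ne_zero.2 fun e => hne (hγ.inj e)
  have hb := mem_box_of_mem_diffs hγ (pc_sub_mem_diffs hs hs')
  obtain ⟨h, g, hg, hh, hprim⟩ := exists_primitive h0
  have hg' : (1 : ℤ) ≤ g := by exact_mod_cast hg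
  have key : ∀ x : ℤ, |x| ≤ |(g : ℤ) * x| := fun x => by
    rw [abs_mul, abs_of_nonneg (by linarith : (0 : ℤ) ≤ g)]
    nlinarith [abs_nonneg x]
  have hN : (0 : ℤ) ≤ N₀ := Nat.cast_nonneg _
  rw [hh] at e1 e2 hb h0
  rw [pc_dot_zsmul] at e1
  rw [pc_det_zsmul] at e2
  rw [mem_box, pc_zsmul_re, pc_zsmul_im] at hb
  refine ⟨h, fun e => h0 (by rw [e, smul_zero]), mem_box.2 ⟨(key _).trans hb.1, (key _).trans hb.2⟩,
    (mul_le_mul_of_nonneg_left (key _) hN).trans e1,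
    (mul_le_mul_of_nonneg_left (key _) hN).trans e2, hprim⟩

theorem count_lines {d₀ h : GI} {Δ₁ : ℤ} {R N N₀ : ℕ} (hd : d₀ ≠ 0) (hΔ : 0 < Δ₁) (hh : h ≠ 0)
    (hN : 1 ≤ N) (hN₀ : N ≤ N₀) (h1 : N₀ * |dot d₀ h| ≤ d₀.norm) (h2 : N₀ * |det d₀ h| ≤ Δ₁)
    (hprim : ∀ z : GI, det h z = 0 → ∃ k : ℤ, z = k • h) (𝒞 : Finset GI)
    (hu : ∀ z ∈ 𝒞, |dot d₀ z| ≤ d₀.norm) (hv : ∀ z ∈ 𝒞, |det d₀ z| ≤ Δ₁) (hR : ∀ z ∈ 𝒞, z ∈ box R)
    (hdvd : ∀ z ∈ 𝒞, ∀ z' ∈ 𝒞, ∀ k : ℤ, z - z' = k • h → (N : ℤ) ∣ k) :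
    (𝒞.card : ℤ) * N ≤ 20 * Δ₁ + 4 * R + N := by
  have hρ : (0 : ℝ) < d₀.norm := by exact_mod_cast (one_le_norm hd : 0 < d₀.norm)
  have hΔ' : (0 : ℝ) < Δ₁ := by exact_mod_cast hΔ
  have hN' : (0 : ℝ) < N := by exact_mod_cast hN
  have hNN : (N : ℝ) ≤ N₀ := by exact_mod_cast hN₀
  obtain ⟨α, hα⟩ : ∃ α : ℝ, α = max (|(dot d₀ h : ℝ)| / d₀.norm) (|(det d₀ h : ℝ)| / Δ₁) := ⟨_, rfl⟩
  have hA : |(dot d₀ h : ℝ)| ≤ α * d₀.norm := by
    rw [← div_le_iff₀ hρ, hα]; exact le_max_left _ _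
  have hB : |(det d₀ h : ℝ)| ≤ α * Δ₁ := by
    rw [← div_le_iff₀ hΔ', hα]; exact le_max_right _ _
  have hmax : ∀ x c : ℝ, 0 ≤ x → x * |(dot d₀ h : ℝ)| ≤ c * d₀.norm →
      x * |(det d₀ h : ℝ)| ≤ c * Δ₁ → x * α ≤ c := by
    intro x c hx e1 e2
    rw [hα, mul_max_of_nonneg _ _ hx, ← mul_div_assoc, ← mul_div_assoc]
    exact max_le ((div_le_iff₀ hρ).2 e1) ((div_le_iff₀ hΔ').2 e2)
  have hα0 : 0 < α := by
    by_contra hc
    have hc' : α ≤ 0 := not_lt.1 hc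
    have e1 : dot d₀ h = 0 := by
      have : |(dot d₀ h : ℝ)| ≤ 0 := hA.trans (mul_nonpos_of_nonpos_of_nonneg hc' hρ.le)
      exact_mod_cast abs_nonpos_iff.1 this
    have e2 : det d₀ h = 0 := by
      have : |(det d₀ h : ℝ)| ≤ 0 := hB.trans (mul_nonpos_of_nonpos_of_nonneg hc' hΔ'.le)
      exact_mod_cast abs_nonpos_iff.1 this
    have e3 := pc_dot_sq_add_det_sq d₀ h
    rw [e1, e2] at e3
    nlinarith [one_le_norm hd, one_le_norm hh]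
  have hαN : N * α ≤ 1 := by
    refine le_trans (mul_le_mul_of_nonneg_right hNN hα0.le) (hmax _ _ (Nat.cast_nonneg _) ?_ ?_)
    · rw [one_mul]; exact_mod_cast h1
    · rw [one_mul]; exact_mod_cast h2
  obtain ⟨K, hK⟩ : ∃ K : ℕ, K = ⌊min (2 / (N * α)) (2 * R / N)⌋₊ := ⟨_, rfl⟩
  obtain ⟨L, hL⟩ : ∃ L : ℕ, L = ⌊2 * α * Δ₁⌋₊ := ⟨_, rfl⟩
  have hK0 : (K : ℝ) ≤ min (2 / (N * α)) (2 * R / N) := by
    rw [hK]; exact Nat.floor_le (by positivity)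
  have hK1 : (K : ℝ) * (N * α) ≤ 2 := (le_div_iff₀ (by positivity)).1 (hK0.trans (min_le_left _ _))
  have hK2 : (K : ℝ) * N ≤ 2 * R := (le_div_iff₀ hN').1 (hK0.trans (min_le_right _ _))
  have hL1 : (L : ℝ) ≤ 2 * α * Δ₁ := by
    rw [hL]; exact Nat.floor_le (by positivity)
  have cardIcc : ∀ M : ℕ, (Icc (-(M : ℤ)) M).card = 2 * M + 1 := fun M => by
    rw [Int.card_Icc]; omega
  have memIcc : ∀ (j : ℤ) (x : ℝ), |(j : ℝ)| ≤ x → j ∈ Icc (-(⌊x⌋₊ : ℤ)) ⌊x⌋₊ := by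
    intro j x hj
    have : j.natAbs ≤ ⌊x⌋₊ := Nat.le_floor (by rwa [Nat.cast_natAbs, Int.cast_abs])
    rw [mem_Icc]; omega
  have c1 : (𝒞.image (det h)).card ≤ 2 * L + 1 := by
    rw [← cardIcc]
    refine card_le_card fun a ha => ?_
    obtain ⟨z, hz, rfl⟩ := mem_image.1 ha
    rw [hL]
    refine memIcc _ _ (le_of_mul_le_mul_left ?_ hρ)
    have e0 : (d₀.norm : ℝ) * (det h z : ℝ) = dot d₀ h * det d₀ z - det d₀ h * dot d₀ z := by
      exact_mod_cast pc_norm_mul_det d₀ h z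
    have e1 : |(dot d₀ z : ℝ)| ≤ d₀.norm := by exact_mod_cast hu z hz
    have e2 : |(det d₀ z : ℝ)| ≤ Δ₁ := by exact_mod_cast hv z hz
    calc (d₀.norm : ℝ) * |(det h z : ℝ)| = |(d₀.norm : ℝ) * (det h z : ℝ)| := by
          rw [abs_mul, abs_of_pos hρ]
      _ ≤ |(dot d₀ h : ℝ)| * |(det d₀ z : ℝ)| + |(det d₀ h : ℝ)| * |(dot d₀ z : ℝ)| := by
          rw [e0, ← abs_mul, ← abs_mul]; exact abs_sub _ _
      _ ≤ (α * d₀.norm) * Δ₁ + (α * Δ₁) * d₀.norm :=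
          add_le_add (mul_le_mul hA e2 (abs_nonneg _) (by positivity))
            (mul_le_mul hB e1 (abs_nonneg _) (by positivity))
      _ = d₀.norm * (2 * α * Δ₁) := by ring
  have c2 : ∀ a ∈ 𝒞.image (det h), (𝒞.filter (fun z => det h z = a)).card ≤ 2 * K + 1 := by
    intro a ha
    obtain ⟨z₀, hz₀, rfl⟩ := mem_image.1 ha
    rw [← cardIcc]
    refine le_trans (card_le_card (t := (Icc (-(K : ℤ)) K).image
      (fun j : ℤ => z₀ + ((N : ℤ) * j) • h)) fun z hz => ?_) card_image_le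
    obtain ⟨hz, hdet⟩ := mem_filter.1 hz
    obtain ⟨k, hk⟩ := hprim (z - z₀) (by rw [pc_det_sub, hdet, sub_self])
    obtain ⟨j, rfl⟩ := hdvd z hz z₀ hz₀ k hk
    refine mem_image.2 ⟨j, ?_, by rw [← hk]; abel⟩
    rw [hK]
    refine memIcc _ _ (le_min ?_ ?_)
    · rw [le_div_iff₀ (by positivity), ← mul_assoc]
      have e1 : |j| * N * |dot d₀ h| ≤ 2 * d₀.norm := by
        have := pc_dot_sub d₀ z z₀
        rw [hk, pc_dot_zsmul] at this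
        have h3 := abs_sub (dot d₀ z) (dot d₀ z₀)
        rw [← this, abs_mul, abs_mul, Nat.abs_cast] at h3
        linarith [hu z hz, hu z₀ hz₀]
      have e2 : |j| * N * |det d₀ h| ≤ 2 * Δ₁ := by
        have := pc_det_sub d₀ z z₀
        rw [hk, pc_det_zsmul] at this
        have h3 := abs_sub (det d₀ z) (det d₀ z₀)
        rw [← this, abs_mul, abs_mul, Nat.abs_cast] at h3
        linarith [hv z hz, hv z₀ hz₀]
      exact hmax _ _ (by positivity) (by exact_mod_cast e1) (by exact_mod_cast e2)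
    · rw [le_div_iff₀ hN']
      have b1 := mem_box.1 (hR z hz)
      have b2 := mem_box.1 (hR z₀ hz₀)
      have e1 : |j| * N * |h.re| ≤ 2 * R := by
        have := Zsqrtd.re_sub z z₀
        rw [hk, pc_zsmul_re] at this
        have h3 := abs_sub z.re z₀.re
        rw [← this, abs_mul, abs_mul, Nat.abs_cast] at h3
        linarith [b1.1, b2.1]
      have e2 : |j| * N * |h.im| ≤ 2 * R := by
        have := Zsqrtd.im_sub z z₀
        rw [hk, pc_zsmul_im] at this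
        have h3 := abs_sub z.im z₀.im
        rw [← this, abs_mul, abs_mul, Nat.abs_cast] at h3
        linarith [b1.2, b2.2]
      have e3 : 1 ≤ |h.re| ∨ 1 ≤ |h.im| := by
        by_contra hc
        push Not at hc
        exact hh (Zsqrtd.ext (by simpa using Int.abs_lt_one_iff.1 hc.1)
          (by simpa using Int.abs_lt_one_iff.1 hc.2))
      have e4 : (0 : ℤ) ≤ |j| * N := by positivity
      have e5 : |j| * N ≤ 2 * R := by
        rcases e3 with e3 | e3 <;> nlinarith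
      exact_mod_cast e5
  have c3 : 𝒞.card ≤ (2 * K + 1) * (2 * L + 1) :=
    (card_le_mul_card_image 𝒞 _ c2).trans (Nat.mul_le_mul_left _ c1)
  have c4 : (𝒞.card : ℝ) ≤ (2 * K + 1) * (2 * L + 1) := by exact_mod_cast c3
  have hK' : (0 : ℝ) ≤ K := Nat.cast_nonneg _
  have c5 : (𝒞.card : ℝ) * N ≤ 20 * Δ₁ + 4 * R + N := by
    have d1 : (K : ℝ) * N * L ≤ 4 * Δ₁ := by
      calc (K : ℝ) * N * L ≤ K * N * (2 * α * Δ₁) := mul_le_mul_of_nonneg_left hL1 (by positivity)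
        _ = (K * (N * α)) * (2 * Δ₁) := by ring
        _ ≤ 2 * (2 * Δ₁) := mul_le_mul_of_nonneg_right hK1 (by positivity)
        _ = 4 * Δ₁ := by ring
    have d2 : (L : ℝ) * N ≤ 2 * Δ₁ := by
      calc (L : ℝ) * N ≤ (2 * α * Δ₁) * N := mul_le_mul_of_nonneg_right hL1 hN'.le
        _ = (N * α) * (2 * Δ₁) := by ring
        _ ≤ 1 * (2 * Δ₁) := mul_le_mul_of_nonneg_right hαN (by positivity)
        _ = 2 * Δ₁ := by ring
    calc (𝒞.card : ℝ) * N ≤ (2 * K + 1) * (2 * L + 1) * N := mul_le_mul_of_nonneg_right c4 hN'.le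
      _ = 4 * (K * N * L) + 2 * (L * N) + 2 * (K * N) + N := by ring
      _ ≤ 20 * Δ₁ + 4 * R + N := by linarith
  exact_mod_cast c5

theorem exists_count {D : ℕ} {γ : ℕ → GI} (hγ : IsPath D γ) {t G N₀ : ℕ} (hN₀ : 1 ≤ N₀)
    (hG : (2 * N₀ + 1) ^ 2 < G) :
    ∃ h : GI, h ≠ 0 ∧ h ∈ box (D * G) ∧ ∀ N : ℕ, 1 ≤ N → N ≤ N₀ → ∀ 𝒞 ⊆ diffs γ t G,
      (∀ z ∈ 𝒞, ∀ z' ∈ 𝒞, ∀ k : ℤ, z - z' = k • h → (N : ℤ) ∣ k) →
        𝒞.card * N ≤ (20 * (4 * D + 1) ^ 2 + 4 * D + 21) * (diffs γ t G).card := by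
  have hG2 : 9 < G := lt_of_le_of_lt (by nlinarith) hG
  have hNG : N₀ ≤ G := by nlinarith
  have hZ := le_card_diffs hγ t G
  have ht : t ∈ Ico t (t + G) := by rw [mem_Ico]; omega
  have ht1 : t + 1 ∈ Ico t (t + G) := by rw [mem_Ico]; omega
  obtain ⟨d₀, hd₀, hmax⟩ := exists_max_image (diffs γ t G) (fun z => z.norm) ⟨_, pc_sub_mem_diffs ht ht⟩
  have hρ : 1 ≤ d₀.norm :=
    (one_le_norm (sub_ne_zero.2 fun e => by simpa using hγ.inj e)).trans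
      (hmax _ (pc_sub_mem_diffs ht1 ht))
  have hd : d₀ ≠ 0 := by
    rintro rfl
    simp at hρ
  have hu : ∀ z ∈ diffs γ t G, |dot d₀ z| ≤ d₀.norm := fun z hz => by
    refine abs_le_of_sq_le_sq' ?_ (by linarith) |> abs_le.2
    have h1 := pc_dot_sq_add_det_sq d₀ z
    have h2 := hmax z hz
    nlinarith [sq_nonneg (det d₀ z)]
  have hv : ∀ z ∈ diffs γ t G, |det d₀ z| ≤ (4 * D + 1 : ℤ) ^ 2 * (diffs γ t G).card :=
    fun z hz => area_le hγ hd₀ hz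
  have hΔ : (0 : ℤ) < (4 * D + 1 : ℤ) ^ 2 * (diffs γ t G).card := by
    have : 0 < (diffs γ t G).card := by omega
    positivity
  obtain ⟨h, h0, hb, h1, h2, hprim⟩ := exists_short hγ hG hd hΔ hu hv
  refine ⟨h, h0, hb, fun N hN hNN 𝒞 h𝒞 hdvd => ?_⟩
  have key := count_lines hd hΔ h0 hN hNN h1 h2 hprim 𝒞 (fun z hz => hu z (h𝒞 hz))
    (fun z hz => hv z (h𝒞 hz)) (fun z hz => mem_box_of_mem_diffs hγ (h𝒞 hz)) hdvd
  have key' : 𝒞.card * N ≤ 20 * ((4 * D + 1) ^ 2 * (diffs γ t G).card) + 4 * (D * G) + N := by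
    exact_mod_cast key
  have e1 : D * G ≤ D * (diffs γ t G).card := Nat.mul_le_mul_left _ hZ
  nlinarith

end Crest.Agent.R2
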