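import Crest.Agent.R2.Kern
import Crest.Agent.R2.Ell

/-!
# Row 2: the single-point kernel, data counts

Recipes.
* `E_pick`: unfold `pick`, `FD.E_ofFn`, `sum_insert`, `sum_image`.
* `hit_pick`: `hit ξ (pick N S) B = #{τ ∈ S | ξ τ ∈ B} / N`.
* `ptOK`: atoms from `atom_unif` (`hit id (pick N S) {τ} ≤ ind (τ ∈ S)`), `(Sp + 1) / y ^ 10 ≤ 1 / y²`.
* `hit_pt_le`: if `ξ` is injective on `S` then `#{τ ∈ S | ξ τ = v} ≤ ind (∃ τ ∈ S, ξ τ = v)`, so
  `hit ξ (PtOf ..) {v} ≤ x / N` with `x = hit ξ (JK ..) {v}`, and `1 - (1 - x / N) ^ N ≤ x`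
  (`hit_Blk_le` does it at once).
* `avg_lam`: `∑_v ind (∃ τ ∈ S, ξ τ = v) = S.card` when `S.card ≤ 1`.
* `pt_L2`: `avg (lam²) = p ∑_v (hit {v})² = μ.E μ.E (p ∑_v ind(S hits v) ind(S' hits v))`, and for
  `card ≤ 1` the inner sum is `≤ ∑_{τ ∈ S} ∑_{τ' ∈ S'} ind (ξ τ = ξ τ')`. Sum with weights `w p`: for
  `τ ≠ τ'` use `Fam.sieve` with `N (γ τ - γ τ') ≤ 2 (D * 2 y¹⁰)²`, `log (8 D²) ≤ log y`, giving `≤ 4200`;
  for `τ = τ'` use `∑ w p * p ≤ y²` and `Atom`: `μ.E (ind (τ ∈ S')) ≤ 1 / y²`.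
* `Cnt.*`: `T = insert ∅ ((box _).image singleton)`; for a jump `T' = image₂ (fun e d => d.image (· + e)) (box (D G)) T`;
  for a block the image of `Fintype.piFinset (fun _ => T)` under `biUnion` (`data_biUnion`).
-/

set_option autoImplicit false
open Finset

noncomputable section
namespace Crest.Agent.R2
open Classical

theorem E_pick {N : ℕ} {S : Finset ℕ} (hS : S.card ≤ N) (hN : 1 ≤ N) (f : Finset ℕ → ℝ) :
    (pick N S).E f = (1 - (S.card : ℝ) / N) * f ∅ + (∑ τ ∈ S, f {τ}) / N := by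
  rw [pick, dif_pos ⟨hS, hN⟩, FD.E_ofFn, sum_insert (by simp [eq_comm]), if_pos rfl,
    sum_image (fun a _ b _ hab => singleton_injective hab)]
  simp only [singleton_ne_empty, if_false, ← mul_sum]
  ring

theorem mem_supp_pick {N : ℕ} {S A : Finset ℕ} (h : A ∈ (pick N S).supp) :
    A = ∅ ∨ ∃ τ ∈ S, A = {τ} := by
  unfold pick at h
  split_ifs at h with h1
  · have := FD.supp_ofFn _ _ _ _ h
    simpa [eq_comm] using this
  · exact Or.inl (FD.eq_of_mem_supp_pure h)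

theorem hit_pick_le {G : Type} (ξ : ℕ → G) (N : ℕ) (S : Finset ℕ) (B : Finset G) :
    hit ξ (pick N S) B ≤ ind (∃ τ ∈ S, ξ τ ∈ B) := by
  refine FD.E_le_const _ fun A hA => ind_mono ?_
  rintro ⟨τ, hτ, h⟩
  rcases mem_supp_pick hA with rfl | ⟨τ', hτ', rfl⟩
  · simp at hτ
  · exact ⟨τ, mem_singleton.1 hτ ▸ hτ', h⟩

theorem size_JK {J : ℕ → FD ℕ} {U : Ker} {N : ℕ} (h : Size U N) : Size (JK J U) N := by
  intro t S hS
  obtain ⟨s, -, hs⟩ := FD.mem_supp_bind.1 hS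
  exact h s S hs

theorem eq_empty_or_single {S : Finset ℕ} (h : S.card ≤ 1) : S = ∅ ∨ ∃ τ, S = {τ} := by
  rcases Nat.le_one_iff_eq_zero_or_eq_one.1 h with h | h
  exacts [Or.inl (card_eq_zero.1 h), Or.inr (card_eq_one.1 h)]

theorem ptOK {y N Sp : ℕ} {U : Ker} {θ : ℝ} (hy : 2 ≤ y) (hN : 1 ≤ N) (hsz : Size U N)
    (hsp : Span U Sp) (hm : Mass U (θ * N)) (hSp : Sp ≤ y) : PtOK y (PtOf (y ^ 10) U N) θ := by
  have hy0 : (0 : ℝ) < y := by positivity
  have hN0 : (0 : ℝ) < N := by positivity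
  refine ⟨fun t A hA => ?_, fun t A hA τ hτ => ?_, fun t τ => ?_, fun t => ?_⟩
  · obtain ⟨S, -, hS⟩ := FD.mem_supp_bind.1 hA
    rcases mem_supp_pick hS with rfl | ⟨τ, -, rfl⟩ <;> simp
  · obtain ⟨S, hS, hA⟩ := FD.mem_supp_bind.1 hA
    obtain ⟨s, hs, hS⟩ := FD.mem_supp_bind.1 hS
    rcases mem_supp_pick hA with rfl | ⟨τ', hτ', rfl⟩
    · simp at hτ
    · rw [mem_singleton.1 hτ]
      have h1 := hsp s S hS τ' hτ'
      have h2 := jumpIn_Unif _ t s hs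
      have h3 : y ≤ y ^ 10 := Nat.le_self_pow (by norm_num) y
      omega
  · rw [PtOf, hit_bind]
    refine (FD.E_mono _ fun S _ => hit_pick_le id N S {τ}).trans
      ((atom_unif (by positivity) hsp t τ).trans ?_)
    have h1 : (Sp : ℝ) ≤ y := by exact_mod_cast hSp
    have h2 : (2 : ℝ) ≤ y := by exact_mod_cast hy
    have h3 : (y : ℝ) ^ 2 ≤ y ^ 8 := pow_le_pow_right₀ (by linarith) (by norm_num)
    rw [div_le_div_iff₀ (by positivity) (by positivity)]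
    push_cast
    calc ((Sp : ℝ) + 1) * (y : ℝ) ^ 2 ≤ (y : ℝ) ^ 8 * (y : ℝ) ^ 2 := by gcongr; nlinarith
      _ = 1 * (y : ℝ) ^ 10 := by ring
  · rw [PtOf, FD.E_bind, FD.E_congr _ (g := fun S => (S.card : ℝ) / N) fun S hS => by
      rw [E_pick (size_JK hsz t S hS) hN]; simp, FD.E_div, le_div_iff₀ hN0, JK, FD.E_bind]
    exact FD.const_le_E _ fun s _ => hm s

/-- The thin block of `N` single points hits a residue less often than the full unit. -/
theorem hit_pt_le {G : Type} (ξ : ℕ → G) {G₀ N : ℕ} {U : Ker} (hN : 1 ≤ N) (hsz : Size U N)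
    (hinj : ∀ s, ∀ S ∈ (U s).supp, Set.InjOn ξ S) (t : ℕ) (v : G) :
    hit ξ (BlkK N (PtOf G₀ U N) t) {v} ≤ hit ξ (JK (Unif G₀) U t) {v} := by
  have hN0 : (0 : ℝ) < N := by positivity
  refine (hit_Blk_le ξ N _ _).trans ?_
  rw [PtOf, hit_bind, ← FD.E_mul_left]
  refine FD.E_mono _ fun S hS => ?_
  obtain ⟨s, -, hs⟩ := FD.mem_supp_bind.1 hS
  rw [hit, E_pick (hsz s S hs) hN, ind_neg (by simp), mul_zero, zero_add, mul_div_cancel₀ _ hN0.ne']
  by_cases h : ∃ τ ∈ S, ξ τ ∈ ({v} : Finset G)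
  · rw [ind_pos h, sum_ind_eq_card, Nat.cast_le_one]
    refine card_le_one.2 fun a ha b hb => ?_
    simp only [mem_filter, mem_singleton, exists_eq_left] at ha hb
    exact hinj s S hs ha.1 hb.1 (ha.2.trans hb.2.symm)
  · rw [ind_neg h]
    exact (sum_eq_zero fun τ hτ => ind_neg fun h' => h ⟨τ, hτ, by simpa using h'⟩).le

theorem avg_lam {G : Type} [Fintype G] [Nonempty G] (ξ : ℕ → G) (μ : FD (Finset ℕ))
    (h : ∀ S ∈ μ.supp, S.card ≤ 1) : avg (lam ξ μ 1) = μ.E (fun S => (S.card : ℝ)) := by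
  have hc := card_pos' (G := G)
  simp only [avg, lam, hit, div_one, ← mul_sum]
  rw [mul_div_cancel_left₀ _ hc.ne', ← FD.E_sum]
  refine FD.E_congr _ fun S hS => ?_
  rcases eq_empty_or_single (h S hS) with rfl | ⟨τ, rfl⟩ <;> simp [ind]

theorem avg_lam_sq {G : Type} [Fintype G] [Nonempty G] (ξ : ℕ → G) (μ : FD (Finset ℕ)) :
    avg (fun v => lam ξ μ 1 v ^ 2) = μ.E fun S => μ.E fun S' => (Fintype.card G : ℝ) *
      ∑ v, ind (∃ τ ∈ S, ξ τ ∈ ({v} : Finset G)) * ind (∃ τ ∈ S', ξ τ ∈ ({v} : Finset G)) := by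
  have hc := card_pos' (G := G)
  simp only [FD.E_mul_left, FD.E_sum, FD.E_mul_right, avg, lam, hit, div_one, mul_pow, ← mul_sum]
  rw [div_eq_iff hc.ne']
  simp only [sq]
  ring

theorem le_of_log_ten_mul {D y : ℕ} (hD1 : 1 ≤ D) (hy : 2 ≤ y)
    (hD : Real.log (10 * D) ≤ Real.log y / 100) : 10 * D ≤ y := by
  have h1 : (0 : ℝ) < y := by positivity
  have h2 : 0 ≤ Real.log y := Real.log_natCast_nonneg y
  have h3 : (10 : ℝ) * D ≤ y := (Real.log_le_log_iff (by positivity) h1).1 (by linarith)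
  exact_mod_cast h3

theorem pt_L2 {D y : ℕ} {γ : ℕ → GI} (hγ : IsPath D γ) {Ps : Finset P1} {w : P1 → ℝ}
    (hF : Fam y Ps w) (hy : 2 ≤ y) (hD : Real.log (10 * D) ≤ Real.log y / 100) {Pt : Ker} {θ : ℝ}
    (hPt : PtOK y Pt θ) (s : ℕ) :
    ∑ p ∈ Ps, w p * avg (fun v => lam (xi γ p) (Pt s) 1 v ^ 2) ≤ 5000 := by
  have hy0 : (0 : ℝ) < y := by positivity
  have hL : 0 < Real.log y := Real.log_pos (by exact_mod_cast hy)
  have hD0 : (0 : ℝ) < D := by exact_mod_cast hγ.one_le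
  simp only [avg_lam_sq, ← FD.E_mul_left, ← FD.E_sum, card_zmod]
  refine FD.E_le_const _ fun S hS => ?_
  rcases eq_empty_or_single (hPt.size s S hS) with rfl | ⟨τ, rfl⟩
  · simp [ind]
  have h1 := hPt.atom s τ
  refine (FD.E_mono _ (g := fun S' => 4200 + (y : ℝ) ^ 2 * ind (∃ τ' ∈ S', id τ' ∈ ({τ} : Finset ℕ)))
    fun S' hS' => ?_).trans ?_
  swap
  · rw [FD.E_add, FD.E_const, FD.E_mul_left]
    have h2 := mul_le_mul_of_nonneg_left h1 (sq_nonneg (y : ℝ))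
    rw [mul_one_div_cancel (by positivity), hit] at h2
    linarith
  have h0 : 0 ≤ (y : ℝ) ^ 2 * ind (∃ τ' ∈ S', id τ' ∈ ({τ} : Finset ℕ)) :=
    mul_nonneg (sq_nonneg _) (ind_nonneg _)
  rcases eq_empty_or_single (hPt.size s S' hS') with rfl | ⟨τ', rfl⟩
  · simp [ind]
  have h3 : ∀ p : P1, ∑ v, ind (∃ σ ∈ ({τ} : Finset ℕ), xi γ p σ ∈ ({v} : Finset (ZMod p.1))) *
      ind (∃ σ ∈ ({τ'} : Finset ℕ), xi γ p σ ∈ ({v} : Finset (ZMod p.1))) =
      ind (res p (γ τ - γ τ') = 0) := by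
    intro p
    rw [← xi_sub, sub_eq_zero]
    simp [ind, eq_comm]
  simp only [h3, ← mul_assoc]
  by_cases hτ : τ = τ'
  · subst hτ
    rw [ind_pos (p := ∃ τ' ∈ ({τ} : Finset ℕ), id τ' ∈ ({τ} : Finset ℕ)) (by simp)]
    have h4 : ∑ p ∈ Ps, w p * p.1 * ind (res p (γ τ - γ τ) = 0) ≤ ∑ p ∈ Ps, w p * (y : ℝ) ^ 2 :=
      sum_le_sum fun p hp => by
        rw [ind_pos (by simp), mul_one]
        exact mul_le_mul_of_nonneg_left (by exact_mod_cast hF.hi p hp) (hF.nonneg p)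
    rw [← sum_mul, hF.sum_one] at h4
    linarith
  · have hd : γ τ - γ τ' ≠ 0 := sub_ne_zero.2 fun e => hτ (hγ.inj e)
    have a1 := hPt.span s _ hS τ (mem_singleton_self _)
    have a2 := hPt.span s _ hS' τ' (mem_singleton_self _)
    have a3 : ((γ τ - γ τ').norm : ℝ) ≤ 2 * ((D : ℝ) * (2 * y ^ 10)) ^ 2 := by
      exact_mod_cast norm_le_of_mem_box (hγ.sub_mem_box a1.1 a1.2 a2.1 a2.2)
    have a4 : (0 : ℝ) < (γ τ - γ τ').norm := by exact_mod_cast one_le_norm hd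
    have a5 : Real.log (γ τ - γ τ').norm ≤ 2 * Real.log (10 * D) + 20 * Real.log y := by
      have : (0 : ℝ) ≤ ((D : ℝ) * y ^ 10) ^ 2 := sq_nonneg _
      calc Real.log (γ τ - γ τ').norm ≤ Real.log ((10 * D) ^ 2 * (y : ℝ) ^ 20) :=
            Real.log_le_log a4 (by nlinarith)
        _ = _ := by
            rw [Real.log_mul (by positivity) (by positivity), Real.log_pow, Real.log_pow]
            norm_num
    refine (hF.sieve _ hd).trans ?_
    rw [div_le_iff₀ hL]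
    nlinarith [mul_nonneg h0 hL.le]

theorem data_biUnion (γ : ℕ → GI) (t : ℕ) {k : ℕ} (x : Fin k → Finset ℕ) :
    data γ t (univ.biUnion x) = univ.biUnion (fun i => data γ t (x i)) := by
  simp only [data, biUnion_image]

theorem data_shift (γ : ℕ → GI) (t s : ℕ) (S : Finset ℕ) :
    data γ t S = (data γ s S).image (fun z => z + (γ s - γ t)) := by
  simp only [data, image_image]
  congr 1
  funext τ
  simp

theorem Cnt.mono {γ : ℕ → GI} {κ : Ker} {H H' : ℝ} (h : Cnt γ κ H) (hH : H ≤ H') : Cnt γ κ H' := by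
  obtain ⟨T, h1, h2⟩ := h
  exact ⟨T, h1.trans (Real.exp_le_exp.2 hH), h2⟩

theorem cnt_pt {D y : ℕ} {γ : ℕ → GI} (hγ : IsPath D γ) (hy : 2 ≤ y)
    (hD : Real.log (10 * D) ≤ Real.log y / 100) {Pt : Ker} {θ : ℝ} (hPt : PtOK y Pt θ) :
    Cnt γ Pt (22 * Real.log y) := by
  refine ⟨insert ∅ ((box (D * (2 * y ^ 10))).image singleton), ?_, fun t S hS => ?_⟩
  · have h1 := le_of_log_ten_mul hγ.one_le hy hD
    have h2 := hγ.one_le
    have h3 : 1 ≤ y ^ 10 := Nat.one_le_pow _ _ (by omega)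
    have h4 : (2 * (D * (2 * y ^ 10)) + 1) ^ 2 + 1 ≤ y ^ 22 := by
      have b1 : 2 * (2 * (D * (2 * y ^ 10)) + 1) ≤ y * y ^ 10 := by nlinarith
      have b2 := Nat.pow_le_pow_left b1 2
      have b3 : (y * y ^ 10) ^ 2 = y ^ 22 := by ring
      have b4 : 1 ≤ (2 * (D * (2 * y ^ 10)) + 1) ^ 2 := Nat.one_le_pow _ _ (by omega)
      rw [mul_pow] at b2
      omega
    have h5 := (card_insert_le (∅ : Finset GI) ((box (D * (2 * y ^ 10))).image singleton)).trans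
      ((Nat.succ_le_succ (card_image_le.trans (card_box_le _))).trans h4)
    rw [show (22 : ℝ) * Real.log y = Real.log ((y : ℝ) ^ 22) by rw [Real.log_pow]; norm_num,
      Real.exp_log (by positivity)]
    exact_mod_cast h5
  · rcases eq_empty_or_single (hPt.size t S hS) with rfl | ⟨τ, rfl⟩
    · simp [data]
    · have a1 := hPt.span t _ hS τ (mem_singleton_self _)
      rw [data, image_singleton]
      exact mem_insert_of_mem (mem_image_of_mem _
        (hγ.sub_mem_box a1.1 a1.2 le_rfl (Nat.le_add_right _ _)))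

theorem Cnt.jump {D G : ℕ} {γ : ℕ → GI} (hγ : IsPath D γ) {κ : Ker} {H : ℝ} (h : Cnt γ κ H)
    {J : ℕ → FD ℕ} (hJ : JumpIn J G) :
    Cnt γ (JK J κ) (H + Real.log ((2 * ((D : ℝ) * G) + 1) ^ 2)) := by
  obtain ⟨T, h1, h2⟩ := h
  refine ⟨image₂ (fun e (d : Finset GI) => d.image (fun z => z + e)) (box (D * G)) T, ?_,
    fun t S hS => ?_⟩
  · have h3 : ((box (D * G)).card : ℝ) ≤ (2 * ((D : ℝ) * G) + 1) ^ 2 := by
      exact_mod_cast card_box_le (D * G)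
    rw [Real.exp_add, Real.exp_log (by positivity), mul_comm (Real.exp H)]
    have h4 := card_image₂_le (fun e (d : Finset GI) => d.image (fun z => z + e)) (box (D * G)) T
    refine le_trans (by exact_mod_cast h4) (mul_le_mul h3 h1 (Nat.cast_nonneg _) (by positivity))
  · obtain ⟨s, hs, hS⟩ := FD.mem_supp_bind.1 hS
    rw [data_shift γ t s]
    exact mem_image₂_of_mem (hγ.sub_mem_box (hJ t s hs).1 (hJ t s hs).2 le_rfl
      (Nat.le_add_right _ _)) (h2 s S hS)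

theorem Cnt.blk {γ : ℕ → GI} {κ : Ker} {H : ℝ} (h : Cnt γ κ H) (k : ℕ) :
    Cnt γ (BlkK k κ) (k * H) := by
  obtain ⟨T, h1, h2⟩ := h
  refine ⟨(Fintype.piFinset fun _ : Fin k => T).image fun x => univ.biUnion x, ?_, fun t S hS => ?_⟩
  · rw [Real.exp_nat_mul]
    refine le_trans ?_ (pow_le_pow_left₀ (Nat.cast_nonneg _) h1 k)
    exact_mod_cast card_image_le.trans_eq (by simp)
  · obtain ⟨x, hx, rfl⟩ := mem_supp_Blk.1 hS
    rw [data_biUnion]
    exact mem_image_of_mem _ (Fintype.mem_piFinset.2 fun i => h2 t _ (hx i))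

theorem cnt_tree {D : ℕ} {γ : ℕ → GI} (hγ : IsPath D γ) (J : ℕ → ℕ → FD ℕ) (k n Gs : ℕ → ℕ)
    {κ : Ker} {h ε : ℝ} (h0 : Cnt γ κ (h * n 0)) (hn : ∀ i, n (i + 1) = k i * n i) (i : ℕ)
    (hJ : ∀ l < i, JumpIn (J l) (Gs l))
    (hG : ∀ l < i, Real.log ((2 * ((D : ℝ) * Gs l) + 1) ^ 2) ≤ ε * n (l + 1)) :
    Cnt γ (tree J k κ i) ((h + i * ε) * n i) := by
  induction i with
  | zero => simpa [tree] using h0
  | succ i ih =>
    have h1 := ih (fun l hl => hJ l (by omega)) (fun l hl => hG l (by omega))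
    refine (Cnt.jump hγ (h1.blk (k i)) (hJ i (by omega))).mono ?_
    have h2 := hG i (by omega)
    rw [hn i] at h2 ⊢
    push_cast at h2 ⊢
    linarith

end Crest.Agent.R2
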