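import Crest.Agent.R2.Code
import Crest.Agent.R2.Fam

/-!
# Row 2: the entropy decrement over the scales of one range

Recipes.
* `E_log_unc_le`: `xi γ p t ∈ unc p (data γ t S)` by avoidance, so the card is positive; `FD.E_log_le`;
  `card (unc ..) = ∑_a ind (∀ z ∈ data, a + res z ≠ 0) = ∑_v (1 - ind (∃ τ ∈ S, ξ τ ∈ {v}))` by the bijection
  `v = ξ t - a` (`Equiv.subLeft`, `Equiv.sum_comp`); `sum_exp_eq`.
* `one_scale`: `Code.dec` with `Y = (p : Q) → ZMod p.1.1`, `pos t p = xi γ p.1 t`,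
  `U d = Fintype.piFinset (fun p => unc p.1 d)` (`Fintype.card_piFinset`, `Real.log_prod`), and `class_mass`
  (extend `a : Y` to all primes by `0`), `log (3 D / √N) = log (3 D) - (∑ log p) / 2`.
* `scales_drop`: `ρ = ρ₀.bind (Unif G)`, `good = {p ∈ fam y | ρ.E (dfc ..) ≤ 0.02 log y}` has `wt`-weight
  `≥ 1 / 2` (Markov, `fam_ok`), i.e. `∑_{good} log p / p ≥ Wt y / 2 ≥ log y / 400`. Induction on `s ≤ nS y`:
  `Code ρ (scales 100 V s) ((h - a * ∑_{p ∈ good, p < y 100^s} log p / p + s * log (3 D) / y) * (100 ^ s * N₀))`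
  with `a = 0.0146 / (220 log y)`, using `one_scale` for `Q = {p ∈ good | y 100^s ≤ p < y 100^(s+1)}`
  (`miss_scales`, `prod_le_four_pow`, `mul_pow_nS_le`; `ρ.E ell ≥ 0.53 log y` by `sub_dfc_le_ell`;
  `0.53 L - 0.505 log p ≥ 0.0146 log p` by `log_le_of_mem_fam`; `100 ^ s N₀ ≤ 220 L p`, `y ≤ 100 ^ s N₀`).
-/

set_option autoImplicit false
open Finset

noncomputable section
namespace Crest.Agent.R2
open Classical

/-- The residues of the base point that are compatible with the data and with avoidance of `0`. -/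
def unc (p : P1) (d : Finset GI) : Finset (ZMod p.1) :=
  univ.filter (fun a => ∀ z ∈ d, a + res p z ≠ 0)

theorem xi_mem_unc {γ : ℕ → GI} {p : P1} (hav : ∀ t, res p (γ t) ≠ 0) (t : ℕ) (S : Finset ℕ) :
    xi γ p t ∈ unc p (data γ t S) := by
  refine mem_filter.mpr ⟨mem_univ _, fun z hz => ?_⟩
  obtain ⟨τ, -, rfl⟩ := mem_image.mp hz
  rw [← xi_sub, add_sub_cancel]
  exact hav τ

theorem E_log_unc_le {γ : ℕ → GI} {p : P1} (hav : ∀ t, res p (γ t) ≠ 0) (μ : FD (Finset ℕ)) (t : ℕ)
    {β : ℝ} {g : ZMod p.1 → ℝ} (hmiss : ∀ v, 1 - hit (xi γ p) μ {v} ≤ Real.exp (-(β * g v))) :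
    μ.E (fun S => Real.log (unc p (data γ t S)).card) ≤ Real.log p.1 - ell β g := by
  have hpos : ∀ S : Finset ℕ, (0 : ℝ) < (unc p (data γ t S)).card := fun S => by
    exact_mod_cast card_pos.mpr ⟨_, xi_mem_unc hav t S⟩
  have hcard : ∀ S : Finset ℕ, ((unc p (data γ t S)).card : ℝ) =
      ∑ v : ZMod p.1, (1 - ind (∃ τ ∈ S, xi γ p τ ∈ ({v} : Finset (ZMod p.1)))) := fun S => by
    have e : ((unc p (data γ t S)).card : ℝ) =
        ∑ a : ZMod p.1, ind (∀ z ∈ data γ t S, a + res p z ≠ 0) := by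
      rw [sum_ind_eq_card]
      unfold unc
      congr
    rw [e, ← Equiv.sum_comp (Equiv.subLeft (xi γ p t))]
    refine sum_congr rfl fun v _ => ?_
    rw [← ind_not]
    refine ind_congr ?_
    simp only [data, mem_image, forall_exists_index, and_imp, forall_apply_eq_imp_iff₂,
      Equiv.subLeft_apply, mem_singleton, not_exists, not_and, ← xi_sub]
    refine forall₂_congr fun τ _ => not_congr ⟨fun h => ?_, fun h => ?_⟩
    · linear_combination h
    · linear_combination h
  have h1 : μ.E (fun S => ((unc p (data γ t S)).card : ℝ)) ≤ p.1 * Real.exp (-ell β g) := by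
    simp only [hcard]
    have e := sum_exp_eq β g
    rw [card_zmod] at e
    rw [μ.E_sum, ← e]
    refine sum_le_sum fun v _ => le_trans (le_of_eq ?_) (hmiss v)
    rw [μ.E_sub, FD.E_const]
    rfl
  have hp : (0 : ℝ) < p.1 := by exact_mod_cast p.2.1.pos
  refine (μ.E_log_le fun S _ => hpos S).trans
    ((Real.log_le_log (μ.E_pos fun S _ => hpos S) h1).trans (le_of_eq ?_))
  rw [Real.log_mul hp.ne' (Real.exp_pos _).ne', Real.log_exp, sub_eq_add_neg]

theorem one_scale {D : ℕ} {γ : ℕ → GI} (hγ : IsPath D γ) (Q : Finset P1)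
    (hav : ∀ p ∈ Q, ∀ t, res p (γ t) ≠ 0) {G : ℕ} (hG : ∏ p ∈ Q, p.1 ≤ G ^ 2) (ρ₀ : FD ℕ) {V : Ker}
    {H : ℝ} (h : Code γ (ρ₀.bind (Unif G)) V H) {β : ℝ} (g : ℕ → (p : P1) → ZMod p.1 → ℝ)
    (hmiss : ∀ p ∈ Q, ∀ t v, 1 - hit (xi γ p) (V t) {v} ≤ Real.exp (-(β * g t p v)))
    {A : ℕ} (hA : 1 ≤ A) :
    Code γ (ρ₀.bind (Unif G)) (BlkK A V)
      (A * H + A * ∑ p ∈ Q, (Real.log p.1 - (ρ₀.bind (Unif G)).E (fun t => ell β (g t p))) +
        ((A : ℝ) - 1) * (Real.log (3 * D) - (∑ p ∈ Q, Real.log p.1) / 2)) := by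
  have hD : (0 : ℝ) < 3 * D := by
    have : (1 : ℝ) ≤ D := by exact_mod_cast hγ.one_le
    linarith
  have hp : ∀ p : P1, (0 : ℝ) < p.1 := fun p => by exact_mod_cast p.2.1.pos
  have hN : (0 : ℝ) < ((∏ p ∈ Q, p.1 : ℕ) : ℝ) := by
    push_cast
    exact prod_pos fun p _ => hp p
  have key := h.dec (Y := (p : Q) → ZMod p.1.1) (fun t p => xi γ p.1 t)
    (fun d => Fintype.piFinset fun p : Q => unc p.1 d)
    (fun t _ S _ => Fintype.mem_piFinset.mpr fun p => xi_mem_unc (hav p.1 p.2) t S)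
    (μ₀ := 3 * D / Real.sqrt ((∏ p ∈ Q, p.1 : ℕ) : ℝ))
    (Lg := ∑ p ∈ Q, (Real.log p.1 - (ρ₀.bind (Unif G)).E (fun t => ell β (g t p))))
    (fun a => by
      refine le_trans (FD.E_mono _ fun t _ => ind_mono fun ht p hpQ => ?_)
        (class_mass hγ Q hG ρ₀ fun p => if hpQ : p ∈ Q then a ⟨p, hpQ⟩ else 0)
      rw [dif_pos hpQ]
      exact congrFun ht ⟨p, hpQ⟩)
    (by
      have e : ∀ (t : ℕ) (S : Finset ℕ),
          Real.log (Fintype.piFinset fun p : Q => unc p.1 (data γ t S)).card =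
            ∑ p ∈ Q, Real.log (unc p (data γ t S)).card := fun t S => by
        rw [Fintype.card_piFinset, Nat.cast_prod, Real.log_prod fun p _ => by
          exact_mod_cast (card_pos.mpr ⟨_, xi_mem_unc (hav p.1 p.2) t S⟩).ne']
        exact sum_coe_sort Q fun p => Real.log (unc p (data γ t S)).card
      simp only [e, FD.E_sum]
      refine sum_le_sum fun p hpQ => ?_
      refine (FD.E_mono _ fun t _ => E_log_unc_le (hav p hpQ) (V t) t (hmiss p hpQ t)).trans
        (le_of_eq ?_)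
      rw [FD.E_sub, FD.E_const]) hA
  rwa [Real.log_div hD.ne' (Real.sqrt_pos.mpr hN).ne', Real.log_sqrt hN.le, Nat.cast_prod,
    Real.log_prod fun p _ => (hp p).ne'] at key

theorem scales_drop {D y : ℕ} {γ : ℕ → GI} (hγ : IsPath D γ) (hy : 2 ≤ y)
    (hW : Real.log y / 200 ≤ Wt y) (hav : ∀ p ∈ fam y, ∀ t, res p (γ t) ≠ 0) {G : ℕ}
    (hG : 2 ^ (y ^ 2) ≤ G) (ρ₀ : FD ℕ) {V : Ker} {N₀ : ℕ} {h β : ℝ}
    (hcode : Code γ (ρ₀.bind (Unif G)) V (h * N₀)) (hN1 : y ≤ N₀)
    (hN2 : (N₀ : ℝ) ≤ 220 * Real.log y * y) (g : ℕ → (p : P1) → ZMod p.1 → ℝ)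
    (hmiss : ∀ s, ∀ p ∈ fam y, p.1 < y * 100 ^ (s + 1) → ∀ t v,
      (1 - hit (xi γ p) (V t) {v}) ^ (100 ^ s) ≤ Real.exp (-(β * g t p v)))
    (hdef : ∀ t, ∑ p ∈ fam y, wt y p * dfc (0.55 * Real.log y) β (g t p) ≤ Real.log y / 100) :
    Code γ (ρ₀.bind (Unif G)) (scales 100 V (nS y))
      ((h - 1.5 / 10 ^ 7 + nS y * Real.log (3 * D) / y) * (100 ^ nS y * N₀ : ℕ)) := by
  set ρ := ρ₀.bind (Unif G) with hρ
  set L := Real.log y with hL
  have hy0 : (0 : ℝ) < y := by exact_mod_cast (by omega : 0 < y)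
  have hL0 : 0 < L := Real.log_pos (by exact_mod_cast (by omega : 1 < y))
  have hF := fam_ok hy hW
  have hp : ∀ p : P1, (0 : ℝ) < p.1 := fun p => by exact_mod_cast p.2.1.pos
  have hlp : ∀ p : P1, 0 ≤ Real.log p.1 := fun p => Real.log_natCast_nonneg _
  have hD : 0 ≤ Real.log (3 * D) := by
    have : (1 : ℝ) ≤ D := by exact_mod_cast hγ.one_le
    exact Real.log_nonneg (by linarith)
  set good := (fam y).filter fun p => ρ.E (fun t => dfc (0.55 * L) β (g t p)) ≤ 0.02 * L
    with hgood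
  have hgw : L / 400 ≤ ∑ p ∈ good, Real.log p.1 / p.1 := by
    have a1 : ∑ p ∈ fam y, wt y p * ρ.E (fun t => dfc (0.55 * L) β (g t p)) ≤ L / 100 := by
      simp only [← FD.E_mul_left]
      rw [← FD.E_sum]
      exact ρ.E_le_const fun t _ => hdef t
    have a2 : ∑ p ∈ (fam y).filter
        (fun p => ¬ ρ.E (fun t => dfc (0.55 * L) β (g t p)) ≤ 0.02 * L), wt y p * (0.02 * L) ≤
        L / 100 := by
      refine le_trans (sum_le_sum fun p hpm => mul_le_mul_of_nonneg_left
        (not_le.mp (mem_filter.mp hpm).2).le (hF.nonneg p)) (le_trans ?_ a1)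
      exact sum_le_sum_of_subset_of_nonneg (filter_subset _ _) fun p _ _ =>
        mul_nonneg (hF.nonneg p) (ρ.E_nonneg fun t _ => dfc_nonneg _ _ _)
    rw [← sum_mul] at a2
    have a3 := sum_filter_add_sum_filter_not (fam y)
      (fun p => ρ.E (fun t => dfc (0.55 * L) β (g t p)) ≤ 0.02 * L) (wt y)
    rw [hF.sum_one, ← hgood] at a3
    have a4 : 1 / 2 ≤ ∑ p ∈ good, wt y p := by nlinarith
    have hW0 : 0 < Wt y := by linarith
    unfold wt at a4
    rw [← sum_div, le_div_iff₀ hW0] at a4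
    linarith
  set a : ℝ := 0.0146 / (220 * L) with ha
  have ha0 : 0 < a := by positivity
  have key : ∀ s : ℕ, Code γ ρ (scales 100 V s)
      ((h - a * ∑ p ∈ good.filter (fun p => p.1 < y * 100 ^ s), Real.log p.1 / p.1 +
        s * Real.log (3 * D) / y) * (100 ^ s * N₀ : ℕ)) := by
    intro s
    induction s with
    | zero =>
      have e : good.filter (fun p => p.1 < y * 100 ^ 0) = ∅ :=
        filter_eq_empty_iff.mpr fun p hpm => by
          have := hF.lo p (mem_filter.mp hpm).1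
          omega
      rw [e]
      simpa [scales] using hcode
    | succ s ih =>
      set Q := good.filter fun p => y * 100 ^ s ≤ p.1 ∧ p.1 < y * 100 ^ (s + 1) with hQ
      have hQf : ∀ p ∈ Q, p ∈ fam y := fun p hpm => (mem_filter.mp (mem_filter.mp hpm).1).1
      have hprod : ∏ p ∈ Q, p.1 ≤ G ^ 2 := by
        refine (prod_le_four_pow fun p hpm => hF.hi p (hQf p hpm)).trans ?_
        calc 4 ^ (y ^ 2) = (2 ^ (y ^ 2)) ^ 2 := by rw [← pow_mul, mul_comm, pow_mul]; norm_num
          _ ≤ G ^ 2 := Nat.pow_le_pow_left hG 2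
      have h1 := one_scale hγ Q (fun p hpm => hav p (hQf p hpm)) hprod ρ₀ ih g
        (fun p hpm t v => by
          rw [miss_scales]
          exact hmiss s p (hQf p hpm) (mem_filter.mp hpm).2.2 t v) (A := 100) (by norm_num)
      refine Code.mono h1 ?_
      have hsplit : ∑ p ∈ good.filter (fun p => p.1 < y * 100 ^ (s + 1)), Real.log p.1 / p.1 =
          ∑ p ∈ good.filter (fun p => p.1 < y * 100 ^ s), Real.log p.1 / p.1 +
            ∑ p ∈ Q, Real.log p.1 / p.1 := by
        have hle : y * 100 ^ s ≤ y * 100 ^ (s + 1) :=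
          Nat.mul_le_mul_left _ (Nat.pow_le_pow_right (by norm_num) (Nat.le_succ s))
        rw [← sum_union (disjoint_left.mpr fun p h1 h2 =>
          absurd (mem_filter.mp h1).2 (not_lt.mpr (mem_filter.mp h2).2.1))]
        refine sum_congr ?_ fun _ _ => rfl
        ext p
        constructor
        · intro h1
          by_cases h2 : p.1 < y * 100 ^ s
          · exact mem_union_left _ (mem_filter.mpr ⟨(mem_filter.mp h1).1, h2⟩)
          · exact mem_union_right _
              (mem_filter.mpr ⟨(mem_filter.mp h1).1, not_lt.mp h2, (mem_filter.mp h1).2⟩)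
        · intro h1
          rcases mem_union.mp h1 with h2 | h2
          · exact mem_filter.mpr ⟨(mem_filter.mp h2).1, (mem_filter.mp h2).2.trans_le hle⟩
          · exact mem_filter.mpr ⟨(mem_filter.mp h2).1, (mem_filter.mp h2).2.2⟩
      set n : ℝ := ((100 ^ s * N₀ : ℕ) : ℝ) with hn
      have hn' : ((100 ^ (s + 1) * N₀ : ℕ) : ℝ) = 100 * n := by rw [hn]; push_cast; ring
      have hny : (y : ℝ) ≤ n := by
        have : y ≤ 100 ^ s * N₀ := hN1.trans (Nat.le_mul_of_pos_left _ (by positivity))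
        rw [hn]; exact_mod_cast this
      have b1 : Real.log (3 * D) ≤ n * (Real.log (3 * D) / y) := by
        rw [← mul_div_assoc, le_div_iff₀ hy0, mul_comm]
        exact mul_le_mul_of_nonneg_right hny hD
      have b2 : ∑ p ∈ Q, (100 * (Real.log p.1 - ρ.E (fun t => ell β (g t p))) -
          99 / 2 * Real.log p.1) ≤ ∑ p ∈ Q, -(100 * n * a * (Real.log p.1 / p.1)) := by
        refine sum_le_sum fun p hpm => ?_
        have c1 : 0.55 * L - ρ.E (fun t => dfc (0.55 * L) β (g t p)) ≤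
            ρ.E (fun t => ell β (g t p)) := by
          have := ρ.E_mono (f := fun t => 0.55 * L - dfc (0.55 * L) β (g t p))
            fun t _ => sub_dfc_le_ell (0.55 * L) β (g t p)
          rwa [FD.E_sub, FD.E_const] at this
        have c2 := (mem_filter.mp (mem_filter.mp hpm).1).2
        have c3 := log_le_of_mem_fam (by omega) (hQf p hpm)
        have c4 : ((y * 100 ^ s : ℕ) : ℝ) ≤ p.1 := by exact_mod_cast (mem_filter.mp hpm).2.1
        have c5 : n ≤ 220 * L * p.1 := by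
          rw [hn]
          push_cast at c4 ⊢
          calc (100 : ℝ) ^ s * N₀ ≤ 100 ^ s * (220 * L * y) :=
                mul_le_mul_of_nonneg_left hN2 (by positivity)
            _ = 220 * L * (y * 100 ^ s) := by ring
            _ ≤ _ := mul_le_mul_of_nonneg_left c4 (by positivity)
        have c6 : n * a * (Real.log p.1 / p.1) ≤ 0.0146 * Real.log p.1 := by
          have := hp p
          calc n * a * (Real.log p.1 / p.1) ≤ 220 * L * p.1 * a * (Real.log p.1 / p.1) :=
                mul_le_mul_of_nonneg_right (mul_le_mul_of_nonneg_right c5 ha0.le)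
                  (div_nonneg (hlp p) this.le)
            _ = 0.0146 * Real.log p.1 := by rw [ha]; field_simp
        rw [← hL] at c3
        linarith
      rw [sum_sub_distrib, ← mul_sum, ← mul_sum, sum_neg_distrib, ← mul_sum] at b2
      rw [hsplit, hn']
      push_cast
      have e1 : ((s : ℝ) + 1) * Real.log (3 * D) / y =
          s * Real.log (3 * D) / y + Real.log (3 * D) / y := by ring
      rw [e1]
      linarith
  refine (key (nS y)).mono (mul_le_mul_of_nonneg_right ?_ (Nat.cast_nonneg _))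
  have e : good.filter (fun p => p.1 < y * 100 ^ nS y) = good :=
    filter_true_of_mem fun p hpm => (mem_fam.mp (mem_filter.mp hpm).1).2
  rw [e]
  have d1 := mul_le_mul_of_nonneg_left hgw ha0.le
  have d2 : a * (L / 400) = 0.0146 / 88000 := by rw [ha]; field_simp; norm_num
  rw [d2] at d1
  have d3 : (1.5 : ℝ) / 10 ^ 7 ≤ 0.0146 / 88000 := by norm_num
  linarith

end Crest.Agent.R2
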