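import Crest.Agent.R2.Amp
import Crest.Agent.R2.Scales

/-!
# Row 2: one range of primes lowers the code length per point
-/

set_option autoImplicit false
open Finset Filter

noncomputable section
namespace Crest.Agent.R2
open Classical

theorem State.theta_le {γ : ℕ → GI} {U : Ker} {N Sp Gm : ℕ} {θ h : ℝ} (hS : State γ U N Sp Gm θ h) :
    θ ≤ 1 := by
  have h1 := hS.mass 0
  have h2 : (U 0).E (fun S => (S.card : ℝ)) ≤ N :=
    (U 0).E_le_const (fun S hS' => by exact_mod_cast hS.size 0 S hS')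
  have h3 : (0 : ℝ) < N := by exact_mod_cast hS.pos
  nlinarith

theorem State.good_leaf {γ : ℕ → GI} {U : Ker} {N Sp Gm : ℕ} {θ h : ℝ}
    (hS : State γ U N Sp Gm θ h) {G : ℕ} (hG : 0 < G) :
    Good (JK (Unif G) U) N (Sp + G) (((Sp : ℝ) + 1) / G) θ where
  size t S h := by
    obtain ⟨s, _, hs⟩ := FD.mem_supp_bind.1 h
    exact hS.size s S hs
  span t S h τ hτ := by
    obtain ⟨s, hs1, hs⟩ := FD.mem_supp_bind.1 h
    have h1 := jumpIn_Unif G t s hs1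
    have h2 := hS.span s S hs τ hτ
    omega
  atom t τ := by
    refine (atom_unif hG hS.span t τ).trans ?_
    have h3 : (1 : ℝ) ≤ N := by exact_mod_cast hS.pos
    exact le_mul_of_one_le_left (by positivity) h3
  mass t := by
    show θ * N ≤ ((Unif G t).bind U).E _
    rw [FD.E_bind]
    exact FD.const_le_E _ (fun s _ => hS.mass s)

/-- The new unit of a range. -/
def newUnit (P : Prm) (J : ℕ → ℕ → FD ℕ) (U : Ker) : Ker :=
  BlkK (P.y ^ 3) (scales 100 (BlkK P.K₀ (tree J P.k (JK (Unif (P.y ^ 10)) U) (P.m + 2))) (nS P.y))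

theorem good_new {P : Prm} (hP : P.OK) {γ : ℕ → GI} {U : Ker} {Sp Gm : ℕ} {θ h : ℝ}
    (hS : State γ U P.NU Sp Gm θ h) (hSp : Sp ≤ P.y) {J : ℕ → ℕ → FD ℕ}
    (hJ : ∀ i, JumpIn (J i) (2 ^ P.g i)) :
    Good (newUnit P J U) (P.y ^ 3 * (100 ^ nS P.y * (P.K₀ * P.n (P.m + 2)))) (2 ^ P.y)
      (((Sp : ℝ) + 1) / (P.y ^ 10 : ℕ)) (θ - 1 / P.y) := by
  have hy2 := hP.two_le_y
  have hy : (2 : ℝ) ≤ P.y := by exact_mod_cast hy2
  have hy0 : (0 : ℝ) < P.y := by linarith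
  set a : ℝ := ((Sp : ℝ) + 1) / (P.y ^ 10 : ℕ) with ha
  have ha0 : 0 ≤ a := by positivity
  set ε : ℝ := 2 / (P.y : ℝ) ^ 4 with hε
  have hε0 : 0 ≤ ε := by positivity
  have hε1 : ε ≤ 1 := by
    rw [hε, div_le_one (by positivity)]
    calc (2 : ℝ) ≤ 2 ^ 4 := by norm_num
      _ ≤ _ := pow_le_pow_left₀ (by norm_num) hy 4
  have key : ∀ X : ℕ, X ≤ P.y ^ 5 → (X : ℝ) * a ≤ ε := by
    intro X hX
    have h1 : (X : ℝ) ≤ (P.y : ℝ) ^ 5 := by exact_mod_cast hX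
    have h2 : (Sp : ℝ) ≤ P.y := by exact_mod_cast hSp
    have h3 : a ≤ 2 * P.y / (P.y : ℝ) ^ 10 := by
      rw [ha]; push_cast; gcongr; linarith
    calc (X : ℝ) * a ≤ (P.y : ℝ) ^ 5 * (2 * P.y / (P.y : ℝ) ^ 10) := by gcongr
      _ = ε := by rw [hε]; field_simp
  have hsz := hP.size_hi
  have hge := hP.K₀_ge
  have h25 : P.y ^ 2 ≤ P.y ^ 5 := Nat.pow_le_pow_right (by omega) (by norm_num)
  have h100 : 1 ≤ 100 ^ nS P.y := Nat.one_le_pow _ _ (by norm_num)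
  have hKn : P.K₀ * P.n (P.m + 2) ≤ P.y ^ 2 := le_trans (Nat.le_mul_of_pos_left _ h100) hsz
  have hK0 : 1 ≤ P.K₀ := by
    rcases Nat.eq_zero_or_pos P.K₀ with h0 | h0
    · rw [h0] at hge; omega
    · exact h0
  have hn2 : P.n (P.m + 2) ≤ P.y ^ 2 := le_trans (Nat.le_mul_of_pos_left _ hK0) hKn
  have hθ := hS.theta_le
  have g0 := hS.good_leaf (G := P.y ^ 10) (by positivity)
  have g1 := good_tree J P.k P.n (fun l => 2 ^ P.g l) (ε := ε) g0 (fun _ => rfl) hθ hε0 hε1 (P.m + 2)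
    (fun l _ => hJ l) (fun l hl => key _ ((hP.n_mono hl).trans (hn2.trans h25)))
  have hm0 : (0 : ℝ) ≤ ((P.m + 2 : ℕ) : ℝ) * ε := by positivity
  have g2 := g1.blk (ε := ε) P.K₀ (by linarith) (key _ (hKn.trans h25)) hε1
  have g3 := good_scales (ε := ε) 100 (by norm_num) g2 ha0 (by linarith) hε1 (nS P.y)
    (key _ (hsz.trans h25))
  have hs0 : (0 : ℝ) ≤ (nS P.y : ℝ) * ε := by positivity
  have g4 := g3.blk (ε := ε) (P.y ^ 3) (by linarith)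
    (key _ (by calc _ ≤ P.y ^ 3 * P.y ^ 2 := Nat.mul_le_mul_left _ hsz
      _ = P.y ^ 5 := by ring)) hε1
  refine g4.mono ?_ ?_
  · have := hP.span_hi
    unfold Prm.Sp at this
    omega
  · have h1 : ((P.m + 2 + 1 + nS P.y + 1 : ℕ) : ℝ) ≤ P.y := by exact_mod_cast hP.levels_le
    have h2 : (P.y : ℝ) * ε ≤ 1 / P.y := by
      rw [hε, le_div_iff₀ hy0]
      have : (P.y : ℝ) * (2 / (P.y : ℝ) ^ 4) * P.y = 2 / (P.y : ℝ) ^ 2 := by field_simp
      rw [this, div_le_one (by positivity)]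
      nlinarith
    have h3 := mul_le_mul_of_nonneg_right h1 hε0
    push_cast at h3 ⊢
    linarith

theorem code_new {P : Prm} (hP : P.OK) {γ : ℕ → GI} {U : Ker} {Sp Gm : ℕ} {θ h : ℝ}
    (hS : State γ U P.NU Sp Gm θ h) (hSp : Sp ^ 4 ≤ P.y) (hGm : Gm ≤ P.y ^ 10)
    (hW : Real.log P.y / 200 ≤ Wt P.y) (hav : ∀ p ∈ fam P.y, ∀ t, res p (γ t) ≠ 0)
    {J : ℕ → ℕ → FD ℕ} (H : Ctx P γ (fam P.y) (wt P.y) (PtOf (P.y ^ 10) U P.NU) θ J)
    (ρ₀ : FD ℕ) {G : ℕ} (hG : 2 ^ (P.y ^ 2) ≤ G) :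
    Code γ (ρ₀.bind (Unif G)) (newUnit P J U) ((h + 30 * Real.log P.y / P.NU - 1 / 10 ^ 7) *
      (P.y ^ 3 * (100 ^ nS P.y * (P.K₀ * P.n (P.m + 2))) : ℕ)) := by
  have hγ := H.path
  have hy2 := hP.two_le_y
  have hNU : (0 : ℝ) < P.NU := by exact_mod_cast hS.pos
  have hge := hP.K₀_ge
  have hK0 : 1 ≤ P.K₀ := by
    rcases Nat.eq_zero_or_pos P.K₀ with h0 | h0
    · rw [h0] at hge; omega
    · exact h0
  set h₁ : ℝ := h + 30 * Real.log P.y / P.NU with hh₁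
  have c0 : ∀ ρ, Code γ ρ (JK (Unif (P.y ^ 10)) U) (h₁ * P.n 0) := by
    intro ρ
    refine ((hS.code ρ _ hGm).jump hγ (jumpIn_Unif _)).mono ?_
    have h1 := hP.log_leaf
    have h2 : h₁ * P.n 0 = h * P.NU + 30 * Real.log P.y := by
      show h₁ * P.NU = _
      rw [hh₁]; field_simp
    linarith
  have c1 := code_tree hγ J P.k P.n (fun l => 2 ^ P.g l) (ε := 2 / P.Γ) c0 hP.k_pos (fun _ => rfl)
    (P.m + 2) (fun l _ => H.jumpIn l) (fun l _ => hP.log_box l) (ρ₀.bind (Unif G))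
  set h₂ : ℝ := h₁ + ((P.m + 2 : ℕ) : ℝ) * (2 / P.Γ) with hh₂
  have c2 : Code γ (ρ₀.bind (Unif G)) (BlkK P.K₀ (tree J P.k (JK (Unif (P.y ^ 10)) U) (P.m + 2)))
      (h₂ * (P.K₀ * P.n (P.m + 2) : ℕ)) := by
    refine (c1.blk hK0).mono (le_of_eq ?_)
    push_cast; ring
  have hnpos : (0 : ℝ) < P.n (P.m + 2) := by exact_mod_cast hP.n_pos _
  have c3 := scales_drop hγ hy2 hW hav hG ρ₀ c2 hge hP.K₀_hi (β := P.β (P.m + 1))
    (fun t p => lam (xi γ p) (tree J P.k (BlkK P.NU (PtOf (P.y ^ 10) U P.NU)) (P.m + 2) t)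
      (P.n (P.m + 2)))
    (by
      intro s p hp hps t v
      have hpy := (mem_fam.1 hp).1
      have hinj : ∀ s, ∀ S ∈ (U s).supp, Set.InjOn (xi γ p) S := by
        intro s S hS' a ha b hb hab
        have h1 := hS.span s S hS' a ha
        have h2 := hS.span s S hS' b hb
        exact hγ.xi_injOn (lt_of_lt_of_le (hP.span_small hSp).2 hpy) h1.1 h1.2 h2.1 h2.2 hab
      have hx := hit_tree_mono (xi γ p) J P.k {v}
        (fun t => hit_pt_le (xi γ p) (G₀ := P.y ^ 10) hS.pos hS.size hinj t v) (P.m + 2) t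
      set x := hit (xi γ p) (tree J P.k (JK (Unif (P.y ^ 10)) U) (P.m + 2) t) {v} with hxd
      set x' := hit (xi γ p) (tree J P.k (BlkK P.NU (PtOf (P.y ^ 10) U P.NU)) (P.m + 2) t) {v}
        with hxd'
      have hx0 : 0 ≤ x' := hit_nonneg _ _ _
      have hx1 : x ≤ 1 := hit_le_one _ _ _
      have e1 : 1 - hit (xi γ p) (BlkK P.K₀ (tree J P.k (JK (Unif (P.y ^ 10)) U) (P.m + 2)) t) {v} =
          (1 - x) ^ P.K₀ := by
        simp only [BlkK, hit_Blk]; ring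
      rw [e1, ← pow_mul]
      have h1 : (1 - x) ^ (P.K₀ * 100 ^ s) ≤ Real.exp (-x) ^ (P.K₀ * 100 ^ s) :=
        pow_le_pow_left₀ (by linarith) (by linarith [Real.add_one_le_exp (-x)]) _
      refine h1.trans ?_
      rw [← Real.exp_nat_mul, Real.exp_le_exp]
      have h2 : P.β (P.m + 1) * (p.1 / P.n (P.m + 2)) ≤ (P.K₀ * 100 ^ s : ℕ) := by
        have h3 := hP.K₀_lo
        have h4 : (p.1 : ℝ) ≤ P.y * 100 ^ (s + 1) := by exact_mod_cast hps.le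
        have h5 := hP.β_pos (P.m + 1)
        rw [← mul_div_assoc, div_le_iff₀ hnpos]
        push_cast at h3 ⊢
        calc P.β (P.m + 1) * p.1 ≤ P.β (P.m + 1) * (P.y * 100 ^ (s + 1)) := by gcongr
          _ = (P.β (P.m + 1) * 100 * P.y) * 100 ^ s := by ring
          _ ≤ (P.K₀ * P.n (P.m + 2)) * 100 ^ s := by gcongr
          _ = _ := by ring
      have h6 : P.β (P.m + 1) * lam (xi γ p)
          (tree J P.k (BlkK P.NU (PtOf (P.y ^ 10) U P.NU)) (P.m + 2) t) (P.n (P.m + 2)) v =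
          P.β (P.m + 1) * (p.1 / P.n (P.m + 2)) * x' := by
        simp only [lam, card_zmod, hxd']; ring
      rw [h6]
      have h7 : (0 : ℝ) ≤ (P.K₀ * 100 ^ s : ℕ) := Nat.cast_nonneg _
      nlinarith [mul_le_mul_of_nonneg_right h2 hx0, mul_le_mul_of_nonneg_left hx h7])
    (fun t => H.amp t)
  refine (c3.blk (A := P.y ^ 3) (Nat.one_le_pow _ _ (by omega))).mono ?_
  have h1 := hP.eps_small
  have h2 := hP.nS_small
  have h3 : h₂ - 1.5 / 10 ^ 7 + nS P.y * Real.log (3 * P.D) / P.y ≤ h₁ - 1 / 10 ^ 7 := by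
    rw [hh₂]; push_cast; linarith
  have h4 : (0 : ℝ) ≤ (P.y ^ 3 * (100 ^ nS P.y * (P.K₀ * P.n (P.m + 2))) : ℕ) := Nat.cast_nonneg _
  refine le_trans (le_of_eq ?_) (mul_le_mul_of_nonneg_right h3 h4)
  push_cast; ring

theorem range_step (D : ℕ) (hD : 1 ≤ D) : ∀ᶠ y : ℕ in atTop, ∀ γ : ℕ → GI, IsPath D γ →
    (∀ p ∈ fam y, ∀ t, res p (γ t) ≠ 0) → ∀ (U : Ker) (N Sp Gm : ℕ) (θ h : ℝ),
      State γ U N Sp Gm θ h → (N : ℝ) ≤ Real.log y ^ 3 → Sp ^ 4 ≤ y → Gm ≤ y ^ 10 → 0.995 ≤ θ →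
      ∃ (U' : Ker) (N' : ℕ), y ^ 3 ≤ N' ∧ N' ≤ y ^ 5 ∧
        State γ U' N' (2 ^ y) (2 ^ (y ^ 2)) (θ - 1 / y) (h + 30 * Real.log y / N - 1 / 10 ^ 7) := by
  obtain ⟨C, hC, hpair⟩ := exists_pair D
  filter_upwards [exists_prm D C hD hC, wt_ge] with y hprm hW γ hγ hav U N Sp Gm θ h hS hN hSp hGm hθ
  obtain ⟨Γ, m, hP⟩ := hprm N hS.pos hN
  set P : Prm := ⟨D, C, y, N, Γ, m⟩ with hPdef
  have hy2 : 2 ≤ y := hP.two_le_y
  have hex : ∀ i t, ∃ (Pr : FD (ℕ × ℕ)) (h₀ : GI), PairOK γ D C t (2 ^ P.g i) (P.N0 i) Pr h₀ :=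
    fun i t => hpair γ hγ t _ _ (hP.step_h5 i).2.2.1 (hP.step_h5 i).2.2.2
  choose Pr h₀ hPr using hex
  set J : ℕ → ℕ → FD ℕ := fun i => if i = m then Unif (2 ^ P.g m) else fun t => Geo (Pr i t) with hJ
  have H : Ctx P γ (fam y) (wt y) (PtOf (y ^ 10) U N) θ J :=
    { ok := hP
      path := hγ
      fam := fam_ok hy2 hW
      pt := ptOK hy2 hS.pos hS.size hS.span hS.mass (hP.span_small hSp).1
      hθ := hθ
      geo := fun i hi t => ⟨Pr i t, h₀ i t, hPr i t, by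
        have : i ≠ m := hi
        simp only [hJ, if_neg this]⟩
      unif := by
        show J m = _
        simp only [hJ, if_pos rfl]; rfl }
  have hg := good_new hP hS (hP.span_small hSp).1 H.jumpIn
  have hsz := hP.size_hi
  have hge := hP.K₀_ge
  have h100 : 1 ≤ 100 ^ nS y := Nat.one_le_pow _ _ (by norm_num)
  have h1 : 1 ≤ 100 ^ nS y * (P.K₀ * P.n (P.m + 2)) :=
    Nat.mul_pos h100 (lt_of_lt_of_le (show 0 < y by omega) hge)
  refine ⟨newUnit P J U, y ^ 3 * (100 ^ nS y * (P.K₀ * P.n (P.m + 2))), Nat.le_mul_of_pos_right _ h1,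
    ?_, ⟨Nat.mul_pos (by positivity) h1, hg.size, hg.span, hg.mass, fun ρ G hG => ?_⟩⟩
  · calc _ ≤ y ^ 3 * y ^ 2 := Nat.mul_le_mul_left _ hsz
      _ = y ^ 5 := by ring
  · exact code_new hP hS hSp hGm hW hav H ρ hG

end Crest.Agent.R2
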