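import Crest.Agent.R2.Pt

/-!
# Row 2: random test sets, Laplace transform, soft code

Recipes.
* `exists_rand_sets`: `𝔅 = (FD.iid b (FD.ofFn univ π ..)).map (univ.image ·)`;
  `∑_{v ∈ B} F v = ∑_v ind (v ∈ B) F v` and `𝔅.E (ind (v ∈ B)) = 1 - (1 - π v) ^ b` (`ind_forall`,
  `FD.E_iid_pow`), then `one_sub_pow_ge` and `one_add_mul_le_pow`.
* `laplace`: `FD.E_log_le`, `FD.E_sum`, `exp (-(η ∑ f)) = ∏ exp (-(η f))`, `FD.E_iid_pow`;
  `exp (-(η f)) ≤ 1 - η (1 - η) f` for `f ∈ [0, 1]` (from `exp (-x) ≤ 1 - x + x² / 2`), and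
  `(1 - u) ^ n ≤ exp (-n u)`.
* `soft_code`: put `T d a = ∑ j, f (d j) a`, `wt d z = ` the max over `a` (`Finset.sup'` or a chosen
  maximiser `a d z`) of `exp (-(l * η) * (T d.1 a + T d.2 (a - z)))`, `q₀ d z = wt d z / ∑ z', wt d z'`.
  For given `S, S'` let `A z` be the maximiser. With `LM S = log ∑_a exp (-(η T a) + η (1 - η) mu a)` one has
  `-(l η) T a ≤ l * LM S - l η (1 - η) * mu a` for each `a` (a term is at most the sum), so
  `∑_z wt z ≤ exp (l * LM S + l * LM' S') * ∑_z exp (-(l η (1 - η)) (mu (A z) + mu' (A z - z))) ≤ ... * exp R`.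
  Take logs, then expectations, with `laplace` twice and `FD.E_iid_sum` for the true values.
-/

set_option autoImplicit false
open Finset

noncomputable section
namespace Crest.Agent.R2
open Classical

variable {G : Type} [Fintype G]

theorem exists_rand_sets (π : G → ℝ) (h0 : ∀ v, 0 ≤ π v) (h1 : ∑ v, π v = 1) (b : ℕ) {η : ℝ}
    (hb : ∀ v, b * π v ≤ η) :
    ∃ 𝔅 : FD (Finset G), (∀ B ∈ 𝔅.supp, B.card ≤ b) ∧ ∀ F : G → ℝ, (∀ v, 0 ≤ F v) →
      (1 - η) * (b * ∑ v, π v * F v) ≤ 𝔅.E (fun B => ∑ v ∈ B, F v) ∧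
      𝔅.E (fun B => ∑ v ∈ B, F v) ≤ b * ∑ v, π v * F v := by
  set μ₀ : FD G := FD.ofFn univ π (fun v _ => h0 v) h1 with hμ₀
  have hπ1 : ∀ v, π v ≤ 1 := fun v =>
    h1 ▸ single_le_sum (f := π) (fun w _ => h0 w) (mem_univ v)
  refine ⟨(FD.iid b μ₀).map (fun x => univ.image x), fun B hB => ?_, fun F hF => ?_⟩
  · obtain ⟨x, -, rfl⟩ := FD.mem_supp_map.1 hB
    simpa using card_image_le (s := (univ : Finset (Fin b))) (f := x)
  have hE : ((FD.iid b μ₀).map (fun x => univ.image x)).E (fun B => ∑ v ∈ B, F v) =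
      ∑ v, (1 - (1 - π v) ^ b) * F v := by
    rw [FD.E_map]
    have e1 : ∀ x : Fin b → G, ∑ v ∈ univ.image x, F v =
        ∑ v, (1 - ∏ j, (1 - ind (x j = v))) * F v := by
      intro x
      rw [← sum_subset (subset_univ (univ.image x))]
      · refine sum_congr rfl fun v hv => ?_
        obtain ⟨j, -, hj⟩ := mem_image.1 hv
        rw [prod_eq_zero (mem_univ j) (by rw [ind_pos hj, sub_self]), sub_zero, one_mul]
      · intro v _ hv
        rw [prod_eq_one fun j _ => by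
          rw [ind_neg fun hj => hv (mem_image.2 ⟨j, mem_univ j, hj⟩), sub_zero], sub_self, zero_mul]
    simp only [e1]
    rw [FD.E_sum]
    refine sum_congr rfl fun v _ => ?_
    rw [FD.E_mul_right, FD.E_sub, FD.E_const, FD.E_iid_pow b μ₀ (fun u => 1 - ind (u = v)),
      FD.E_sub, FD.E_const, hμ₀, FD.E_ofFn, sum_eq_single v, ind_pos rfl, mul_one]
    · intro u _ hu; rw [ind_neg hu, mul_zero]
    · intro h; exact absurd (mem_univ v) h
  rw [hE, mul_sum, mul_sum]
  refine ⟨sum_le_sum fun v _ => ?_, sum_le_sum fun v _ => ?_⟩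
  · have h2 := one_sub_pow_ge (h0 v) (hπ1 v) b
    have h3 : 0 ≤ (b : ℝ) * π v := mul_nonneg (Nat.cast_nonneg b) (h0 v)
    have h4 : (1 - η) * (b * π v) ≤ 1 - (1 - π v) ^ b := by nlinarith [hb v]
    have := mul_le_mul_of_nonneg_right h4 (hF v)
    linarith
  · have h2 := one_add_mul_le_pow (a := -π v) (by linarith [hπ1 v]) b
    have h4 : 1 - (1 - π v) ^ b ≤ b * π v := by
      rw [← sub_eq_add_neg 1 (π v)] at h2
      linarith
    have := mul_le_mul_of_nonneg_right h4 (hF v)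
    linarith

theorem soft_exp_neg_le {x : ℝ} (hx : 0 ≤ x) : Real.exp (-x) ≤ 1 - x + x ^ 2 := by
  have h1 : 1 + x ≤ Real.exp x := by linarith [Real.add_one_le_exp x]
  have h2 : 0 < 1 - x + x ^ 2 := by nlinarith [sq_nonneg (x - 1 / 2)]
  rw [Real.exp_neg, inv_le_iff_one_le_mul₀ (Real.exp_pos x)]
  have h3 : 0 ≤ x ^ 3 := by positivity
  nlinarith

theorem laplace [Nonempty G] {α : Type} (μ : FD α) (n : ℕ) (f : α → G → ℝ) (hf0 : ∀ x a, 0 ≤ f x a)
    (hf1 : ∀ x a, f x a ≤ 1) {η : ℝ} (hη0 : 0 ≤ η) (hη1 : η ≤ 1) (mu : G → ℝ)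
    (hmu : ∀ a, mu a ≤ n * μ.E (fun x => f x a)) :
    (FD.iid n μ).E (fun S => Real.log (∑ a, Real.exp (-(η * ∑ j, f (S j) a) + η * (1 - η) * mu a))) ≤
      Real.log (Fintype.card G) := by
  refine (FD.E_log_le _ fun S _ => sum_pos (fun a _ => Real.exp_pos _) univ_nonempty).trans ?_
  refine Real.log_le_log (FD.E_pos _ fun S _ => sum_pos (fun a _ => Real.exp_pos _) univ_nonempty) ?_
  rw [FD.E_sum, ← card_univ, ← mul_one ((univ : Finset G).card : ℝ), ← nsmul_eq_mul, ← sum_const]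
  refine sum_le_sum fun a _ => ?_
  have e : ∀ S : Fin n → α, Real.exp (-(η * ∑ j, f (S j) a) + η * (1 - η) * mu a) =
      (∏ j, Real.exp (-(η * f (S j) a))) * Real.exp (η * (1 - η) * mu a) := by
    intro S
    rw [Real.exp_add, mul_sum, ← sum_neg_distrib, Real.exp_sum]
  simp only [e]
  rw [FD.E_mul_right, FD.E_iid_pow n μ (fun x => Real.exp (-(η * f x a)))]
  have hc : 0 ≤ η * (1 - η) := mul_nonneg hη0 (by linarith)
  have h1 : μ.E (fun x => Real.exp (-(η * f x a))) ≤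
      Real.exp (-(η * (1 - η) * μ.E fun x => f x a)) := by
    have h2 : μ.E (fun x => Real.exp (-(η * f x a))) ≤ μ.E fun x => 1 - η * (1 - η) * f x a := by
      refine μ.E_mono fun x _ => (soft_exp_neg_le (mul_nonneg hη0 (hf0 x a))).trans ?_
      have h3 : f x a ^ 2 ≤ f x a := by nlinarith [hf0 x a, hf1 x a]
      nlinarith [mul_le_mul_of_nonneg_left h3 (sq_nonneg η)]
    rw [FD.E_sub, FD.E_const, FD.E_mul_left] at h2
    linarith [Real.add_one_le_exp (-(η * (1 - η) * μ.E fun x => f x a))]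
  have h4 := pow_le_pow_left₀ (μ.E_nonneg fun x _ => (Real.exp_pos _).le) h1 n
  refine (mul_le_mul_of_nonneg_right h4 (Real.exp_pos _).le).trans ?_
  rw [← Real.exp_nat_mul, ← Real.exp_add, Real.exp_le_one_iff]
  nlinarith [mul_le_mul_of_nonneg_left (hmu a) hc]

/-- The soft maximum-likelihood code for the difference of the two base residues. -/
theorem soft_code [AddCommGroup G] {δ : Type} (n : ℕ) (f : δ → G → ℝ) (hf0 : ∀ x a, 0 ≤ f x a)
    (hf1 : ∀ x a, f x a ≤ 1) {η l : ℝ} (hη0 : 0 ≤ η) (hη1 : η ≤ 1) (hl : 0 ≤ l) :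
    ∃ q₀ : (Fin n → δ) × (Fin n → δ) → G → ℝ, (∀ d z, 0 < q₀ d z) ∧ (∀ d, ∑ z, q₀ d z = 1) ∧
      ∀ {α : Type} (μ μ' : FD α) (dt dt' : α → δ) (a₀ a₀' : G) (mu mu' : G → ℝ) (R : ℝ),
        (∀ a, mu a ≤ n * μ.E (fun x => f (dt x) a)) → (∀ a, mu' a ≤ n * μ'.E (fun x => f (dt' x) a)) →
        (∀ A : G → G, ∑ z, Real.exp (-(l * η * (1 - η) * mu (A z)) - l * η * (1 - η) * mu' (A z - z)) ≤
          Real.exp R) →
        - (l * η * (n * μ.E (fun x => f (dt x) a₀) + n * μ'.E (fun x => f (dt' x) a₀'))) -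
            2 * l * Real.log (Fintype.card G) - R ≤
          (FD.iid n μ).E (fun S => (FD.iid n μ').E (fun S' =>
            Real.log (q₀ (fun j => dt (S j), fun j => dt' (S' j)) (a₀ - a₀')))) := by
  set T : (Fin n → δ) → G → ℝ := fun d a => ∑ j, f (d j) a with hT
  have hex : ∀ (d : (Fin n → δ) × (Fin n → δ)) (z : G), ∃ a : G, ∀ a',
      T d.1 a + T d.2 (a - z) ≤ T d.1 a' + T d.2 (a' - z) := fun d z => by
    obtain ⟨a, -, h⟩ := exists_min_image univ (fun a => T d.1 a + T d.2 (a - z)) univ_nonempty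
    exact ⟨a, fun a' => h a' (mem_univ _)⟩
  choose A hA using hex
  set wt : (Fin n → δ) × (Fin n → δ) → G → ℝ :=
    fun d z => Real.exp (-(l * η * (T d.1 (A d z) + T d.2 (A d z - z)))) with hwt
  have hpos : ∀ d, 0 < ∑ z, wt d z := fun d => sum_pos (fun z _ => Real.exp_pos _) univ_nonempty
  refine ⟨fun d z => wt d z / ∑ z', wt d z', fun d z => div_pos (Real.exp_pos _) (hpos d),
    fun d => by rw [← sum_div, div_self (hpos d).ne'], ?_⟩
  intro α μ μ' dt dt' a₀ a₀' mu mu' R hmu hmu' hR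
  set LM : (G → ℝ) → (Fin n → δ) → ℝ := fun m d =>
    Real.log (∑ a, Real.exp (-(η * T d a) + η * (1 - η) * m a)) with hLM
  have hterm : ∀ m d a, -(η * T d a) + η * (1 - η) * m a ≤ LM m d := fun m d a => by
    rw [hLM]
    refine (Real.le_log_iff_exp_le (sum_pos (fun a _ => Real.exp_pos _) univ_nonempty)).2 ?_
    exact single_le_sum (f := fun a => Real.exp (-(η * T d a) + η * (1 - η) * m a))
      (fun a _ => (Real.exp_pos _).le) (mem_univ a)
  have hlη : 0 ≤ l * η := mul_nonneg hl hη0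
  have hpt : ∀ d : (Fin n → δ) × (Fin n → δ),
      -(l * η * T d.1 a₀) - l * LM mu d.1 - R + (-(l * η * T d.2 a₀') - l * LM mu' d.2) ≤
        Real.log (wt d (a₀ - a₀') / ∑ z', wt d z') := by
    intro d
    rw [Real.log_div (Real.exp_pos _).ne' (hpos d).ne']
    have h1 : -(l * η * (T d.1 a₀ + T d.2 a₀')) ≤ Real.log (wt d (a₀ - a₀')) := by
      rw [hwt, Real.log_exp]
      have := hA d (a₀ - a₀') a₀
      rw [sub_sub_cancel] at this
      exact neg_le_neg (mul_le_mul_of_nonneg_left this hlη)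
    have h2 : ∑ z, wt d z ≤ Real.exp (l * LM mu d.1 + l * LM mu' d.2 + R) := by
      rw [Real.exp_add]
      refine le_trans ?_ (mul_le_mul_of_nonneg_left (hR (A d)) (Real.exp_pos _).le)
      rw [mul_sum]
      refine sum_le_sum fun z _ => ?_
      rw [← Real.exp_add, hwt]
      refine Real.exp_le_exp.2 ?_
      have h3 := mul_le_mul_of_nonneg_left (hterm mu d.1 (A d z)) hl
      have h4 := mul_le_mul_of_nonneg_left (hterm mu' d.2 (A d z - z)) hl
      nlinarith
    have h3 := (Real.log_le_iff_le_exp (hpos d)).2 h2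
    linarith
  have hL := laplace μ n (fun x a => f (dt x) a) (fun x a => hf0 _ _) (fun x a => hf1 _ _) hη0 hη1 mu hmu
  have hL' := laplace μ' n (fun x a => f (dt' x) a) (fun x a => hf0 _ _) (fun x a => hf1 _ _) hη0 hη1
    mu' hmu'
  have hS := FD.E_iid_sum n μ (fun x => f (dt x) a₀)
  have hS' := FD.E_iid_sum n μ' (fun x => f (dt' x) a₀')
  refine le_trans ?_ (FD.E_mono _ fun S _ => FD.E_mono _ fun S' _ =>
    hpt (fun j => dt (S j), fun j => dt' (S' j)))
  simp only [FD.E_add, FD.E_sub, FD.E_neg, FD.E_mul_left, FD.E_const, hT, hLM]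
  rw [hS, hS']
  have h5 := mul_le_mul_of_nonneg_left hL hl
  have h6 := mul_le_mul_of_nonneg_left hL' hl
  linarith

end Crest.Agent.R2
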