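import Crest.Agent.R2.Soft

/-!
# Row 2: the doubling step for one prime

`G` is a finite abelian group with `p = card G` elements, `r : GI →+ G`, `ξ τ = r (γ τ)`.

Recipe.
* `step1`: if `2 c ≤ ell β' g` take `q = 1 / p` (gain `0`, `dfc = 0`). Otherwise `π = gib β' g`,
  `b * π ≤ η` (`gib_le`), `𝔅` from `exists_rand_sets`,
  `f d a = 𝔅.E (fun B => ind (∃ z ∈ d, a + r z ∈ B))`, `X = n N b / p > 0` (from `hX`),
  `l = β / (η (1 - η) * (χ (1 - η) X))`, `mu s a = χ (1 - η) X * ∑_v π v * φ s (v - (a - ξ s))`.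
  `(κ s).E (f (data γ s S) a) = 𝔅.E (hit ξ (κ s) (B.image (· - (a - ξ s))))` (`FD.E_comm`); `hcert` gives
  `mu s a ≤ n * E f`; at `a = ξ s`, `hit_le_sum`, `htrue` and `π ≤ exp (2 c) / p` give
  `n * E f ≤ X * (∑ π h s / χ' + exp (2 c) * avg (e s))`. `ruzsa` (with `σ z = A z - ξ s`,
  `σ' z = A z - z - ξ s'`, `z₀ = ξ s - ξ s'`) gives `R = log p + ell β' g - β' ∑ π g - ell β (φ s) - ell β (φ s')`.
  Put `q = (1 - η) q₀ + η / p`; `log (p q) ≥ log (1 - η) + log (p q₀) ≥ -2 η + ..` and `log (p q) ≥ log η`.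
  With `a s s' = (c - dfc (φ s)) + (c - dfc (φ s')) - (ell β' g - β' ∑ π g) - (β* / χ') (∑ π h s + ∑ π h s') ≤ 2 c`
  (`gibbs_zero`), `β* = l η X = β / (χ (1 - η)²)`, `2 l log p ≤ η`, the inner expectation is
  `≥ a s s' - 3 η - min (β' e^{2c} (avg e s + avg e s')) K ≥ a s s' - 3 η - min (..e s) K - min (..e s') K`.
  Average over `Pr` (`E_Geo`; `∑ π g = (Geo Pr).E (∑ π h s)`, `2 β* / χ' ≤ β'`).
-/

set_option autoImplicit false
open Finset

noncomputable section
namespace Crest.Agent.R2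
open Classical

variable {G : Type} [Fintype G]

/-- The expected log-likelihood gain of a code `q` for the difference of the two base residues. -/
def gain [AddCommGroup G] (γ : ℕ → GI) (ξ : ℕ → G) (Pr : FD (ℕ × ℕ)) (κ : Ker) (n : ℕ)
    (q : (Fin n → Finset GI) × (Fin n → Finset GI) → G → ℝ) : ℝ :=
  Pr.E (fun x => (FD.iid n (κ x.1)).E (fun S => (FD.iid n (κ x.2)).E (fun S' =>
    Real.log (Fintype.card G * q (dataN γ x.1 S, dataN γ x.2 S') (ξ x.1 - ξ x.2)))))

theorem step1_min_add {x y K : ℝ} (hx : 0 ≤ x) (hy : 0 ≤ y) (hK : 0 ≤ K) :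
    min (x + y) K ≤ min x K + min y K := by
  rcases le_total x K with h1 | h1 <;> rcases le_total y K with h2 | h2
  · rw [min_eq_left h1, min_eq_left h2]; exact min_le_left _ _
  · rw [min_eq_left h1, min_eq_right h2]; linarith [min_le_right (x + y) K]
  · rw [min_eq_right h1, min_eq_left h2]; linarith [min_le_right (x + y) K]
  · rw [min_eq_right h1, min_eq_right h2]; linarith [min_le_right (x + y) K]

theorem step1_log_one_sub {η : ℝ} (h0 : 0 ≤ η) (h1 : η ≤ 1 / 2) : -(2 * η) ≤ Real.log (1 - η) := by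
  have h2 : 0 < 1 - η := by linarith
  refine le_trans ?_ (Real.one_sub_inv_le_log_of_pos h2)
  have : (1 - η)⁻¹ ≤ 1 + 2 * η := by
    rw [inv_le_iff_one_le_mul₀ h2]; nlinarith
  linarith

omit [Fintype G] in
/-- The test statistic seen through the data is a hitting probability of a translate. -/
theorem step1_E_test [AddCommGroup G] (γ : ℕ → GI) (r : GI →+ G) (ξ : ℕ → G)
    (hξ : ∀ τ, ξ τ = r (γ τ)) (𝔅 : FD (Finset G)) (μ : FD (Finset ℕ)) (s : ℕ) (a : G) :
    μ.E (fun S => 𝔅.E (fun B => ind (∃ z ∈ data γ s S, a + r z ∈ B))) =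
      𝔅.E (fun B => hit ξ μ (B.image (fun v => v - (a - ξ s)))) := by
  rw [FD.E_comm]
  refine 𝔅.E_congr fun B _ => μ.E_congr fun S _ => ind_congr ?_
  constructor
  · rintro ⟨z, hz, hB⟩
    obtain ⟨τ, hτ, rfl⟩ := mem_image.1 hz
    refine ⟨τ, hτ, mem_image.2 ⟨_, hB, ?_⟩⟩
    rw [map_sub, ← hξ, ← hξ]; abel
  · rintro ⟨τ, hτ, hB⟩
    obtain ⟨v, hv, e⟩ := mem_image.1 hB
    refine ⟨_, mem_image_of_mem _ hτ, ?_⟩
    rw [map_sub, ← hξ, ← hξ, ← e]
    convert hv using 1; abel

set_option maxHeartbeats 800000 in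
theorem step1 [AddCommGroup G] (γ : ℕ → GI) (r : GI →+ G) (ξ : ℕ → G) (hξ : ∀ τ, ξ τ = r (γ τ))
    (hG : 2 ≤ Fintype.card G) (Pr : FD (ℕ × ℕ)) (κ : Ker) (φ h e : ℕ → G → ℝ)
    (hφ : ∀ s v, 0 ≤ φ s v) (hh : ∀ s v, 0 ≤ h s v) (he : ∀ s v, 0 ≤ e s v)
    {N η χ χ' β β' c : ℝ} {n b : ℕ} (hN : 0 < N) (hη0 : 0 < η) (hη1 : η ≤ 1 / 2)
    (hχ0 : 0 < χ) (hχ1 : χ ≤ 1) (hχ0' : 0 < χ') (hχ1' : χ' ≤ 1) (hβ : 0 < β) (hc : 0 ≤ c)
    (hcert : ∀ s (B : Finset G), B.card ≤ b →
      χ * (N / Fintype.card G) * ∑ v ∈ B, φ s v ≤ hit ξ (κ s) B)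
    (htrue : ∀ s v, hit ξ (κ s) {v} ≤ N / Fintype.card G * (h s v / χ' + e s v))
    (hb : b * Real.exp (2 * c) ≤ η * Fintype.card G)
    (hX : 2 * β * Real.log (Fintype.card G) ≤
      η ^ 2 * (1 - η) ^ 2 * χ * (n * N * b / Fintype.card G))
    (hβ' : 2 * β ≤ β' * χ * χ' * (1 - η) ^ 2) :
    ∃ q : (Fin n → Finset GI) × (Fin n → Finset GI) → G → ℝ, (∀ d z, 0 < q d z) ∧
      (∀ d, ∑ z, q d z ≤ 1) ∧
      dfc (2 * c) β' (fun v => (Geo Pr).E (fun s => h s v)) ≤
        2 * (Geo Pr).E (fun s => dfc c β (φ s)) + 3 * η +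
        2 * (Geo Pr).E (fun s => min (β' * Real.exp (2 * c) * avg (e s)) (2 * c + Real.log (1 / η))) +
        gain γ ξ Pr κ n q := by
  have hp2 : (2 : ℝ) ≤ Fintype.card G := by exact_mod_cast hG
  set p : ℝ := (Fintype.card G : ℝ) with hpdef
  have hp : 0 < p := by linarith
  have hη2 : 0 < 1 - η := by linarith
  set g : G → ℝ := fun v => (Geo Pr).E (fun s => h s v) with hg
  set K : ℝ := 2 * c + Real.log (1 / η) with hK
  have hlogη : Real.log (1 / η) = -Real.log η := by rw [one_div, Real.log_inv]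
  have hK0 : 0 ≤ K := add_nonneg (by linarith)
    (Real.log_nonneg (by rw [le_div_iff₀ hη0]; linarith))
  have hβ'0 : 0 < β' := by
    have h1 : 0 < β' * (χ * χ' * (1 - η) ^ 2) := by nlinarith
    exact (mul_pos_iff_of_pos_right (by positivity)).1 h1
  have hg0 : ∀ v, 0 ≤ g v := fun v => (Geo Pr).E_nonneg fun s _ => hh s v
  have hE0 : ∀ s, 0 ≤ β' * Real.exp (2 * c) * avg (e s) := fun s =>
    mul_nonneg (by positivity) (avg_nonneg (he s))
  rcases le_or_gt (2 * c) (ell β' g) with hcase | hcase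
  · refine ⟨fun _ _ => 1 / p, fun _ _ => by positivity, fun _ => ?_, ?_⟩
    · rw [sum_const, card_univ, nsmul_eq_mul, ← hpdef, mul_one_div_cancel hp.ne']
    · have e1 : gain γ ξ Pr κ n (fun _ _ => 1 / p) = 0 := by
        simp only [gain, ← hpdef, mul_one_div_cancel hp.ne', Real.log_one, FD.E_const]
      have e2 : dfc (2 * c) β' g = 0 := by rw [dfc, min_eq_right hcase, sub_self]
      have e3 : 0 ≤ (Geo Pr).E (fun s => dfc c β (φ s)) :=
        (Geo Pr).E_nonneg fun s _ => dfc_nonneg _ _ _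
      have e4 : 0 ≤ (Geo Pr).E (fun s => min (β' * Real.exp (2 * c) * avg (e s)) K) :=
        (Geo Pr).E_nonneg fun s _ => le_min (hE0 s) hK0
      rw [e1, e2]; linarith
  set π : G → ℝ := gib β' g with hπ
  have hπ0 : ∀ v, 0 ≤ π v := fun v => (gib_pos β' g v).le
  have hπle : ∀ v, π v ≤ Real.exp (2 * c) / p := fun v =>
    (gib_le (fun a => mul_nonneg hβ'0.le (hg0 a)) v).trans (by gcongr)
  have hbπ : ∀ v, b * π v ≤ η := fun v =>
    calc b * π v ≤ b * (Real.exp (2 * c) / p) := by gcongr; exact hπle v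
      _ ≤ η := by rw [← mul_div_assoc, div_le_iff₀ hp]; exact hb
  obtain ⟨𝔅, h𝔅c, h𝔅⟩ := exists_rand_sets π hπ0 (sum_gib β' g) b hbπ
  set X : ℝ := n * N * b / p with hXdef
  have hlogp : 0 < Real.log p := Real.log_pos (by linarith)
  have hX0 : 0 < X := by
    have h1 : 0 < η ^ 2 * (1 - η) ^ 2 * χ * X := lt_of_lt_of_le (by positivity) hX
    exact (mul_pos_iff_of_pos_left (by positivity)).1 h1
  set l : ℝ := β / (η * (1 - η) * (χ * (1 - η) * X)) with hl
  have hl0 : 0 ≤ l := by positivity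
  have hl1 : l * η * (1 - η) * (χ * (1 - η) * X) = β := by rw [hl]; field_simp
  have hl2 : 2 * l * Real.log p ≤ η := by
    have h1 : 2 * l * Real.log p = 2 * β * Real.log p / (η * (1 - η) * (χ * (1 - η) * X)) := by
      rw [hl]; ring
    rw [h1, div_le_iff₀ (by positivity)]
    refine hX.trans (le_of_eq (by ring))
  have hl3 : 2 * (l * η * X) ≤ β' * χ' := by
    refine le_of_mul_le_mul_right ?_ (by positivity : 0 < χ * (1 - η) ^ 2)
    calc 2 * (l * η * X) * (χ * (1 - η) ^ 2) = 2 * (l * η * (1 - η) * (χ * (1 - η) * X)) := by ring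
      _ = 2 * β := by rw [hl1]
      _ ≤ _ := hβ'.trans (le_of_eq (by ring))
  have hl4 : 0 ≤ l * η * X := by positivity
  have hl5 : l * η * X ≤ β' := by nlinarith
  let f : Finset GI → G → ℝ := fun d a => 𝔅.E (fun B => ind (∃ z ∈ d, a + r z ∈ B))
  have hf0 : ∀ d a, 0 ≤ f d a := fun d a => 𝔅.E_nonneg fun _ _ => ind_nonneg _
  have hf1 : ∀ d a, f d a ≤ 1 := fun d a => 𝔅.E_le_const fun _ _ => ind_le_one _
  obtain ⟨q₀, hq0, hq1, hq⟩ := soft_code n f hf0 hf1 hη0.le (by linarith) hl0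
  let mu : ℕ → G → ℝ := fun s a => χ * (1 - η) * X * ∑ v, π v * φ s (v - (a - ξ s))
  have hmu : ∀ s a, mu s a ≤ n * (κ s).E (fun S => f (data γ s S) a) := fun s a => by
    have e1 := (h𝔅 (fun v => φ s (v - (a - ξ s))) fun v => hφ s _).1
    have e2 : 𝔅.E (fun B => χ * (N / p) * ∑ v ∈ B, φ s (v - (a - ξ s))) ≤
        (κ s).E (fun S => f (data γ s S) a) := by
      simp only [f]
      rw [step1_E_test γ r ξ hξ]
      refine 𝔅.E_mono fun B hB => ?_
      have := hcert s (B.image fun v => v - (a - ξ s)) (card_image_le.trans (h𝔅c B hB))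
      rwa [sum_image fun x _ y _ e => sub_left_injective e] at this
    rw [FD.E_mul_left] at e2
    calc mu s a = n * (χ * (N / p) * ((1 - η) * (b * ∑ v, π v * φ s (v - (a - ξ s))))) := by
          simp only [mu, hXdef]; ring
      _ ≤ n * (χ * (N / p) * 𝔅.E (fun B => ∑ v ∈ B, φ s (v - (a - ξ s)))) := by gcongr
      _ ≤ _ := by gcongr
  let Hh : ℕ → ℝ := fun s => ∑ v, π v * h s v
  have hHh : ∀ s, 0 ≤ Hh s := fun s => sum_nonneg fun v _ => mul_nonneg (hπ0 v) (hh s v)
  have htr : ∀ s, n * (κ s).E (fun S => f (data γ s S) (ξ s)) ≤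
      X * (Hh s / χ' + Real.exp (2 * c) * avg (e s)) := fun s => by
    have e1 := (h𝔅 (fun v => N / p * (h s v / χ' + e s v)) fun v => by
      have := hh s v; have := he s v; positivity).2
    have e2 : (κ s).E (fun S => f (data γ s S) (ξ s)) ≤
        𝔅.E (fun B => ∑ v ∈ B, N / p * (h s v / χ' + e s v)) := by
      simp only [f]
      rw [step1_E_test γ r ξ hξ]
      refine 𝔅.E_mono fun B _ => ?_
      simp only [sub_self, sub_zero, image_id']
      exact (hit_le_sum ξ (κ s) B).trans (sum_le_sum fun v _ => htrue s v)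
    have e3 : ∑ v, π v * e s v ≤ Real.exp (2 * c) * avg (e s) := by
      refine (sum_le_sum fun v _ => mul_le_mul_of_nonneg_right (hπle v) (he s v)).trans
        (le_of_eq ?_)
      rw [← mul_sum, avg, ← hpdef]; ring
    have e4 : ∑ v, π v * (N / p * (h s v / χ' + e s v)) =
        N / p * (Hh s / χ' + ∑ v, π v * e s v) := by
      simp only [Hh]
      rw [sum_div, ← sum_add_distrib, mul_sum]
      exact sum_congr rfl fun v _ => by ring
    calc _ ≤ n * (b * ∑ v, π v * (N / p * (h s v / χ' + e s v))) := by gcongr; exact e2.trans e1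
      _ = X * (Hh s / χ' + ∑ v, π v * e s v) := by rw [e4, hXdef]; ring
      _ ≤ _ := by gcongr
  set W : ℝ := ell β' g - β' * ∑ v, π v * g v with hW
  have hW0 : 0 ≤ W := sub_nonneg.2 (gibbs_zero β' g)
  let q : (Fin n → Finset GI) × (Fin n → Finset GI) → G → ℝ := fun d z => (1 - η) * q₀ d z + η / p
  have hqa : ∀ d z, Real.log p - 2 * η + Real.log (q₀ d z) ≤ Real.log (p * q d z) := fun d z => by
    have e1 := hq0 d z
    have e2 : p * ((1 - η) * q₀ d z) ≤ p * q d z := by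
      simp only [q]; gcongr; exact le_add_of_nonneg_right (by positivity)
    have e3 := Real.log_le_log (by positivity) e2
    rw [Real.log_mul hp.ne' (by positivity), Real.log_mul hη2.ne' e1.ne'] at e3
    linarith [step1_log_one_sub hη0.le hη1]
  have hqb : ∀ d z, Real.log η ≤ Real.log (p * q d z) := fun d z => by
    refine Real.log_le_log hη0 ?_
    have e1 := hq0 d z
    have e2 : p * q d z = p * ((1 - η) * q₀ d z) + η := by simp only [q]; field_simp
    rw [e2]; exact le_add_of_nonneg_left (by positivity)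
  have inner : ∀ s s' : ℕ,
      ((c - dfc c β (φ s)) - l * η * X / χ' * Hh s - min (β' * Real.exp (2 * c) * avg (e s)) K) +
      ((c - dfc c β (φ s')) - l * η * X / χ' * Hh s' - min (β' * Real.exp (2 * c) * avg (e s')) K) -
        (W + 3 * η) ≤ (FD.iid n (κ s)).E (fun S => (FD.iid n (κ s')).E (fun S' =>
          Real.log (p * q (dataN γ s S, dataN γ s' S') (ξ s - ξ s')))) := by
    intro s s'
    have e1 := hq (κ s) (κ s') (data γ s) (data γ s') (ξ s) (ξ s') (mu s) (mu s')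
      (Real.log p + (W - ell β (φ s) - ell β (φ s'))) (hmu s) (hmu s') fun A => by
        have e := ruzsa β' β g (φ s) (φ s') (fun z => A z - ξ s) (fun z => A z - z - ξ s')
          (ξ s - ξ s') fun z => by abel
        rw [Real.exp_add, Real.exp_log hp]
        refine le_trans (le_of_eq (sum_congr rfl fun z _ => ?_)) e
        have e0 : ∀ t a, l * η * (1 - η) * mu t a = β * ∑ v, π v * φ t (v - (a - ξ t)) :=
          fun t a => by simp only [mu]; rw [← hl1]; ring
        rw [e0, e0]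
    have e2 : Real.log p - 2 * η + (FD.iid n (κ s)).E (fun S => (FD.iid n (κ s')).E (fun S' =>
        Real.log (q₀ (dataN γ s S, dataN γ s' S') (ξ s - ξ s')))) ≤
        (FD.iid n (κ s)).E (fun S => (FD.iid n (κ s')).E (fun S' =>
          Real.log (p * q (dataN γ s S, dataN γ s' S') (ξ s - ξ s')))) := by
      rw [← (FD.iid n (κ s)).E_const (Real.log p - 2 * η), ← FD.E_add]
      refine FD.E_mono _ fun S _ => ?_
      rw [← (FD.iid n (κ s')).E_const (Real.log p - 2 * η), ← FD.E_add]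
      exact FD.E_mono _ fun S' _ => hqa _ _
    have e3 : Real.log η ≤ (FD.iid n (κ s)).E (fun S => (FD.iid n (κ s')).E (fun S' =>
        Real.log (p * q (dataN γ s S, dataN γ s' S') (ξ s - ξ s')))) :=
      FD.const_le_E _ fun S _ => FD.const_le_E _ fun S' _ => hqb _ _
    have e4 : ∀ t, l * η * (n * (κ t).E (fun S => f (data γ t S) (ξ t))) ≤
        l * η * X / χ' * Hh t + β' * Real.exp (2 * c) * avg (e t) := fun t =>
      calc _ ≤ l * η * (X * (Hh t / χ' + Real.exp (2 * c) * avg (e t))) :=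
            mul_le_mul_of_nonneg_left (htr t) (by positivity)
        _ = l * η * X / χ' * Hh t + l * η * X * (Real.exp (2 * c) * avg (e t)) := by ring
        _ ≤ l * η * X / χ' * Hh t + β' * (Real.exp (2 * c) * avg (e t)) := by
            have := avg_nonneg (he t)
            gcongr
        _ = _ := by ring
    have e5 := sub_dfc_le_ell c β (φ s)
    have e6 := sub_dfc_le_ell c β (φ s')
    have e7 := step1_min_add (hE0 s) (hE0 s') hK0
    have e8 : ∀ t, 0 ≤ l * η * X / χ' * Hh t := fun t => mul_nonneg (by positivity) (hHh t)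
    have e9 := dfc_nonneg c β (φ s)
    have e10 := dfc_nonneg c β (φ s')
    have e11 := e4 s
    have e12 := e4 s'
    have e13 := e8 s
    have e14 := e8 s'
    change _ ≤ (FD.iid n (κ s)).E (fun S => (FD.iid n (κ s')).E (fun S' =>
      Real.log (q₀ (dataN γ s S, dataN γ s' S') (ξ s - ξ s')))) at e1
    rw [mul_add] at e1
    rcases le_total (β' * Real.exp (2 * c) * avg (e s) + β' * Real.exp (2 * c) * avg (e s')) K
      with h1 | h1
    · rw [min_eq_left h1] at e7; linarith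
    · rw [min_eq_right h1] at e7; linarith
  refine ⟨q, fun d z => by have := hq0 d z; positivity, fun d => le_of_eq ?_, ?_⟩
  · simp only [q]
    rw [sum_add_distrib, ← mul_sum, hq1, sum_const, card_univ, nsmul_eq_mul, ← hpdef]
    field_simp; ring
  · have e1 := Pr.E_mono fun x _ => inner x.1 x.2
    have e2 : ∀ F : ℕ → ℝ, Pr.E (fun x => F x.1 + F x.2) = 2 * (Geo Pr).E F := fun F => by
      rw [E_Geo, FD.E_div]; ring
    have e3 : (Geo Pr).E Hh = ∑ v, π v * g v := by
      simp only [Hh, hg]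
      rw [FD.E_sum]
      exact sum_congr rfl fun v _ => FD.E_mul_left _ _ _
    rw [FD.E_sub, FD.E_const, e2 (fun s => (c - dfc c β (φ s)) - l * η * X / χ' * Hh s -
      min (β' * Real.exp (2 * c) * avg (e s)) K), FD.E_sub, FD.E_sub, FD.E_sub, FD.E_const,
      FD.E_mul_left, e3] at e1
    have e4 : 2 * (l * η * X / χ' * ∑ v, π v * g v) ≤ β' * ∑ v, π v * g v := by
      rw [← mul_assoc]
      refine mul_le_mul_of_nonneg_right ?_ (sum_nonneg fun v _ => mul_nonneg (hπ0 v) (hg0 v))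
      rw [← mul_div_assoc, div_le_iff₀ hχ0']; exact hl3
    have e5 : dfc (2 * c) β' g = 2 * c - ell β' g := by rw [dfc, min_eq_left hcase.le]
    change _ ≤ gain γ ξ Pr κ n q at e1
    rw [e5]; linarith

end Crest.Agent.R2
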