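import Crest.Agent.R2.Step1
import Crest.Agent.R2.Pair

/-!
# Row 2: the doubling step for all primes

Recipes.
* `sum_gain_le`: `∑_{p ∈ Q} gain = E E E log ∏_p (p * q p d (ξ_p s - ξ_p s'))` (`FD.E_sum`, `Real.log_prod`);
  three uses of `FD.E_log_le` (and monotonicity of `log`) move `log` outside. For fixed `x = (s, s')` the
  double expectation of `Φ d = ∏ ..` is `≤ ∑_{d ∈ T^n ×ˢ T^n} Φ d` (`FD.E_le_const`, `single_le_sum`,
  `Fintype.piFinset (fun _ => T)`, `FD.mem_supp_iid`); swap with `Pr.E` (`FD.E_sum`) and use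
  `PairOK.unif` with `F p a = p * q p d a`, `avg (F p) = ∑ q ≤ 1`. `card = |T| ^ (2 n) ≤ exp (2 n H)`.
* `card_bad_le`: `sum_log_le_log_norm`, `norm_le_of_mem_box`.
* `stepAll`: for `p ∈ Ps` let `b p = ⌊η p / (N F)⌋₊ ≥ η p / (2 N F)` (as `η p / (N F) ≥ 1`), get `q p` from
  `step1` (`choose`; for `p ∉ Ps` any positive code, e.g. `1 / p`; `r = (res p).toAddMonoidHom`;
  `log p ≤ 2 log y`). Let `𝒢 = {p ∈ Ps | res p h₀ ≠ 0 ∧ η < gain p}`. If `j ≤ |𝒢|` take a `j`-subset `Q`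
  (`exists_subset_card_eq`), `∏ Q ≤ y ^ (2 j) ≤ N₀`, `j η < ∑ gain ≤ log C + 2 n H ≤ j η`, absurd. For `p` in
  `𝒢` or with `res p h₀ = 0` use `dfc ≤ 2 c` (`dfc_le`) and `w p ≤ 400 / y`; for the others `gain ≤ η`.
-/

set_option autoImplicit false
open Finset

noncomputable section
namespace Crest.Agent.R2
open Classical

theorem sa_sum_ind {ι : Type} (s : Finset ι) (p : ι → Prop) [DecidablePred p] :
    ∑ i ∈ s, ind (p i) = ((s.filter p).card : ℝ) := by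
  convert sum_ind_eq_card s p

theorem sum_gain_le {γ : ℕ → GI} {D : ℕ} {C : ℝ} {t G N₀ : ℕ} {Pr : FD (ℕ × ℕ)} {h₀ : GI}
    (hP : PairOK γ D C t G N₀ Pr h₀) (hC : 1 ≤ C) {κ : Ker} {H : ℝ} (hc : Cnt γ κ H) (n : ℕ)
    (q : (p : P1) → (Fin n → Finset GI) × (Fin n → Finset GI) → ZMod p.1 → ℝ) (Q : Finset P1)
    (hq0 : ∀ p d z, 0 < q p d z) (hq1 : ∀ p d, ∑ z, q p d z ≤ 1)
    (hQ : ∀ p ∈ Q, res p h₀ ≠ 0) (hN₀ : ∏ p ∈ Q, p.1 ≤ N₀) :
    ∑ p ∈ Q, gain γ (xi γ p) Pr κ n (q p) ≤ Real.log C + 2 * n * H := by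
  obtain ⟨T, hT, hTm⟩ := hc
  let TN : Finset (Fin n → Finset GI) := Fintype.piFinset (fun _ => T)
  let Φ : (Fin n → Finset GI) × (Fin n → Finset GI) → ℕ × ℕ → ℝ := fun d x =>
    ∏ p ∈ Q, ((Fintype.card (ZMod p.1) : ℝ) * q p d (xi γ p x.1 - xi γ p x.2))
  have hpos : ∀ (p : P1) d z, 0 < (Fintype.card (ZMod p.1) : ℝ) * q p d z := fun p d z =>
    mul_pos card_pos' (hq0 p d z)
  have hΦ : ∀ d x, 0 < Φ d x := fun d x => prod_pos (fun p _ => hpos p d _)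
  have hmem : ∀ s, ∀ S ∈ (FD.iid n (κ s)).supp, dataN γ s S ∈ TN := fun s S hS =>
    Fintype.mem_piFinset.2 (fun i => hTm s _ (FD.mem_supp_iid.1 hS i))
  have hne : (TN ×ˢ TN).Nonempty := by
    obtain ⟨S, hS⟩ := (FD.iid n (κ 0)).supp_nonempty
    exact ⟨(dataN γ 0 S, dataN γ 0 S), mem_product.2 ⟨hmem 0 S hS, hmem 0 S hS⟩⟩
  have hΨ : ∀ x, 0 < ∑ d ∈ TN ×ˢ TN, Φ d x := fun x => sum_pos (fun d _ => hΦ d x) hne
  have h1 : ∑ p ∈ Q, gain γ (xi γ p) Pr κ n (q p) ≤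
      Pr.E (fun x => Real.log (∑ d ∈ TN ×ˢ TN, Φ d x)) := by
    unfold gain
    rw [← FD.E_sum]
    refine Pr.E_mono (fun x _ => ?_)
    rw [← FD.E_sum]
    refine FD.E_le_const _ (fun S hS => ?_)
    rw [← FD.E_sum]
    refine FD.E_le_const _ (fun S' hS' => ?_)
    rw [← Real.log_prod (fun p _ => (hpos p _ _).ne')]
    exact Real.log_le_log (hΦ (dataN γ x.1 S, dataN γ x.2 S') x)
      (single_le_sum (f := fun d => Φ d x) (fun d _ => (hΦ d x).le)
        (mem_product.2 ⟨hmem _ S hS, hmem _ S' hS'⟩))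
  have h2 : ∀ d, Pr.E (Φ d) ≤ C := by
    intro d
    have h := hP.unif Q hQ hN₀ (fun p a => (Fintype.card (ZMod p.1) : ℝ) * q p d a)
      (fun p a => (hpos p d a).le)
    refine h.trans (mul_le_of_le_one_right (by linarith) (prod_le_one (fun p _ => ?_) (fun p _ => ?_)))
    · exact avg_nonneg (fun a => (hpos p d a).le)
    · unfold avg
      rw [← mul_sum, mul_div_cancel_left₀ _ (card_pos' (G := ZMod p.1)).ne']
      exact hq1 p d
  have h3 : (((TN ×ˢ TN).card : ℕ) : ℝ) ≤ Real.exp (2 * n * H) := by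
    rw [card_product, Fintype.card_piFinset]
    simp only [prod_const, card_univ, Fintype.card_fin]
    push_cast
    have e : Real.exp (2 * n * H) = Real.exp H ^ n * Real.exp H ^ n := by
      rw [← Real.exp_nat_mul, ← Real.exp_add]
      congr 1
      ring
    have h4 : (T.card : ℝ) ^ n ≤ Real.exp H ^ n := pow_le_pow_left₀ (Nat.cast_nonneg _) hT n
    rw [e]
    exact mul_le_mul h4 h4 (by positivity) (by positivity)
  have h4 : Pr.E (fun x => ∑ d ∈ TN ×ˢ TN, Φ d x) ≤ C * Real.exp (2 * n * H) := by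
    rw [FD.E_sum]
    refine (sum_le_sum (fun d _ => h2 d)).trans ?_
    rw [sum_const, nsmul_eq_mul, mul_comm]
    exact mul_le_mul_of_nonneg_left h3 (by linarith)
  refine h1.trans ((Pr.E_log_le (fun x _ => hΨ x)).trans ?_)
  refine (Real.log_le_log (Pr.E_pos (fun x _ => hΨ x)) h4).trans (le_of_eq ?_)
  rw [Real.log_mul (by linarith) (Real.exp_pos _).ne', Real.log_exp]

theorem card_bad_le {y R : ℕ} (hy : 2 ≤ y) {Ps : Finset P1} (hlo : ∀ p ∈ Ps, y ≤ p.1) {h₀ : GI}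
    (h0 : h₀ ≠ 0) (hR : h₀ ∈ box R) :
    ((Ps.filter (fun p => res p h₀ = 0)).card : ℝ) ≤ Real.log (2 * (R : ℝ) ^ 2) / Real.log y := by
  have hy' : (1 : ℝ) < y := by exact_mod_cast hy
  have hl : 0 < Real.log y := Real.log_pos hy'
  rw [le_div_iff₀ hl, ← sa_sum_ind, sum_mul]
  have h1 : ∑ p ∈ Ps, ind (res p h₀ = 0) * Real.log y ≤
      ∑ p ∈ Ps, Real.log p.1 * ind (res p h₀ = 0) := by
    refine sum_le_sum (fun p hp => ?_)
    rw [mul_comm]
    exact mul_le_mul_of_nonneg_right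
      (Real.log_le_log (by linarith) (by exact_mod_cast hlo p hp)) (ind_nonneg _)
  refine h1.trans ((sum_log_le_log_norm Ps h0).trans (Real.log_le_log ?_ ?_))
  · exact_mod_cast lt_of_lt_of_le zero_lt_one (one_le_norm h0)
  · exact_mod_cast norm_le_of_mem_box hR

theorem stepAll {γ : ℕ → GI} {D y : ℕ} {Ps : Finset P1} {w : P1 → ℝ} (hF : Fam y Ps w) (hy : 2 ≤ y)
    {C : ℝ} {t G N₀ : ℕ} {Pr : FD (ℕ × ℕ)} {h₀ : GI} (hP : PairOK γ D C t G N₀ Pr h₀) (hC : 1 ≤ C)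
    {κ : Ker} {H : ℝ} (hc : Cnt γ κ H) (φ h e : ℕ → (p : P1) → ZMod p.1 → ℝ)
    (hφ : ∀ s p v, 0 ≤ φ s p v) (hh : ∀ s p v, 0 ≤ h s p v) (he : ∀ s p v, 0 ≤ e s p v)
    {N F η χ χ' β β' c : ℝ} {n j : ℕ} (hN : 0 < N) (hFpos : 0 < F) (hη0 : 0 < η) (hη1 : η ≤ 1 / 2)
    (hχ0 : 0 < χ) (hχ1 : χ ≤ 1) (hχ0' : 0 < χ') (hχ1' : χ' ≤ 1) (hβ : 0 < β) (hc0 : 0 ≤ c)
    (hcert : ∀ p ∈ Ps, ∀ s (B : Finset (ZMod p.1)), (B.card : ℝ) * N * F ≤ η * p.1 →
      χ * (N / p.1) * ∑ v ∈ B, φ s p v ≤ hit (xi γ p) (κ s) B)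
    (htrue : ∀ p ∈ Ps, ∀ s v, hit (xi γ p) (κ s) {v} ≤ N / p.1 * (h s p v / χ' + e s p v))
    (h1 : Real.exp (2 * c) ≤ N * F) (h2 : N * F ≤ η * y)
    (h3 : 8 * β * Real.log y * F ≤ η ^ 3 * (1 - η) ^ 2 * χ * n)
    (h4 : 2 * β ≤ β' * χ * χ' * (1 - η) ^ 2)
    (hj : 1 ≤ j) (h5 : y ^ (2 * j) ≤ N₀) (h6 : Real.log C + 2 * n * H ≤ j * η)
    (h7 : (j + Real.log (2 * ((D : ℝ) * G) ^ 2) / Real.log y) * (400 / y) * (2 * c) ≤ η) :
    ∑ p ∈ Ps, w p * dfc (2 * c) β' (fun v => (Geo Pr).E (fun s => h s p v)) ≤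
      2 * (Geo Pr).E (fun s => ∑ p ∈ Ps, w p * dfc c β (φ s p)) + 5 * η +
      2 * (Geo Pr).E (fun s => ∑ p ∈ Ps,
        w p * min (β' * Real.exp (2 * c) * avg (e s p)) (2 * c + Real.log (1 / η))) := by
  have hy' : (1 : ℝ) < y := by exact_mod_cast hy
  have hl : 0 < Real.log y := Real.log_pos hy'
  have hNF : 0 < N * F := mul_pos hN hFpos
  have hη2 : 0 < 1 - η := by linarith
  have hβ' : 0 < β' := by
    by_contra hb
    have : β' * (χ * χ' * (1 - η) ^ 2) ≤ 0 :=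
      mul_nonpos_of_nonpos_of_nonneg (not_lt.1 hb) (by positivity)
    nlinarith
  set A : P1 → ℝ := fun p => 2 * (Geo Pr).E (fun s => dfc c β (φ s p)) +
    2 * (Geo Pr).E (fun s => min (β' * Real.exp (2 * c) * avg (e s p)) (2 * c + Real.log (1 / η)))
    with hA
  set L : P1 → ℝ := fun p => dfc (2 * c) β' (fun v => (Geo Pr).E (fun s => h s p v)) with hL
  have hA0 : ∀ p, 0 ≤ A p := by
    intro p
    have e1 : 0 ≤ (Geo Pr).E (fun s => dfc c β (φ s p)) := FD.E_nonneg _ (fun s _ => dfc_nonneg _ _ _)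
    have e2 : 0 ≤ (Geo Pr).E
        (fun s => min (β' * Real.exp (2 * c) * avg (e s p)) (2 * c + Real.log (1 / η))) := by
      refine FD.E_nonneg _ (fun s _ => le_min ?_ ?_)
      · exact mul_nonneg (by positivity) (avg_nonneg (he s p))
      · have : 0 ≤ Real.log (1 / η) := Real.log_nonneg (by rw [le_div_iff₀ hη0]; linarith)
        linarith
    simp only [hA]
    linarith
  have hL2 : ∀ p, L p ≤ 2 * c := fun p =>
    dfc_le (by linarith) (fun a => mul_nonneg hβ'.le (FD.E_nonneg _ (fun s _ => hh s p a)))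
  have hex : ∀ p : P1, ∃ q : (Fin n → Finset GI) × (Fin n → Finset GI) → ZMod p.1 → ℝ,
      (∀ d z, 0 < q d z) ∧ (∀ d, ∑ z, q d z ≤ 1) ∧
      (p ∈ Ps → L p ≤ A p + 3 * η + gain γ (xi γ p) Pr κ n q) := by
    intro p
    by_cases hp : p ∈ Ps
    swap
    · refine ⟨fun _ _ => 1 / (Fintype.card (ZMod p.1) : ℝ), fun _ _ => one_div_pos.2 card_pos',
        fun _ => ?_, fun h => absurd h hp⟩
      rw [sum_const, card_univ, nsmul_eq_mul, mul_one_div_cancel (card_pos' (G := ZMod p.1)).ne']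
    have hlo : (y : ℝ) ≤ p.1 := by exact_mod_cast hF.lo p hp
    have hhi : (p.1 : ℝ) ≤ (y : ℝ) ^ 2 := by exact_mod_cast hF.hi p hp
    have hp0 : (0 : ℝ) < p.1 := by linarith
    have hr1 : 1 ≤ η * p.1 / (N * F) := by
      rw [le_div_iff₀ hNF]
      nlinarith
    have hb1 : (⌊η * p.1 / (N * F)⌋₊ : ℝ) * (N * F) ≤ η * p.1 := by
      rw [← le_div_iff₀ hNF]
      exact Nat.floor_le (by linarith)
    have hb2 : η * p.1 ≤ 2 * ((⌊η * p.1 / (N * F)⌋₊ : ℝ) * (N * F)) := by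
      have e1 := Nat.lt_floor_add_one (η * p.1 / (N * F))
      have e2 : (1 : ℝ) ≤ ⌊η * p.1 / (N * F)⌋₊ := by exact_mod_cast Nat.le_floor (by exact_mod_cast hr1)
      have e3 : η * p.1 / (N * F) ≤ 2 * ⌊η * p.1 / (N * F)⌋₊ := by linarith
      rw [div_le_iff₀ hNF] at e3
      linarith
    generalize ⌊η * p.1 / (N * F)⌋₊ = b at hb1 hb2
    have hlog : Real.log p.1 ≤ 2 * Real.log y := by
      have := Real.log_le_log hp0 hhi
      rwa [Real.log_pow, Nat.cast_ofNat] at this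
    obtain ⟨q, hq0, hq1, hq⟩ := step1 γ (res p).toAddMonoidHom (xi γ p) (fun _ => rfl)
      (by rw [card_zmod]; exact p.2.1.two_le) Pr κ (fun s => φ s p) (fun s => h s p) (fun s => e s p)
      (fun s => hφ s p) (fun s => hh s p) (fun s => he s p) (β' := β') (n := n) (b := b)
      hN hη0 hη1 hχ0 hχ1 hχ0' hχ1' hβ hc0
      (fun s B hB => by
        rw [card_zmod]
        refine hcert p hp s B ?_
        have : (B.card : ℝ) ≤ b := by exact_mod_cast hB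
        nlinarith)
      (fun s v => by rw [card_zmod]; exact htrue p hp s v)
      (by
        rw [card_zmod]
        exact (mul_le_mul_of_nonneg_left h1 (Nat.cast_nonneg _)).trans hb1)
      (by
        rw [card_zmod]
        have e1 : η / (2 * F) ≤ N * b / p.1 := by
          rw [div_le_div_iff₀ (by positivity) hp0]
          linarith
        have e2 : η ^ 2 * (1 - η) ^ 2 * χ * n * (η / (2 * F)) ≤
            η ^ 2 * (1 - η) ^ 2 * χ * n * (N * b / p.1) :=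
          mul_le_mul_of_nonneg_left e1 (by positivity)
        have e3 : 4 * β * Real.log y ≤ η ^ 2 * (1 - η) ^ 2 * χ * n * (η / (2 * F)) := by
          rw [← mul_div_assoc, le_div_iff₀ (by positivity)]
          linarith
        have e4 : 2 * β * Real.log p.1 ≤ 2 * β * (2 * Real.log y) :=
          mul_le_mul_of_nonneg_left hlog (by positivity)
        have e5 : η ^ 2 * (1 - η) ^ 2 * χ * (n * N * b / p.1) =
            η ^ 2 * (1 - η) ^ 2 * χ * n * (N * b / p.1) := by ring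
        rw [e5]
        linarith)
      h4
    refine ⟨q, hq0, hq1, fun _ => ?_⟩
    simp only [hA, hL]
    linarith
  choose q hq0 hq1 hq using hex
  set 𝒢 := Ps.filter (fun p => res p h₀ ≠ 0 ∧ η < gain γ (xi γ p) Pr κ n (q p)) with h𝒢
  have hcard : 𝒢.card ≤ j := by
    by_contra hlt
    obtain ⟨Q, hQ, hQc⟩ := exists_subset_card_eq (not_le.1 hlt).le
    have hQ' : ∀ p ∈ Q, p ∈ Ps ∧ res p h₀ ≠ 0 ∧ η < gain γ (xi γ p) Pr κ n (q p) :=
      fun p hp => mem_filter.1 (hQ hp)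
    have e1 : ∏ p ∈ Q, p.1 ≤ N₀ := by
      refine (prod_le_pow_card Q _ (y ^ 2) (fun p hp => hF.hi p (hQ' p hp).1)).trans ?_
      rw [hQc, ← pow_mul]
      exact h5
    have e2 := sum_gain_le hP hC hc n q Q hq0 hq1 (fun p hp => (hQ' p hp).2.1) e1
    have e3 : ∑ _p ∈ Q, η < ∑ p ∈ Q, gain γ (xi γ p) Pr κ n (q p) :=
      sum_lt_sum_of_nonempty (card_pos.1 (by omega)) (fun p hp => (hQ' p hp).2.2)
    rw [sum_const, hQc, nsmul_eq_mul] at e3
    linarith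
  have hbad := card_bad_le hy hF.lo hP.ne hP.mem
  push_cast at hbad
  have hw : (0 : ℝ) ≤ 400 / y := by positivity
  have hpt : ∀ p ∈ Ps, w p * L p ≤ w p * A p + w p * (4 * η) + 400 / y * (2 * c) *
      (ind (res p h₀ ≠ 0 ∧ η < gain γ (xi γ p) Pr κ n (q p)) + ind (res p h₀ = 0)) := by
    intro p hp
    have w0 := hF.nonneg p
    have w1 := hF.wmax p hp
    have e1 : w p * L p ≤ 400 / y * (2 * c) :=
      (mul_le_mul_of_nonneg_left (hL2 p) w0).trans (mul_le_mul_of_nonneg_right w1 (by linarith))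
    have e2 : 0 ≤ w p * A p := mul_nonneg w0 (hA0 p)
    have e3 : 0 ≤ w p * (4 * η) := mul_nonneg w0 (by linarith)
    have e4 : 0 ≤ 400 / y * (2 * c) := mul_nonneg hw (by linarith)
    by_cases hz : res p h₀ = 0
    · rw [ind_pos hz, ind_neg (fun h => h.1 hz)]
      linarith
    · rw [ind_neg hz]
      by_cases hg : η < gain γ (xi γ p) Pr κ n (q p)
      · rw [ind_pos ⟨hz, hg⟩]
        linarith
      · rw [ind_neg (fun h => hg h.2)]
        have e5 : L p ≤ A p + 4 * η := by linarith [hq p hp, not_lt.1 hg]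
        have e6 := mul_le_mul_of_nonneg_left e5 w0
        linarith
  have hsum := sum_le_sum hpt
  have e0 : ∑ p ∈ Ps, ind (res p h₀ ≠ 0 ∧ η < gain γ (xi γ p) Pr κ n (q p)) = (𝒢.card : ℝ) :=
    sa_sum_ind _ _
  have e0' : ∑ p ∈ Ps, ind (res p h₀ = 0) = ((Ps.filter (fun p => res p h₀ = 0)).card : ℝ) :=
    sa_sum_ind _ _
  rw [sum_add_distrib, sum_add_distrib, ← sum_mul, hF.sum_one, ← mul_sum, sum_add_distrib,
    e0, e0'] at hsum
  have hj' : (𝒢.card : ℝ) ≤ j := by exact_mod_cast hcard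
  have e1 : 400 / y * (2 * c) * ((𝒢.card : ℝ) + ((Ps.filter (fun p => res p h₀ = 0)).card : ℝ)) ≤
      400 / y * (2 * c) * (j + Real.log (2 * ((D : ℝ) * G) ^ 2) / Real.log y) :=
    mul_le_mul_of_nonneg_left (add_le_add hj' hbad) (mul_nonneg hw (by linarith))
  have e2 : ∑ p ∈ Ps, w p * A p =
      2 * (Geo Pr).E (fun s => ∑ p ∈ Ps, w p * dfc c β (φ s p)) +
      2 * (Geo Pr).E (fun s => ∑ p ∈ Ps,
        w p * min (β' * Real.exp (2 * c) * avg (e s p)) (2 * c + Real.log (1 / η))) := by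
    rw [FD.E_sum, FD.E_sum, mul_sum, mul_sum, ← sum_add_distrib]
    refine sum_congr rfl (fun p _ => ?_)
    rw [FD.E_mul_left, FD.E_mul_left]
    simp only [hA]
    ring
  rw [e2] at hsum
  linarith

end Crest.Agent.R2
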